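import Vale.Agent.P249.Pair

/-! Averaging over the parameters. -/

namespace Vale.Agent.P249

open Finset

lemma geo_ind {p M a : ℝ} (hp : 1 ≤ p) (hM : 0 ≤ M) (n : ℕ) :
    ∑ i ∈ range n, Real.exp (p * (a + i)) * (if Real.exp (a + i) < M then 1 else 0)
      ≤ 2 * M ^ p := by
  have key : ∀ n : ℕ, ∑ i ∈ range n, Real.exp (p * (a + i)) *
      (if Real.exp (a + i) < M then 1 else 0) ≤ 2 * M ^ p ∧
      ∑ i ∈ range n, Real.exp (p * (a + i)) * (if Real.exp (a + i) < M then 1 else 0)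
        ≤ Real.exp (p * (a + n)) := by
    intro n
    induction n with
    | zero => simp [Real.rpow_nonneg hM, (Real.exp_pos _).le]
    | succ n ih =>
      rw [sum_range_succ]
      have e1 : 2 * Real.exp (p * (a + n)) ≤ Real.exp (p * (a + (n + 1 : ℕ))) := by
        push_cast
        rw [show p * (a + (n + 1)) = p + p * (a + n) by ring, Real.exp_add]
        exact mul_le_mul_of_nonneg_right (by linarith [Real.add_one_le_exp p]) (Real.exp_pos _).le
      have e0 := Real.exp_pos (p * (a + n))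
      split_ifs with h
      · have : Real.exp (p * (a + n)) ≤ M ^ p := by
          rw [mul_comm, Real.exp_mul]
          exact Real.rpow_le_rpow (Real.exp_pos _).le h.le (by linarith)
        constructor <;> linarith [ih.1, ih.2]
      · constructor <;> linarith [ih.1, ih.2]
  exact (key n).1

lemma geo_theta {θ0 g : ℝ} (hθ : 0 ≤ θ0) (hg : 0 ≤ g) (I : ℕ) :
    ∑ i ∈ range I, (if θ0 * 2 ^ i / 2 < g then (1 : ℝ) else 0) * (θ0 * 2 ^ i) ≤ 4 * g := by
  have key : ∀ I : ℕ, ∑ i ∈ range I, (if θ0 * 2 ^ i / 2 < g then (1 : ℝ) else 0) * (θ0 * 2 ^ i)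
      ≤ 4 * g ∧ ∑ i ∈ range I, (if θ0 * 2 ^ i / 2 < g then (1 : ℝ) else 0) * (θ0 * 2 ^ i)
        ≤ θ0 * 2 ^ I := by
    intro I
    induction I with
    | zero => simp [hθ, hg]
    | succ n ih =>
      rw [sum_range_succ, pow_succ]
      have : 0 ≤ θ0 * 2 ^ n := by positivity
      split_ifs with h <;> constructor <;> linarith [ih.1, ih.2]
  exact (key I).1

lemma exists_cut {ρ d : ℝ} (h0 : rad ρ 0 ≤ d) (m : ℕ) (h1 : d ≤ rad ρ (m + 1)) :
    ∃ j, j ≤ m ∧ rad ρ j ≤ d ∧ d ≤ rad ρ (j + 1) := by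
  induction m with
  | zero => exact ⟨0, le_rfl, h0, h1⟩
  | succ m ih =>
    by_cases h : d ≤ rad ρ (m + 1)
    · obtain ⟨j, a, b, c⟩ := ih h; exact ⟨j, by omega, b, c⟩
    · exact ⟨m + 1, le_rfl, (not_le.1 h).le, h1⟩

lemma mod_hits {K0 : ℕ} (c : Fin K0) (j : ℕ) : ∃ l, l < K0 ∧ (j + l) % K0 = c := by
  have hK : 0 < K0 := c.pos
  refine ⟨(c + (K0 - j % K0)) % K0, Nat.mod_lt _ hK, ?_⟩
  have h1 := Nat.mod_lt j hK
  rw [Nat.add_mod_mod, ← Nat.mod_add_mod,
    show j % K0 + (c + (K0 - j % K0)) = c + K0 by omega, Nat.add_mod_right, Nat.mod_eq_of_lt c.2]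

variable {X : Type*} [Fintype X] [MetricSpace X]

lemma exists_scales (x0 : X) : ∃ ρ : ℝ, 0 < ρ ∧ ∃ m : ℕ, (∀ x y : X, x ≠ y → rad ρ 0 ≤ dist x y) ∧
    ∀ x y : X, dist x y ≤ rad ρ (m + 1) := by
  classical
  obtain ⟨q, -, hq⟩ := exists_min_image (univ : Finset (X × X))
    (fun q => if q.1 = q.2 then 1 else dist q.1 q.2) ⟨(x0, x0), mem_univ _⟩
  set ρ := if q.1 = q.2 then 1 else dist q.1 q.2 with hρ
  have ρ0 : 0 < ρ := by
    rw [hρ]; split_ifs with h
    · norm_num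
    · exact dist_pos.2 h
  obtain ⟨m, hm⟩ := pow_unbounded_of_one_lt ((∑ q : X × X, dist q.1 q.2) / ρ)
    (show (1 : ℝ) < 2 by norm_num)
  refine ⟨ρ, ρ0, m, fun x y h => ?_, fun x y => ?_⟩
  · have := hq (x, y) (mem_univ _)
    simp only [if_neg h] at this
    simpa [rad] using this
  · have h1 := single_le_sum (f := fun q : X × X => dist q.1 q.2) (fun _ _ => dist_nonneg)
      (mem_univ (x, y))
    rw [div_lt_iff₀ ρ0] at hm
    have : 0 < (2 : ℝ) ^ m * ρ := by positivity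
    simp only at h1
    unfold rad; rw [pow_succ]; linarith

lemma NB_mul_le {ρ θ L : ℝ} (hρ : 0 < ρ) (hL : Real.log (Fintype.card X) ≤ L) (m : ℕ) (x : X) :
    NB ρ θ m x * θ ≤ 2 * L := by
  unfold NB
  rw [sum_mul]
  have : ∀ i ∈ range m, (if θ / 2 < gr ρ x i then (1 : ℝ) else 0) * θ ≤ 2 * gr ρ x i := by
    intro i _
    have := gr_nonneg hρ x i
    split_ifs <;> linarith
  refine (sum_le_sum this).trans ?_
  rw [← mul_sum]; linarith [sum_gr_le hρ x m hL]

lemma sum_NB_le {ρ θ0 L : ℝ} (hρ : 0 < ρ) (hθ : 0 ≤ θ0) (hL : Real.log (Fintype.card X) ≤ L)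
    (m I : ℕ) (x : X) : ∑ i : Fin I, NB ρ (θ0 * 2 ^ (i : ℕ)) m x * (θ0 * 2 ^ (i : ℕ)) ≤ 4 * L := by
  rw [Fin.sum_univ_eq_sum_range (fun i => NB ρ (θ0 * 2 ^ i) m x * (θ0 * 2 ^ i))]
  unfold NB
  simp only [sum_mul]
  rw [sum_comm]
  refine (sum_le_sum fun l _ => geo_theta hθ (gr_nonneg hρ x l) I).trans ?_
  rw [← mul_sum]; linarith [sum_gr_le hρ x m hL]

lemma sum_GF_le {ρ L : ℝ} (hρ : 0 < ρ) (hL : Real.log (Fintype.card X) ≤ L) (m K0 : ℕ) (x : X) :
    ∑ c : Fin K0, GF ρ (fun l => l % K0 = c) m x ≤ L := by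
  unfold GF
  rw [sum_comm]
  refine le_trans (sum_le_sum fun l _ => ?_) (sum_gr_le hρ x m hL)
  have hg := gr_nonneg hρ x l
  by_cases h : ∃ c : Fin K0, l % K0 = c
  · obtain ⟨c, hc⟩ := h
    rw [sum_eq_single c, if_pos hc]
    · intro b _ hb; rw [if_neg]; intro h; exact hb (Fin.ext (by omega))
    · simp
  · push Not at h
    rw [sum_eq_zero fun c _ => if_neg (h c)]; exact hg

lemma GF_le {ρ L : ℝ} {F : ℕ → Prop} [DecidablePred F] (hρ : 0 < ρ)
    (hL : Real.log (Fintype.card X) ≤ L) (m : ℕ) (x : X) : GF ρ F m x ≤ L := by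
  refine le_trans (sum_le_sum fun l _ => ?_) (sum_gr_le hρ x m hL)
  have hg := gr_nonneg hρ x l
  split_ifs <;> linarith

lemma avg_le {Θ : Type*} [Fintype Θ] [Nonempty Θ] {f : Θ → ℝ} {c : ℝ} (h : ∀ q, f q ≤ c) :
    (Fintype.card Θ : ℝ)⁻¹ * ∑ q, f q ≤ c := by
  have : (0 : ℝ) < Fintype.card Θ := by exact_mod_cast Fintype.card_pos
  rw [inv_mul_le_iff₀ this]
  simpa using sum_le_card_nsmul univ f c fun q _ => h q

lemma avg_abs {Θ : Type*} [Fintype Θ] [Nonempty Θ] (f g : Θ → ℝ) (w : ℝ) :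
    |(Fintype.card Θ : ℝ)⁻¹ * ∑ q, f q - (Fintype.card Θ : ℝ)⁻¹ * ∑ q, g q - w|
      ≤ (Fintype.card Θ : ℝ)⁻¹ * ∑ q, |f q - g q - w| := by
  have h : (0 : ℝ) < Fintype.card Θ := by exact_mod_cast Fintype.card_pos
  have e : (Fintype.card Θ : ℝ)⁻¹ * ∑ q, f q - (Fintype.card Θ : ℝ)⁻¹ * ∑ q, g q - w
      = (Fintype.card Θ : ℝ)⁻¹ * ∑ q, (f q - g q - w) := by
    simp only [sum_sub_distrib, sum_const, card_univ, nsmul_eq_mul]; field_simp
  rw [e, abs_mul, abs_of_pos (inv_pos.2 h)]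
  exact mul_le_mul_of_nonneg_left (abs_sum_le_sum_abs _ _) (inv_pos.2 h).le

variable {Ω : Type*} [Fintype Ω]

/-- properties of the truncation used by the band-pass step -/
structure Trunc (p Q U err : ℝ) (h : Ω → X → ℝ) (H P : Ω → X → ℝ → ℝ) : Prop where
  ii : ∀ ω x a b, IntervalIntegrable (H ω x) MeasureTheory.volume a b
  nonneg : ∀ ω x s, 0 ≤ P ω x s
  anti : ∀ ω x s s', s ≤ s' → P ω x s' ≤ P ω x s
  mass : ∀ x (a : ℝ) (n : ℕ),
    ∑ ω, ∑ i ∈ range n, Real.exp (p * (a + i)) * P ω x (a + i) ≤ 2 * U ^ p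
  lip : ∀ x y, x ≠ y → ∀ ω s, |H ω x s - H ω y s| ≤ Q * Real.exp s * dist x y
  tail : ∀ x y, x ≠ y → ∀ ω s, |H ω x s - H ω y s - (h ω x - h ω y)|
    ≤ Real.exp 8 * (Q * Real.exp s * dist x y + |h ω x - h ω y|) * (P ω x s + P ω y s)
  err : ∀ x y, x ≠ y → ∀ σ₀ : Ω → ℝ, (∀ ω, 0 ≤ σ₀ ω) → (∀ ω, |h ω x - h ω y| ≤ dist x y * σ₀ ω) →
    nrm p σ₀ ≤ 3 → ∃ E : Ω → ℝ, (∀ ω, Bd (fun s => |H ω x s - H ω y s
      - (if σ₀ ω ≤ Real.exp s then h ω x - h ω y else 0)|) (E ω)) ∧ nrm p E ≤ err * dist x y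

theorem exists_trunc {p L θ0 A : ℝ} {I K0 : ℕ} (hp : 1 ≤ p) (x0 : X)
    (hL : Real.log (Fintype.card X) ≤ L) (hθ : 2 ≤ θ0) (hθL : Real.exp (-θ0 / 2) * L ≤ 1)
    (hI : 0 < I) (hK : 0 < K0) (hA0 : 0 < A)
    (hA : 2 ^ p * (4 * ((2 * (θ0 * 2 ^ I)) ^ (p - 1) + 4 * (2 * p) ^ p) * L + 1) ≤ A ^ p)
    (h : Ω → X → ℝ) (hh : ∀ a b, nrm p (fun ω => h ω a - h ω b) = dist a b) :
    ∃ H P, Trunc p (Q0 K0) (A + 16 * L) (2000 * Real.exp 12 *
      (A + 8 * L / I + θ0 * 2 ^ I + (4 * L / θ0 + 1) * (2 * L / K0))) h H P := by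
  obtain ⟨ρ, hρ, m, hm0, hm1⟩ := exists_scales x0
  have : Nonempty (Fin I) := ⟨⟨0, hI⟩⟩
  have : Nonempty (Fin K0) := ⟨⟨0, hK⟩⟩
  have L0 : 0 ≤ L := (Real.log_natCast_nonneg _).trans hL
  set th : Fin I × Fin K0 → ℝ := fun q => θ0 * 2 ^ (q.1 : ℕ) with hth
  have t1 : ∀ q, θ0 ≤ th q := fun q =>
    le_mul_of_one_le_right (by linarith) (one_le_pow₀ (by norm_num))
  have t2 : ∀ q, th q ≤ θ0 * 2 ^ I := fun q =>
    mul_le_mul_of_nonneg_left (pow_le_pow_right₀ (by norm_num) q.1.2.le) (by linarith)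
  have t3 : ∀ q, 2 ≤ th q := fun q => hθ.trans (t1 q)
  have t4 : ∀ q, Real.exp (-th q / 2) * L ≤ 1 := fun q =>
    (mul_le_mul_of_nonneg_right (Real.exp_le_exp.2 (by linarith [t1 q])) L0).trans hθL
  have t5 : ∀ q, 2 ^ p * (4 * ((2 * th q) ^ (p - 1) + 4 * (2 * p) ^ p) * L + 1) ≤ A ^ p := by
    intro q
    refine le_trans (mul_le_mul_of_nonneg_left ?_ (by positivity)) hA
    have := Real.rpow_le_rpow (by linarith [t3 q] : 0 ≤ 2 * th q)
      (by linarith [t2 q] : 2 * th q ≤ 2 * (θ0 * 2 ^ I)) (by linarith : 0 ≤ p - 1)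
    nlinarith
  set c := (Fintype.card (Fin I × Fin K0) : ℝ)⁻¹ with hc
  have c0 : 0 ≤ c := by positivity
  refine ⟨fun ω x s => c * ∑ q : Fin I × Fin K0,
      HH ρ (th q) (fun l => l % K0 = q.2) m (h ω) x0 x (Real.exp s),
    fun ω x s => c * ∑ q : Fin I × Fin K0,
      PP ρ (th q) (fun l => l % K0 = q.2) m (h ω) x0 x (Real.exp s), ?_, ?_, ?_, ?_, ?_, ?_, ?_⟩
  · intro ω x a b
    have := IntervalIntegrable.sum (μ := MeasureTheory.volume) (a := a) (b := b) univ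
      (f := fun (q : Fin I × Fin K0) s =>
        HH ρ (th q) (fun l => l % K0 = q.2) m (h ω) x0 x (Real.exp s))
      fun q _ => ii_HH _ _ _ a b
    refine (this.const_mul c).congr fun s _ => ?_
    rw [Finset.sum_apply]
  · exact fun ω x s => mul_nonneg c0 (sum_nonneg fun q _ => PP_nonneg _ _ _ _)
  · exact fun ω x s s' hs => mul_le_mul_of_nonneg_left
      (sum_le_sum fun q _ => PP_anti _ _ _ (Real.exp_le_exp.2 hs)) c0
  · intro x a n
    have e : ∑ ω, ∑ i ∈ range n, Real.exp (p * (a + i)) * (c * ∑ q : Fin I × Fin K0,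
        PP ρ (th q) (fun l => l % K0 = q.2) m (h ω) x0 x (Real.exp (a + i)))
        = c * ∑ q : Fin I × Fin K0, ∑ ω, ∑ i ∈ range n, Real.exp (p * (a + i)) *
          PP ρ (th q) (fun l => l % K0 = q.2) m (h ω) x0 x (Real.exp (a + i)) := by
      rw [sum_comm (s := univ) (t := univ), mul_sum]
      refine sum_congr rfl fun ω _ => ?_
      rw [sum_comm, mul_sum]
      refine sum_congr rfl fun i _ => ?_
      rw [← mul_sum]; ring
    rw [e]
    refine avg_le fun q => ?_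
    have hK := KK_prob (ρ := ρ) (θ := th q) (F := fun l => l % K0 = q.2) (m := m) x
    have a1 := sum_Ex_jM (F := fun l => l % K0 = q.2) hp hρ (t3 q) hL hA0.le (t5 q) hh x0 x
      (hm1 _ _)
    have a2 : (A + 16 * GF ρ (fun l => l % K0 = q.2) m x) ^ p ≤ (A + 16 * L) ^ p :=
      Real.rpow_le_rpow (by linarith [GF_nonneg (F := fun l => l % K0 = q.2) (m := m) hρ x])
        (by linarith [GF_le (F := fun l => l % K0 = q.2) hρ hL m x]) (by linarith)
    unfold PP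
    simp only [← Ex_mul, ← Ex_sum]
    refine le_trans (Ex_mono hK.nonneg (g := fun ξ => 2 * ∑ ω, jM ρ m (sq (h ω) x0 x ξ) 0 ^ p)
      fun ξ => ?_) (by rw [Ex_mul]; linarith)
    rw [mul_sum]
    exact sum_le_sum fun ω _ => geo_ind hp (jM_nonneg 0) n
  · intro x y hxy ω s
    obtain ⟨j, j1, j2, j3⟩ := exists_cut (hm0 x y hxy) m (hm1 x y)
    have := avg_abs (fun q : Fin I × Fin K0 =>
      HH ρ (th q) (fun l => l % K0 = q.2) m (h ω) x0 x (Real.exp s))
      (fun q => HH ρ (th q) (fun l => l % K0 = q.2) m (h ω) x0 y (Real.exp s)) 0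
    simp only [sub_zero] at this
    exact this.trans (avg_le fun q =>
      HH_lip (mod_hits q.2) hρ (h ω) x0 x y j2 j3 j1 (Real.exp_pos s).le)
  · intro x y hxy ω s
    obtain ⟨j, j1, j2, j3⟩ := exists_cut (hm0 x y hxy) m (hm1 x y)
    refine (avg_abs _ _ _).trans ?_
    refine (mul_le_mul_of_nonneg_left (sum_le_sum fun q _ =>
      HH_tail (θ := th q) (mod_hits q.2) hρ (h ω) x0 x y j2 j3 j1 (Real.exp_pos s).le) c0).trans
      (le_of_eq ?_)
    rw [← mul_sum, sum_add_distrib]; ring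
  · intro x y hxy σ₀ s0 s1 s2
    obtain ⟨j, j1, j2, j3⟩ := exists_cut (hm0 x y hxy) m (hm1 x y)
    choose E hE using fun q : Fin I × Fin K0 => HH_err (F := fun l => l % K0 = q.2) hp hρ (t3 q)
      hL (t4 q) hA0 (t5 q) hh x0 x y (fun z => hm1 z x0) j2 j3 j1 σ₀ s0 s1 s2
    refine ⟨fun ω => c * ∑ q, E q ω, fun ω => ?_, ?_⟩
    · refine ((Bd.sum univ fun q _ => (hE q).1 ω).mul c0).mono ?_ (fun _ => abs_nonneg _)
        fun s => avg_abs _ _ _
      exact ((((Finset.measurable_sum _ fun q _ => measurable_HH _ _ _).const_mul c).sub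
        ((Finset.measurable_sum _ fun q _ => measurable_HH _ _ _).const_mul c)).sub
        (measurable_step _ _)).abs
    rw [nrm_mul hp, abs_of_nonneg c0]
    have a1 := (nrm_sum_le hp univ E).trans (sum_le_sum fun q _ => (hE q).2)
    refine (mul_le_mul_of_nonneg_left a1 c0).trans ?_
    rw [← mul_sum]
    have a2 : ∀ q : Fin I × Fin K0, A + (NB ρ (th q) m x + NB ρ (th q) m y + 1) *
        (th q + GF ρ (fun l => l % K0 = q.2) m x + GF ρ (fun l => l % K0 = q.2) m y)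
        ≤ (A + θ0 * 2 ^ I) + (NB ρ (th q) m x * th q + NB ρ (th q) m y * th q)
          + (4 * L / θ0 + 1) *
            (GF ρ (fun l => l % K0 = q.2) m x + GF ρ (fun l => l % K0 = q.2) m y) := by
      intro q
      have b1 : ∀ z : X, NB ρ (th q) m z ≤ 2 * L / θ0 := fun z => by
        rw [le_div_iff₀ (by linarith)]
        exact (mul_le_mul_of_nonneg_left (t1 q) (NB_nonneg z)).trans (NB_mul_le hρ hL m z)
      have b2 := add_nonneg (GF_nonneg (F := fun l => l % K0 = q.2) (m := m) hρ x)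
        (GF_nonneg (F := fun l => l % K0 = q.2) (m := m) hρ y)
      have b3 : NB ρ (th q) m x + NB ρ (th q) m y + 1 ≤ 4 * L / θ0 + 1 := by
        have := b1 x; have := b1 y
        have : 4 * L / θ0 = 2 * L / θ0 + 2 * L / θ0 := by ring
        linarith
      nlinarith [mul_le_mul_of_nonneg_right b3 b2, t2 q]
    have a3 := sum_le_sum (s := univ) fun q _ => a2 q
    rw [sum_add_distrib, sum_add_distrib, ← mul_sum, sum_add_distrib, sum_add_distrib,
      sum_add_distrib] at a3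
    have a4 : ∀ z : X, ∑ q : Fin I × Fin K0, NB ρ (th q) m z * th q ≤ K0 * (4 * L) := by
      intro z
      rw [Fintype.sum_prod_type_right]
      refine (sum_le_card_nsmul (univ : Finset (Fin K0)) _ (4 * L) fun c _ =>
        sum_NB_le hρ (by linarith : 0 ≤ θ0) hL m I z).trans (le_of_eq ?_)
      simp
    have a5 : ∀ z : X, ∑ q : Fin I × Fin K0, GF ρ (fun l => l % K0 = q.2) m z ≤ I * L := by
      intro z
      rw [Fintype.sum_prod_type]
      refine (sum_le_card_nsmul (univ : Finset (Fin I)) _ L fun c _ =>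
        sum_GF_le hρ hL m K0 z).trans (le_of_eq ?_)
      simp
    have hI' : (0 : ℝ) < I := by exact_mod_cast hI
    have hK' : (0 : ℝ) < K0 := by exact_mod_cast hK
    have a6 : (0 : ℝ) ≤ 4 * L / θ0 + 1 := by have : 0 < θ0 := by linarith
                                             positivity
    have a7 := mul_le_mul_of_nonneg_left (add_le_add (a5 x) (a5 y)) a6
    rw [← sum_add_distrib] at a7
    have a8 : c * ((I * K0) * (A + θ0 * 2 ^ I) + 2 * (K0 * (4 * L))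
        + (4 * L / θ0 + 1) * (I * L + I * L))
        = A + 8 * L / I + θ0 * 2 ^ I + (4 * L / θ0 + 1) * (2 * L / K0) := by
      rw [hc]; simp only [Fintype.card_prod, Fintype.card_fin]; push_cast; field_simp; ring
    simp only [sum_const, card_univ, Fintype.card_prod, Fintype.card_fin, nsmul_eq_mul] at a3
    push_cast at a3
    have a9 : ∑ q : Fin I × Fin K0, (A + (NB ρ (th q) m x + NB ρ (th q) m y + 1) *
        (th q + GF ρ (fun l => l % K0 = q.2) m x + GF ρ (fun l => l % K0 = q.2) m y))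
        ≤ (I * K0) * (A + θ0 * 2 ^ I) + 2 * (K0 * (4 * L))
          + (4 * L / θ0 + 1) * (I * L + I * L) := by
      rw [sum_add_distrib]
      simp only [sum_const, card_univ, Fintype.card_prod, Fintype.card_fin, nsmul_eq_mul]
      push_cast
      linarith [a4 x, a4 y]
    rw [← a8]
    have := mul_le_mul_of_nonneg_left a9
      (show 0 ≤ c * (2000 * Real.exp 12 * dist x y) by positivity)
    linarith

end Vale.Agent.P249
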