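import Vale.Agent.P249.Avg

/-! The band-pass step. -/

namespace Vale.Agent.P249

open Finset MeasureTheory

/-- band-pass filter -/
noncomputable def bp (Λ : ℕ) (f : ℝ → ℝ) (u : ℝ) : ℝ :=
  (Λ : ℝ)⁻¹ * ((∫ s in (u + Λ)..(u + 2 * Λ), f s) - ∫ s in u..(u + Λ), f s)

/-- tent profile -/
noncomputable def tent (Λ : ℕ) (c : ℝ) : ℝ :=
  (Λ : ℝ)⁻¹ * ((2 * Λ - max (Λ : ℝ) (min c (2 * Λ))) - (Λ - max 0 (min c Λ)))

variable {Λ : ℕ} {f g : ℝ → ℝ}

lemma bp_sub (hf : ∀ a b, IntervalIntegrable f volume a b)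
    (hg : ∀ a b, IntervalIntegrable g volume a b) (u : ℝ) :
    bp Λ (fun s => f s - g s) u = bp Λ f u - bp Λ g u := by
  unfold bp
  rw [intervalIntegral.integral_sub (hf _ _) (hg _ _),
    intervalIntegral.integral_sub (hf _ _) (hg _ _)]
  ring

lemma bp_const (c u : ℝ) : bp Λ (fun _ => c) u = 0 := by
  unfold bp; simp only [intervalIntegral.integral_const, smul_eq_mul]; ring

lemma int_step {a b s0 : ℝ} (v : ℝ) (hab : a ≤ b) :
    ∫ s in a..b, (if Real.exp s0 ≤ Real.exp s then v else 0) = v * (b - max a (min s0 b)) := by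
  set c := max a (min s0 b) with hc
  have h1 : a ≤ c := le_max_left _ _
  have h2 : c ≤ b := max_le hab (min_le_right _ _)
  rw [← intervalIntegral.integral_add_adjacent_intervals (ii_step _ v a c) (ii_step _ v c b)]
  have e1 : ∫ s in a..c, (if Real.exp s0 ≤ Real.exp s then v else 0) = ∫ _ in a..c, (0 : ℝ) := by
    refine intervalIntegral.integral_congr_ae ?_
    filter_upwards [Measure.ae_ne volume c] with s hs hs'
    rw [Set.uIoc_of_le h1] at hs'
    have h3 : s < c := lt_of_le_of_ne hs'.2 hs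
    rw [if_neg]
    rw [Real.exp_le_exp, not_le]
    rcases lt_max_iff.1 h3 with h | h
    · linarith [hs'.1]
    · exact h.trans_le (min_le_left _ _)
  have e2 : ∫ s in c..b, (if Real.exp s0 ≤ Real.exp s then v else 0) = ∫ _ in c..b, v := by
    refine intervalIntegral.integral_congr_ae (Filter.Eventually.of_forall fun s hs' => ?_)
    rw [Set.uIoc_of_le h2] at hs'
    rw [if_pos]
    rw [Real.exp_le_exp]
    have h3 : min s0 b < s := (le_max_right _ _).trans_lt hs'.1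
    rcases min_lt_iff.1 h3 with h | h
    · exact h.le
    · linarith [hs'.2]
  rw [e1, e2]; simp; ring

lemma bp_step (v s0 u : ℝ) :
    bp Λ (fun s => if Real.exp s0 ≤ Real.exp s then v else 0) u = v * tent Λ (s0 - u) := by
  have h : (0 : ℝ) ≤ Λ := by positivity
  unfold bp tent
  rw [int_step v (by linarith), int_step v (by linarith)]
  have e1 : max (u + Λ) (min s0 (u + 2 * Λ)) = u + max (Λ : ℝ) (min (s0 - u) (2 * Λ)) := by
    rw [← max_add_add_left, ← min_add_add_left]; congr 2; ring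
  have e2 : max u (min s0 (u + Λ)) = u + max 0 (min (s0 - u) Λ) := by
    rw [← max_add_add_left, ← min_add_add_left]; congr 2 <;> ring
  rw [e1, e2]; ring

lemma bp_le_int (hf : ∀ a b, IntervalIntegrable f volume a b) (u : ℝ) :
    |bp Λ f u| ≤ (Λ : ℝ)⁻¹ * ∫ s in u..(u + 2 * Λ), |f s| := by
  have h : (0 : ℝ) ≤ Λ := by positivity
  unfold bp
  rw [abs_mul, abs_of_nonneg (inv_nonneg.2 h)]
  refine mul_le_mul_of_nonneg_left ((abs_sub _ _).trans ?_) (inv_nonneg.2 h)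
  rw [← intervalIntegral.integral_add_adjacent_intervals (hf u (u + Λ)).abs
    (hf (u + Λ) (u + 2 * Λ)).abs]
  have h1 := intervalIntegral.abs_integral_le_integral_abs (f := f) (μ := volume)
    (show u + Λ ≤ u + 2 * Λ by linarith)
  have h2 := intervalIntegral.abs_integral_le_integral_abs (f := f) (μ := volume)
    (show u ≤ u + Λ by linarith)
  linarith

lemma bp_le_sup (hΛ : 0 < Λ) (hf : ∀ a b, IntervalIntegrable f volume a b) {u c : ℝ}
    (hc : ∀ s, u ≤ s → s ≤ u + 2 * Λ → |f s| ≤ c) : |bp Λ f u| ≤ 2 * c := by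
  have h : (0 : ℝ) < Λ := by exact_mod_cast hΛ
  refine (bp_le_int hf u).trans ?_
  have := intervalIntegral.integral_mono_on (μ := volume) (show u ≤ u + 2 * Λ by linarith)
    (hf _ _).abs (intervalIntegrable_const (c := c)) fun s hs => hc s hs.1 hs.2
  rw [inv_mul_le_iff₀ h]
  refine this.trans (le_of_eq ?_)
  simp; ring

lemma int_le_of_Bd {Φ : ℝ → ℝ} {E a b : ℝ} (h : Bd Φ E) (h0 : ∀ s, 0 ≤ Φ s) (hab : a ≤ b) :
    ∫ s in a..b, Φ s ≤ E := by
  rw [intervalIntegral.integral_of_le hab]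
  exact (setIntegral_le_integral h.1 (Filter.Eventually.of_forall h0)).trans h.2

lemma sum_int_le {Φ : ℝ → ℝ} {E : ℝ} (h : Bd Φ E) (h0 : ∀ s, 0 ≤ Φ s) (a : ℝ) (n k : ℕ) :
    ∑ i ∈ range n, ∫ s in (a + i)..(a + i + k), Φ s ≤ k * E := by
  induction k with
  | zero => simp
  | succ k ih =>
    have e : ∀ i ∈ range n, ∫ s in (a + i)..(a + i + (k + 1 : ℕ)), Φ s
        = (∫ s in (a + i)..(a + i + k), Φ s) + ∫ s in (a + k + i)..(a + k + (i + 1 : ℕ)), Φ s := by
      intro i _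
      rw [← intervalIntegral.integral_add_adjacent_intervals (b := a + i + k)
        h.1.intervalIntegrable h.1.intervalIntegrable]
      congr 2 <;> push_cast <;> ring
    rw [sum_congr rfl e, sum_add_distrib,
      intervalIntegral.sum_integral_adjacent_intervals (a := fun i : ℕ => a + k + i)
        fun _ _ => h.1.intervalIntegrable]
    have := int_le_of_Bd (a := a + k + (0 : ℕ)) (b := a + k + n) h h0 (by simp)
    push_cast at this ⊢
    linarith

lemma tent_of_nonpos {c : ℝ} (h : c ≤ 0) : tent Λ c = 0 := by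
  have h0 : (0 : ℝ) ≤ Λ := by positivity
  unfold tent
  rw [min_eq_left (by linarith), min_eq_left (by linarith), max_eq_left (by linarith),
    max_eq_left h]
  ring

lemma tent_of_ge {c : ℝ} (h : 2 * Λ ≤ c) : tent Λ c = 0 := by
  have h0 : (0 : ℝ) ≤ Λ := by positivity
  unfold tent
  rw [min_eq_right h, min_eq_right (by linarith), max_eq_right (by linarith), max_eq_right h0]
  ring

lemma tent_mid (hΛ : 0 < Λ) {c : ℝ} (h1 : Λ ≤ c) (h2 : c ≤ 2 * Λ) :
    tent Λ c = (2 * Λ - c) / Λ := by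
  have h0 : (0 : ℝ) < Λ := by exact_mod_cast hΛ
  unfold tent
  rw [min_eq_left h2, min_eq_right h1, max_eq_right h1, max_eq_right h0.le]
  field_simp; ring

/-- mass of the tent -/
noncomputable def tmass (p : ℝ) (Λ : ℕ) : ℝ := ∑ c ∈ range (2 * Λ), |tent Λ c| ^ p

lemma tmass_ge {p : ℝ} (hp : 1 ≤ p) (hΛ : 0 < Λ) : Λ / 2 * (1 / 2) ^ p ≤ tmass p Λ := by
  have h0 : (0 : ℝ) < Λ := by exact_mod_cast hΛ
  have h1 : ∑ c ∈ Ico Λ (Λ + (Λ + 1) / 2), |tent Λ c| ^ p ≤ tmass p Λ :=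
    sum_le_sum_of_subset_of_nonneg (fun c hc => by
      rw [mem_Ico] at hc; rw [mem_range]; omega)
      fun _ _ _ => Real.rpow_nonneg (abs_nonneg _) _
  refine le_trans ?_ h1
  have h2 := card_nsmul_le_sum (Ico Λ (Λ + (Λ + 1) / 2)) (fun c : ℕ => |tent Λ c| ^ p)
    ((1 / 2 : ℝ) ^ p) fun c hc => by
      rw [mem_Ico] at hc
      have a1 : (Λ : ℝ) ≤ c := by exact_mod_cast hc.1
      have a2 : 2 * (c : ℝ) ≤ 3 * Λ := by exact_mod_cast (show 2 * c ≤ 3 * Λ by omega)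
      refine Real.rpow_le_rpow (by norm_num) (le_trans ?_ (le_abs_self _)) (by linarith)
      rw [tent_mid hΛ a1 (by linarith), le_div_iff₀ h0]; linarith
  refine le_trans ?_ h2
  rw [Nat.card_Ico, nsmul_eq_mul, Nat.add_sub_cancel_left]
  refine mul_le_mul_of_nonneg_right ?_ (by positivity)
  have : (Λ : ℝ) ≤ 2 * (((Λ + 1) / 2 : ℕ) : ℝ) := by
    exact_mod_cast (show Λ ≤ 2 * ((Λ + 1) / 2) by omega)
  linarith

lemma one_le_tmass {p : ℝ} (hΛ : 0 < Λ) : 1 ≤ tmass p Λ := by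
  have h0 : (0 : ℝ) < Λ := by exact_mod_cast hΛ
  have := single_le_sum (f := fun c : ℕ => |tent Λ c| ^ p) (s := range (2 * Λ))
    (fun _ _ => Real.rpow_nonneg (abs_nonneg _) _) (mem_range.2 (show Λ < 2 * Λ by omega))
  rw [tent_mid hΛ le_rfl (by linarith), show (2 * (Λ : ℝ) - Λ) / Λ = 1 by field_simp; ring]
    at this
  simpa [tmass] using this

lemma sum_tent {p : ℝ} (hp : 1 ≤ p) {w n : ℕ} (h1 : 2 * Λ ≤ w) (h2 : w + 1 ≤ n) :
    ∑ i ∈ range n, |tent Λ (w - i)| ^ p = tmass p Λ := by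
  have hp0 : p ≠ 0 := by linarith
  rw [← sum_subset (range_subset_range.2 h2) fun i _ hi => by
    rw [tent_of_nonpos, abs_zero, Real.zero_rpow hp0]
    have : (w : ℝ) ≤ i := by exact_mod_cast (show w ≤ i by simp at hi; omega)
    linarith]
  have e : ∑ i ∈ range (w + 1), |tent Λ (w - i)| ^ p
      = ∑ i ∈ range (w + 1), |tent Λ ((w + 1 - 1 - i : ℕ))| ^ p :=
    sum_congr rfl fun i hi => by
      rw [Nat.add_sub_cancel, Nat.cast_sub (by simpa [Nat.lt_succ_iff] using hi)]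
  rw [e, sum_range_reflect (fun c : ℕ => |tent Λ c| ^ p)]
  unfold tmass
  refine (sum_subset (range_subset_range.2 (by omega)) fun c _ hc => ?_).symm
  rw [tent_of_ge, abs_zero, Real.zero_rpow hp0]
  exact_mod_cast (show 2 * Λ ≤ c by simpa using hc)

lemma err_num {p ε err d E : ℝ} (hp : 1 ≤ p) (hΛ : 0 < Λ) (hε : 0 ≤ ε) (hd : 0 ≤ d) (hE0 : 0 ≤ E)
    (herr : err ≤ ε * Λ / 8) (hE : E ≤ err * d) :
    2 * Λ * (E / Λ) ^ p ≤ (ε * tmass p Λ ^ (1 / p) * d) ^ p := by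
  have h0 : (0 : ℝ) < Λ := by exact_mod_cast hΛ
  have hp0 : 0 < p := by linarith
  have t0 : 0 ≤ tmass p Λ := zero_le_one.trans (one_le_tmass hΛ)
  have h1 : E / Λ ≤ (ε * d) * (1 / 2) * (1 / 4) := by
    rw [div_le_iff₀ h0]; nlinarith [mul_le_mul_of_nonneg_right herr hd]
  have h2 := Real.rpow_le_rpow (by positivity) h1 hp0.le
  rw [Real.mul_rpow (by positivity) (by norm_num), Real.mul_rpow (by positivity) (by norm_num)]
    at h2
  have h3 : (1 / 4 : ℝ) ^ p ≤ 1 / 4 := by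
    simpa using Real.rpow_le_rpow_of_exponent_ge (x := 1 / 4) (by norm_num) (by norm_num) hp
  have e : (ε * tmass p Λ ^ (1 / p) * d) ^ p = (ε * d) ^ p * tmass p Λ := by
    rw [mul_right_comm, Real.mul_rpow (by positivity) (by positivity), ← Real.rpow_mul t0,
      one_div_mul_cancel hp0.ne', Real.rpow_one]
  rw [e]
  have h4 := tmass_ge hp hΛ
  have h5 : 0 ≤ (ε * d) ^ p := by positivity
  have h6 : 0 ≤ (ε * d) ^ p * (1 / 2) ^ p := by positivity
  nlinarith [mul_le_mul_of_nonneg_left h4 h5, mul_le_mul_of_nonneg_left h3 h6]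

variable {X : Type*} [Fintype X] [MetricSpace X] {Ω : Type*} [Fintype Ω]

variable {p Q U err ε : ℝ} {h : Ω → X → ℝ} {H P : Ω → X → ℝ → ℝ}

omit [Fintype X] in
lemma band_sup (T : Trunc p Q U err h H P) (hQ : 1 ≤ Q) (hΛ : 0 < Λ) {x y : X} (hxy : x ≠ y)
    (ω : Ω) (u : ℝ) : |bp Λ (H ω x) u - bp Λ (H ω y) u|
      ≤ 2 * Q * Real.exp (2 * Λ) * Real.exp u * dist x y := by
  rw [← bp_sub (T.ii ω x) (T.ii ω y)]
  refine (bp_le_sup (c := Q * Real.exp (u + 2 * Λ) * dist x y) hΛ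
    (fun a b => (T.ii ω x a b).sub (T.ii ω y a b)) fun s _ h2 =>
    (T.lip x y hxy ω s).trans (by gcongr)).trans (le_of_eq ?_)
  rw [Real.exp_add]; ring

omit [Fintype X] in
lemma band_main (T : Trunc p Q U err h H P) (hp : 1 ≤ p) (hΛ : 0 < Λ) (hε : 0 ≤ ε)
    (herr : err ≤ ε * Λ / 8) (hh : ∀ a b, nrm p (fun ω => h ω a - h ω b) = dist a b)
    {x y : X} (hxy : x ≠ y) (s0 : Ω → X → X → ℤ)
    (hs0 : s0 = fun ω x y => ⌈Real.log (|h ω x - h ω y| / dist x y)⌉) {B n : ℕ} {a : ℝ}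
    (hB' : ∀ ω x y, (s0 ω x y).natAbs ≤ B) (ha : a = -(B + 2 * Λ)) (hn : n = 2 * B + 2 * Λ + 1) :
    |nrm p (fun q : Ω × Fin n => bp Λ (H q.1 x) (a + q.2) - bp Λ (H q.1 y) (a + q.2))
      - tmass p Λ ^ (1 / p) * dist x y| ≤ ε * tmass p Λ ^ (1 / p) * dist x y := by
  have hp0 : 0 < p := by linarith
  have h0 : (0 : ℝ) < Λ := by exact_mod_cast hΛ
  have t1 := one_le_tmass (p := p) hΛ
  have d0 : 0 < dist x y := dist_pos.2 hxy
  set d := dist x y with hd
  have iD : ∀ ω a b, IntervalIntegrable (fun s => H ω x s - H ω y s) volume a b :=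
    fun ω a b => (T.ii ω x a b).sub (T.ii ω y a b)
  have eD : ∀ ω u, bp Λ (H ω x) u - bp Λ (H ω y) u = bp Λ (fun s => H ω x s - H ω y s) u :=
    fun ω u => (bp_sub (T.ii ω x) (T.ii ω y) u).symm
  set σ₀ : Ω → ℝ := fun ω => if h ω x - h ω y = 0 then 0 else Real.exp (s0 ω x y) with hσ₀
  have c1 : ∀ ω, 0 ≤ σ₀ ω := fun ω => by
    simp only [hσ₀]; split_ifs
    · exact le_rfl
    · exact (Real.exp_pos _).le
  have c2 : ∀ ω, |h ω x - h ω y| ≤ d * σ₀ ω := fun ω => by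
    simp only [hσ₀]; split_ifs with hv
    · simp [hv]
    · rw [mul_comm, ← div_le_iff₀ d0, ← Real.log_le_iff_le_exp (by positivity)]
      rw [hs0]; exact Int.le_ceil _
  have c3 : nrm p σ₀ ≤ 3 := by
    have : nrm p σ₀ ≤ nrm p (fun ω => (3 / d) * (h ω x - h ω y)) := by
      refine nrm_mono_abs hp fun ω => ?_
      rw [abs_of_nonneg (c1 ω), abs_mul, abs_of_pos (by positivity : 0 < 3 / d)]
      simp only [hσ₀]; split_ifs with hv
      · positivity
      · have b1 : (s0 ω x y : ℝ) ≤ Real.log (|h ω x - h ω y| / d) + 1 := by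
          rw [hs0]; exact (Int.ceil_lt_add_one _).le
        have b2 := Real.exp_le_exp.2 b1
        rw [Real.exp_add, Real.exp_log (by positivity)] at b2
        have b3 : Real.exp 1 ≤ 3 := by linarith [Real.exp_one_lt_d9]
        refine b2.trans ((mul_le_mul_of_nonneg_left b3 (by positivity)).trans (le_of_eq ?_))
        ring
    rw [nrm_mul hp, hh, abs_of_pos (by positivity), ← hd, div_mul_cancel₀ _ d0.ne'] at this
    exact this
  obtain ⟨E, hE1, hE2⟩ := T.err x y hxy σ₀ c1 c2 c3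
  set R : Ω → ℝ → ℝ := fun ω s => H ω x s - H ω y s
    - (if σ₀ ω ≤ Real.exp s then h ω x - h ω y else 0) with hR
  have iR : ∀ ω a b, IntervalIntegrable (R ω) volume a b :=
    fun ω a b => (iD ω a b).sub (ii_step _ _ a b)
  have E0 : ∀ ω, 0 ≤ E ω := fun ω =>
    (integral_nonneg fun s => abs_nonneg _).trans (hE1 ω).2
  have c4 : ∀ ω u, bp Λ (H ω x) u - bp Λ (H ω y) u - (h ω x - h ω y) * tent Λ (s0 ω x y - u)
      = bp Λ (R ω) u := by
    intro ω u
    rw [hR, bp_sub (iD ω) (ii_step _ _), eD, ← bp_step]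
    congr 2; funext s
    simp only [hσ₀]
    by_cases hv : h ω x - h ω y = 0
    · simp [hv]
    · simp [hv]
  have c5 : nrm p (fun q : Ω × Fin n => (h q.1 x - h q.1 y) * tent Λ (s0 q.1 x y - (a + q.2)))
      = tmass p Λ ^ (1 / p) * d := by
    have b1 : ∀ ω, ∑ i : Fin n, |(h ω x - h ω y) * tent Λ (s0 ω x y - (a + i))| ^ p
        = tmass p Λ * |h ω x - h ω y| ^ p := by
      intro ω
      obtain ⟨w, hw⟩ : ∃ w : ℕ, (w : ℤ) = s0 ω x y + B + 2 * Λ :=
        ⟨(s0 ω x y + B + 2 * Λ).toNat, Int.toNat_of_nonneg (by have := hB' ω x y; omega)⟩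
      have hw' : (w : ℝ) = s0 ω x y + B + 2 * Λ := by exact_mod_cast hw
      rw [← sum_tent hp (w := w) (n := n) (by have := hB' ω x y; omega)
        (by have := hB' ω x y; omega), sum_mul,
        ← Fin.sum_univ_eq_sum_range (fun i => |tent Λ (w - i)| ^ p * |h ω x - h ω y| ^ p)]
      refine sum_congr rfl fun i _ => ?_
      rw [abs_mul, Real.mul_rpow (abs_nonneg _) (abs_nonneg _), mul_comm]
      congr 4; rw [hw', ha]; ring
    unfold nrm
    rw [Fintype.sum_prod_type]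
    simp only [b1]
    rw [← mul_sum, ← nrm_rpow hp, hh, Real.mul_rpow (by linarith) (by positivity),
      ← Real.rpow_mul d0.le, mul_one_div_cancel hp0.ne', Real.rpow_one]
  rw [← c5]
  refine (nrm_sub_le hp _ _).trans ?_
  simp only [c4]
  refine nrm_le_of_sum_le hp (by positivity) (le_trans ?_
    (err_num hp hΛ hε d0.le (nrm_nonneg E) herr hE2))
  rw [Fintype.sum_prod_type, Real.div_rpow (nrm_nonneg E) h0.le, nrm_rpow hp, sum_div, mul_sum]
  refine sum_le_sum fun ω _ => ?_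
  have b1 : ∀ u, |bp Λ (R ω) u| ≤ E ω / Λ := fun u => by
    refine (bp_le_int (iR ω) u).trans ?_
    rw [div_eq_inv_mul]
    exact mul_le_mul_of_nonneg_left
      (int_le_of_Bd (hE1 ω) (fun _ => abs_nonneg _) (by linarith)) (by positivity)
  have b2 : ∑ i ∈ range n, |bp Λ (R ω) (a + i)| ≤ 2 * E ω := by
    refine (sum_le_sum fun i _ => bp_le_int (iR ω) _).trans ?_
    rw [← mul_sum, inv_mul_le_iff₀ h0]
    have := sum_int_le (hE1 ω) (fun _ => abs_nonneg _) a n (2 * Λ)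
    push_cast at this
    linarith
  have b3 : ∀ i ∈ range n, |bp Λ (R ω) (a + i)| ^ p
      ≤ (E ω / Λ) ^ (p - 1) * |bp Λ (R ω) (a + i)| := by
    intro i _
    have e2 : |bp Λ (R ω) (a + i)| ^ p
        = |bp Λ (R ω) (a + i)| ^ (p - 1) * |bp Λ (R ω) (a + i)| := by
      rw [← Real.rpow_add_one' (abs_nonneg _) (by linarith)]; simp
    rw [e2]
    exact mul_le_mul_of_nonneg_right
      (Real.rpow_le_rpow (abs_nonneg _) (b1 _) (by linarith)) (abs_nonneg _)
  rw [Fin.sum_univ_eq_sum_range (fun i => |bp Λ (R ω) (a + i)| ^ p)]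
  refine (sum_le_sum b3).trans ?_
  have b4 : 0 ≤ E ω / Λ := div_nonneg (E0 ω) h0.le
  rw [← mul_sum, abs_of_nonneg (E0 ω), ← Real.div_rpow (E0 ω) h0.le]
  have e3 : (E ω / Λ) ^ p = (E ω / Λ) ^ (p - 1) * (E ω / Λ) := by
    rw [← Real.rpow_add_one' b4 (by linarith)]; simp
  rw [e3]
  refine (mul_le_mul_of_nonneg_left b2 (Real.rpow_nonneg b4 _)).trans (le_of_eq ?_)
  field_simp

omit [Fintype X] in
lemma band_pt (T : Trunc p Q U err h H P) (hQ : 1 ≤ Q) (hΛ : 0 < Λ)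
    {x y : X} (hxy : x ≠ y) (ω : Ω) (u : ℝ) : |bp Λ (H ω x) u - bp Λ (H ω y) u|
      ≤ 4 * Real.exp 8 * Q * Real.exp (2 * Λ) * dist x y * (Real.exp u * (P ω x u + P ω y u
        + if Real.exp u < |h ω x - h ω y| / dist x y then 1 else 0)) := by
  have h0 : (0 : ℝ) < Λ := by exact_mod_cast hΛ
  have d0 : 0 < dist x y := dist_pos.2 hxy
  set d := dist x y with hd
  have iD : ∀ ω a b, IntervalIntegrable (fun s => H ω x s - H ω y s) volume a b :=
    fun ω a b => (T.ii ω x a b).sub (T.ii ω y a b)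
  have eD : ∀ ω u, bp Λ (H ω x) u - bp Λ (H ω y) u = bp Λ (fun s => H ω x s - H ω y s) u :=
    fun ω u => (bp_sub (T.ii ω x) (T.ii ω y) u).symm
  have sup := band_sup T hQ hΛ hxy
  rw [← hd] at sup
  have e8 : (1 : ℝ) ≤ Real.exp 8 := Real.one_le_exp (by norm_num)
  have eΛ : (1 : ℝ) ≤ Real.exp (2 * Λ) := Real.one_le_exp (by positivity)
  have p1 := T.nonneg ω x u
  have p2 := T.nonneg ω y u
  have k0 : 0 ≤ Q * Real.exp (2 * Λ) * Real.exp u * d := by positivity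
  split_ifs with hc
  · refine (sup ω u).trans ?_
    have : 0 ≤ Real.exp 8 * (Q * Real.exp (2 * Λ) * Real.exp u * d) * (P ω x u + P ω y u) := by
      positivity
    nlinarith [mul_le_mul_of_nonneg_right e8 k0]
  · rw [not_lt, div_le_iff₀ d0] at hc
    have b1 : bp Λ (H ω x) u - bp Λ (H ω y) u
        = bp Λ (fun s => H ω x s - H ω y s - (h ω x - h ω y)) u := by
      rw [bp_sub (iD ω) (fun _ _ => intervalIntegrable_const), bp_const, eD, sub_zero]
    rw [b1]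
    refine (bp_le_sup (c := Real.exp 8 * (2 * (Q * Real.exp (2 * Λ) * Real.exp u * d))
      * (P ω x u + P ω y u)) hΛ (fun a b => (iD ω a b).sub intervalIntegrable_const)
      fun s h1 h2 => (T.tail x y hxy ω s).trans ?_).trans (le_of_eq (by ring))
    have b2 : Q * Real.exp s * d ≤ Q * Real.exp (2 * Λ) * Real.exp u * d := by
      rw [mul_assoc Q (Real.exp (2 * Λ)), ← Real.exp_add]
      gcongr; linarith
    have b3 : Real.exp u * d ≤ Q * Real.exp (2 * Λ) * Real.exp u * d := by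
      rw [mul_assoc]
      exact le_mul_of_one_le_left (by positivity) (one_le_mul_of_one_le_of_one_le hQ eΛ)
    refine mul_le_mul (mul_le_mul_of_nonneg_left (by linarith) (by positivity))
      (add_le_add (T.anti ω x _ _ h1) (T.anti ω y _ _ h1))
      (add_nonneg (T.nonneg _ _ _) (T.nonneg _ _ _)) (by positivity)

omit [Fintype X] in
lemma band_one (T : Trunc p Q U err h H P) (hp : 1 ≤ p) (hQ : 1 ≤ Q) (hΛ : 0 < Λ)
    (hh : ∀ a b, nrm p (fun ω => h ω a - h ω b) = dist a b)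
    {x y : X} (hxy : x ≠ y) (n : ℕ) (a : ℝ) :
    ∑ q : Ω × Fin n, Real.exp ((p - 1) * (a + q.2)) *
      |bp Λ (H q.1 x) (a + q.2) - bp Λ (H q.1 y) (a + q.2)|
        ≤ 4 * Real.exp 8 * Q * Real.exp (2 * Λ) * (4 * U ^ p + 2) * dist x y := by
  have d0 : 0 < dist x y := dist_pos.2 hxy
  have c1 := band_pt T hQ hΛ hxy
  set d := dist x y with hd
  have c2 : ∀ q : Ω × Fin n, Real.exp ((p - 1) * (a + q.2)) *
      |bp Λ (H q.1 x) (a + q.2) - bp Λ (H q.1 y) (a + q.2)|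
      ≤ 4 * Real.exp 8 * Q * Real.exp (2 * Λ) * d *
        (Real.exp (p * (a + q.2)) * P q.1 x (a + q.2) + Real.exp (p * (a + q.2)) * P q.1 y (a + q.2)
        + Real.exp (p * (a + q.2)) *
          if Real.exp (a + q.2) < |h q.1 x - h q.1 y| / d then 1 else 0) := by
    intro q
    refine (mul_le_mul_of_nonneg_left (c1 _ _) (Real.exp_pos _).le).trans (le_of_eq ?_)
    rw [show p * (a + q.2) = (p - 1) * (a + q.2) + (a + q.2) by ring, Real.exp_add ((p - 1) * _)]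
    ring
  refine (sum_le_sum fun q _ => c2 q).trans ?_
  rw [← mul_sum, sum_add_distrib, sum_add_distrib, Fintype.sum_prod_type, Fintype.sum_prod_type,
    Fintype.sum_prod_type]
  have c3 : ∀ z, ∑ ω, ∑ i : Fin n, Real.exp (p * (a + i)) * P ω z (a + i) ≤ 2 * U ^ p := by
    intro z
    refine le_trans (le_of_eq (sum_congr rfl fun ω _ => ?_)) (T.mass z a n)
    exact Fin.sum_univ_eq_sum_range (fun i => Real.exp (p * (a + i)) * P ω z (a + i)) n
  have c4 : ∑ ω, ∑ i : Fin n, Real.exp (p * (a + i)) *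
      (if Real.exp (a + i) < |h ω x - h ω y| / d then (1 : ℝ) else 0) ≤ 2 := by
    have b1 : ∀ ω ∈ (univ : Finset Ω), ∑ i : Fin n, Real.exp (p * (a + i)) *
        (if Real.exp (a + i) < |h ω x - h ω y| / d then (1 : ℝ) else 0)
        ≤ 2 * (|h ω x - h ω y| ^ p / d ^ p) := by
      intro ω _
      rw [Fin.sum_univ_eq_sum_range (fun i => Real.exp (p * (a + i)) *
        (if Real.exp (a + i) < |h ω x - h ω y| / d then (1 : ℝ) else 0)),
        ← Real.div_rpow (abs_nonneg _) d0.le]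
      exact geo_ind hp (by positivity) n
    refine (sum_le_sum b1).trans (le_of_eq ?_)
    rw [← mul_sum, ← sum_div, ← nrm_rpow hp, hh, div_self (by positivity), mul_one]
  have := mul_le_mul_of_nonneg_left (add_le_add (add_le_add (c3 x) (c3 y)) c4)
    (show 0 ≤ 4 * Real.exp 8 * Q * Real.exp (2 * Λ) * d by positivity)
  refine this.trans (le_of_eq ?_); ring

theorem exists_band (T : Trunc p Q U err h H P) (hp : 1 ≤ p) (hQ : 1 ≤ Q) (hΛ : 0 < Λ)
    (hε : 0 ≤ ε) (herr : err ≤ ε * Λ / 8)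
    (hh : ∀ a b, nrm p (fun ω => h ω a - h ω b) = dist a b) :
    ∃ (n : ℕ) (t : Ω × Fin n → X → ℝ) (u : Ω × Fin n → ℝ) (κ : ℝ), 1 ≤ κ ∧ ∀ x y, x ≠ y →
      |nrm p (fun a => t a x - t a y) - κ * dist x y| ≤ ε * κ * dist x y ∧
      (∀ a, |t a x - t a y| ≤ 2 * Q * Real.exp (2 * Λ) * Real.exp (u a) * dist x y) ∧
      ∑ a, Real.exp ((p - 1) * u a) * |t a x - t a y|
        ≤ 4 * Real.exp 8 * Q * Real.exp (2 * Λ) * (4 * U ^ p + 2) * dist x y := by
  obtain ⟨s0, hs0⟩ : ∃ s0 : Ω → X → X → ℤ,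
    s0 = fun ω x y => ⌈Real.log (|h ω x - h ω y| / dist x y)⌉ := ⟨_, rfl⟩
  obtain ⟨B, hB'⟩ : ∃ B : ℕ, ∀ ω x y, (s0 ω x y).natAbs ≤ B :=
    ⟨∑ q : Ω × X × X, (s0 q.1 q.2.1 q.2.2).natAbs, fun ω x y =>
      single_le_sum (f := fun q : Ω × X × X => (s0 q.1 q.2.1 q.2.2).natAbs)
        (fun _ _ => Nat.zero_le _) (mem_univ (ω, x, y))⟩
  obtain ⟨a, ha⟩ : ∃ a : ℝ, a = -(B + 2 * Λ) := ⟨_, rfl⟩
  obtain ⟨n, hn⟩ : ∃ n : ℕ, n = 2 * B + 2 * Λ + 1 := ⟨_, rfl⟩
  refine ⟨n, fun q x => bp Λ (H q.1 x) (a + q.2), fun q => a + q.2, tmass p Λ ^ (1 / p),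
    Real.one_le_rpow (one_le_tmass hΛ) (by positivity), fun x y hxy => ⟨?_, fun q => ?_, ?_⟩⟩
  · exact band_main T hp hΛ hε herr hh hxy s0 hs0 hB' ha hn
  · exact band_sup T hQ hΛ hxy q.1 (a + q.2)
  · exact band_one T hp hQ hΛ hh hxy n a

end Vale.Agent.P249
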