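import Vale.Agent.P249.Seq

/-! Integrals over the logarithm of the threshold. -/

namespace Vale.Agent.P249

open Finset MeasureTheory

/-- integrable with integral at most `c` -/
def Bd (f : ℝ → ℝ) (c : ℝ) : Prop := Integrable f ∧ ∫ s, f s ≤ c

lemma Bd.add {f g : ℝ → ℝ} {a b : ℝ} (hf : Bd f a) (hg : Bd g b) :
    Bd (fun s => f s + g s) (a + b) :=
  ⟨hf.1.add hg.1, by rw [integral_add hf.1 hg.1]; linarith [hf.2, hg.2]⟩

lemma Bd.mul {f : ℝ → ℝ} {a c : ℝ} (hc : 0 ≤ c) (hf : Bd f a) :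
    Bd (fun s => c * f s) (c * a) :=
  ⟨hf.1.const_mul c, by rw [integral_const_mul]; exact mul_le_mul_of_nonneg_left hf.2 hc⟩

lemma Bd.le {f : ℝ → ℝ} {a b : ℝ} (hf : Bd f a) (h : a ≤ b) : Bd f b := ⟨hf.1, hf.2.trans h⟩

lemma Bd.zero : Bd (fun _ => 0) 0 := ⟨integrable_zero _ _ _, by simp⟩

lemma Bd.sum {β : Type*} (t : Finset β) {f : β → ℝ → ℝ} {a : β → ℝ}
    (h : ∀ b ∈ t, Bd (f b) (a b)) : Bd (fun s => ∑ b ∈ t, f b s) (∑ b ∈ t, a b) := by
  classical
  induction t using Finset.induction_on with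
  | empty => simpa using Bd.zero
  | insert b t hb ih =>
    simp only [sum_insert hb]
    exact (h b (mem_insert_self _ _)).add (ih fun b' hb' => h b' (mem_insert_of_mem hb'))

lemma Bd.mono {f g : ℝ → ℝ} {a : ℝ} (hg : Bd g a) (hf : Measurable f) (h0 : ∀ s, 0 ≤ f s)
    (h : ∀ s, f s ≤ g s) : Bd f a := by
  have hi : Integrable f := hg.1.mono' hf.aestronglyMeasurable
    (Filter.Eventually.of_forall fun s => by rw [Real.norm_eq_abs, abs_of_nonneg (h0 s)]; exact h s)
  exact ⟨hi, (integral_mono hi hg.1 h).trans hg.2⟩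

lemma below_int {B : ℝ} (hB : 0 ≤ B) :
    Integrable (fun s => if Real.exp s < B then Real.exp s else 0) ∧
      ∫ s, (if Real.exp s < B then Real.exp s else 0) = B := by
  rcases hB.eq_or_lt with h | h
  · subst h
    have : (fun s => if Real.exp s < 0 then Real.exp s else 0) = fun _ => (0 : ℝ) := by
      funext s; rw [if_neg (not_lt.2 (Real.exp_pos s).le)]
    rw [this]; simp
  · have : (fun s => if Real.exp s < B then Real.exp s else 0)
        = (Set.Iio (Real.log B)).indicator Real.exp := by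
      funext s
      simp only [Set.indicator, Set.mem_Iio, Real.lt_log_iff_exp_lt h]
    rw [this]
    refine ⟨(integrable_indicator_iff measurableSet_Iio).2
      ((integrableOn_exp_Iic _).mono_set Set.Iio_subset_Iic_self), ?_⟩
    rw [integral_indicator measurableSet_Iio, ← integral_Iic_eq_integral_Iio, integral_exp_Iic,
      Real.exp_log h]

lemma Bd_win_exp {A B : ℝ} (hA : 0 ≤ A) (hAB : A ≤ B) :
    Bd (fun s => Real.exp s * win A B (Real.exp s)) (B - A) := by
  have h1 := below_int hA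
  have h2 := below_int (hA.trans hAB)
  have : (fun s => Real.exp s * win A B (Real.exp s)) = fun s =>
      (if Real.exp s < B then Real.exp s else 0) - (if Real.exp s < A then Real.exp s else 0) := by
    funext s; unfold win
    by_cases a : Real.exp s < A
    · rw [if_neg (fun h => absurd h.1 (not_le.2 a)), if_pos a, if_pos (a.trans_le hAB)]; ring
    · by_cases b : Real.exp s < B
      · rw [if_pos ⟨not_lt.1 a, b⟩, if_pos b, if_neg a]; ring
      · rw [if_neg (fun h => b h.2), if_neg b, if_neg a]; ring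
  rw [this]
  exact ⟨h2.1.sub h1.1, by rw [integral_sub h2.1 h1.1, h1.2, h2.2]⟩

lemma Bd_win_log {α r κ A B : ℝ} (hα : 0 ≤ α) (hr : 0 < r) (hκ : 0 ≤ κ) (hB : 0 ≤ B)
    (hA : α ≤ Real.exp κ * r * A) :
    Bd (fun s => α * win A B (Real.exp s)) (α * κ + r * B) := by
  rcases hα.eq_or_lt with h | h
  · subst h; simp only [zero_mul, zero_add]; exact Bd.zero.le (by positivity)
  have hApos : 0 < A := by
    by_contra hc; push Not at hc
    have : Real.exp κ * r * A ≤ 0 := mul_nonpos_of_nonneg_of_nonpos (by positivity) hc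
    linarith
  by_cases hAB : B ≤ A
  · have : (fun s => α * win A B (Real.exp s)) = fun _ => (0 : ℝ) := by
      funext s; unfold win; rw [if_neg (fun h => by linarith [h.1, h.2])]; ring
    rw [this]; exact Bd.zero.le (by positivity)
  push Not at hAB
  have hBpos : 0 < B := hApos.trans hAB
  have : (fun s => α * win A B (Real.exp s))
      = (Set.Ico (Real.log A) (Real.log B)).indicator (fun _ => α) := by
    funext s; unfold win
    simp only [Set.indicator, Set.mem_Ico, Real.lt_log_iff_exp_lt hBpos,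
      Real.log_le_iff_le_exp hApos]
    split_ifs <;> ring
  rw [this]
  refine ⟨(integrable_indicator_iff measurableSet_Ico).2 (integrableOn_const (by simp)), ?_⟩
  rw [integral_indicator measurableSet_Ico, setIntegral_const, Real.volume_real_Ico_of_le
    (Real.log_le_log hApos hAB.le), smul_eq_mul]
  have h1 : Real.log α ≤ κ + Real.log r + Real.log A := by
    have := Real.log_le_log h hA
    rwa [Real.log_mul (by positivity) hApos.ne', Real.log_mul (by positivity) hr.ne',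
      Real.log_exp] at this
  have h2 : Real.log (r * B / α) ≤ r * B / α := (Real.log_le_sub_one_of_pos (by positivity)).trans
    (by linarith)
  rw [Real.log_div (by positivity) h.ne', Real.log_mul hr.ne' hBpos.ne'] at h2
  have h3 : (Real.log B - Real.log A) ≤ κ + r * B / α := by linarith
  calc (Real.log B - Real.log A) * α ≤ (κ + r * B / α) * α := by gcongr
    _ = α * κ + r * B := by field_simp

variable {ρ : ℝ} {m : ℕ} {ζ ζ' : ℕ → ℝ}

lemma mono_step (A : ℝ) : Monotone (fun s : ℝ => if A ≤ Real.exp s then (1 : ℝ) else 0) := by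
  intro s t hst
  simp only
  split_ifs with h1 h2 h2
  · exact le_rfl
  · exact absurd (h1.trans (Real.exp_le_exp.2 hst)) h2
  · norm_num
  · exact le_rfl

lemma measurable_step (A c : ℝ) : Measurable (fun s : ℝ => if A ≤ Real.exp s then c else 0) :=
  Measurable.ite (measurableSet_le measurable_const Real.measurable_exp) measurable_const
    measurable_const

lemma measurable_jV : Measurable (fun s => jV ρ m ζ (Real.exp s)) := by
  unfold jV
  exact measurable_const.add (Finset.measurable_sum _ fun i _ => measurable_step _ _)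

lemma ii_step (A c a b : ℝ) :
    IntervalIntegrable (fun s : ℝ => if A ≤ Real.exp s then c else 0) volume a b := by
  have := ((mono_step A).intervalIntegrable (μ := volume) (a := a) (b := b)).const_mul c
  refine this.congr fun s _ => ?_
  split_ifs <;> ring

lemma ii_jV (a b : ℝ) : IntervalIntegrable (fun s => jV ρ m ζ (Real.exp s)) volume a b := by
  unfold jV
  refine intervalIntegrable_const.add ?_
  have := IntervalIntegrable.sum (μ := volume) (a := a) (b := b) (range (m + 1))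
    (f := fun i s => if jM ρ m ζ i ≤ Real.exp s then ζ i - ζ (i + 1) else 0)
    fun i _ => ii_step _ _ a b
  refine this.congr fun s _ => ?_
  rw [Finset.sum_apply]

lemma two_pow_le_exp (k : ℕ) : (2 : ℝ) ^ k ≤ Real.exp k := by
  rw [← mul_one (k : ℝ), Real.exp_nat_mul]
  exact pow_le_pow_left₀ (by norm_num) (by linarith [Real.add_one_le_exp (1 : ℝ)]) k

/-- integrated bound when one block is resampled -/
lemma Bd_up (hρ : 0 < ρ) {i k : ℕ} (hcm : i + 1 + k ≤ m)
    (h : ∀ l, i + 1 + k + 1 ≤ l → ζ l = ζ' l) (h' : ∀ l, l ≤ i → ζ l = ζ' l)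
    (hc : ∀ l, i + 1 ≤ l → l ≤ i + 1 + k → ζ l = ζ (i + 1))
    (hc' : ∀ l, i + 1 ≤ l → l ≤ i + 1 + k → ζ' l = ζ' (i + 1)) :
    Bd (fun s => |jV ρ m ζ (Real.exp s) - jV ρ m ζ' (Real.exp s)|)
      (rad ρ (i + 1) * ((8 * (jM ρ m ζ i - jM ρ m ζ (i + 2)) + 8 * k * jT ρ ζ i)
        + (8 * (jM ρ m ζ' i - jM ρ m ζ' (i + 2)) + 8 * k * jT ρ ζ' i))) := by
  have hmeas : Measurable (fun s => |jV ρ m ζ (Real.exp s) - jV ρ m ζ' (Real.exp s)|) :=
    (measurable_jV.sub measurable_jV).abs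
  have hr := rad_pos hρ (i + 1)
  have a1 : jM ρ m ζ (i + 2) ≤ jM ρ m ζ i := jM_anti (by omega)
  have a2 : jM ρ m ζ' (i + 2) ≤ jM ρ m ζ' i := jM_anti (by omega)
  have t1 := jT_nonneg (ζ := ζ) hρ i
  have t2 := jT_nonneg (ζ := ζ') hρ i
  rcases Nat.eq_zero_or_pos k with hk | hk
  · subst hk
    have b1 := Bd_win_exp (jM_nonneg (i + 2)) a1
    have b2 := Bd_win_exp (jM_nonneg (i + 2)) a2
    have := ((b1.add b2).mul (c := 4 * rad ρ (i + 2)) (by have := rad_pos hρ (i + 2); positivity))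
    refine (this.mono hmeas (fun _ => abs_nonneg _) fun s => ?_).le (le_of_eq ?_)
    · have := jV_diff_win (m := m) (ζ := ζ) (ζ' := ζ') (i := i) (b := i + 2) hρ
        (Real.exp_pos s).le (by omega) (by omega) h h'
      linarith
    · rw [rad_succ (i + 1)]; push_cast; ring
  set c := i + 1 + k with hcdef
  set α := |ζ (i + 1) - ζ' (i + 1)| with hα
  set R := rad ρ (c + 1) with hR
  have hRpos : 0 < R := rad_pos hρ _
  have hα0 : 0 ≤ α := abs_nonneg _
  have b1 := (Bd_win_exp (le_min (jT_nonneg (ζ := ζ) hρ c) (jT_nonneg (ζ := ζ') hρ c))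
    min_le_max).mul (c := 2 * R) (by positivity)
  have b3 := (Bd_win_exp (le_min t1 t2) min_le_max).mul (c := 2 * rad ρ (i + 1)) (by positivity)
  have b2 := Bd_win_log (α := α) (r := rad ρ (i + 1)) (κ := (k + 2 : ℕ)) (A := α / (2 * R))
    (B := max (jT ρ ζ i) (jT ρ ζ' i)) hα0 hr (by positivity) (le_max_of_le_left t1) (by
      have e : 2 * R = 2 ^ (k + 2) * rad ρ (i + 1) := by
        rw [hR, hcdef, add_assoc (i + 1), rad_add (i + 1)]; ring
      have := two_pow_le_exp (k + 2)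
      rw [← mul_div_assoc, le_div_iff₀ (by positivity), e]
      nlinarith [mul_le_mul_of_nonneg_right this (mul_nonneg hr.le hα0)])
  refine (((b1.add b2).add b3).mono hmeas (fun _ => abs_nonneg _) fun s => ?_).le ?_
  · set σ := Real.exp s
    have hσ : 0 < σ := Real.exp_pos s
    have w1 := win_nonneg (min (jT ρ ζ c) (jT ρ ζ' c)) (max (jT ρ ζ c) (jT ρ ζ' c)) σ
    have w2 := win_nonneg (α / (2 * R)) (max (jT ρ ζ i) (jT ρ ζ' i)) σ
    have w3 := win_nonneg (min (jT ρ ζ i) (jT ρ ζ' i)) (max (jT ρ ζ i) (jT ρ ζ' i)) σ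
    have p1 : 0 ≤ 2 * R * (σ * win (min (jT ρ ζ c) (jT ρ ζ' c)) (max (jT ρ ζ c) (jT ρ ζ' c)) σ) := by
      positivity
    have p2 : 0 ≤ α * win (α / (2 * R)) (max (jT ρ ζ i) (jT ρ ζ' i)) σ := by positivity
    have p3 : 0 ≤ 2 * rad ρ (i + 1) *
      (σ * win (min (jT ρ ζ i) (jT ρ ζ' i)) (max (jT ρ ζ i) (jT ρ ζ' i)) σ) := by positivity
    rcases stage_one (σ := σ) (j := i + 1) (c := c) hρ (by omega) hcm h hc hc' with h1 | h1 | h1
    · rw [h1]; simp only [sub_self, abs_zero]; positivity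
    · have : win (min (jT ρ ζ c) (jT ρ ζ' c)) (max (jT ρ ζ c) (jT ρ ζ' c)) σ = 1 :=
        if_pos ⟨h1.1, h1.2.1⟩
      rw [this]; linarith [h1.2.2]
    · obtain ⟨h2, h3, h4⟩ := h1
      have hA : α / (2 * R) ≤ σ := by rw [div_le_iff₀ (by positivity)]; linarith
      by_cases c1 : σ < jT ρ ζ i <;> by_cases c2 : σ < jT ρ ζ' i
      · have : win (α / (2 * R)) (max (jT ρ ζ i) (jT ρ ζ' i)) σ = 1 :=
          if_pos ⟨hA, lt_max_of_lt_left c1⟩
        rw [this, jV_stop (by omega) h2 c1, jV_stop (by omega) h3 c2]; linarith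
      · have e1 : win (α / (2 * R)) (max (jT ρ ζ i) (jT ρ ζ' i)) σ = 1 :=
          if_pos ⟨hA, lt_max_of_lt_left c1⟩
        have e2 : win (min (jT ρ ζ i) (jT ρ ζ' i)) (max (jT ρ ζ i) (jT ρ ζ' i)) σ = 1 :=
          if_pos ⟨(min_le_right _ _).trans (not_lt.1 c2), lt_max_of_lt_left c1⟩
        rw [e1, e2, jV_stop (by omega) h2 c1]
        have := jV_near hρ (by omega) h3
        have h5 := abs_sub_le (ζ (i + 1)) (ζ' (i + 1)) (jV ρ m ζ' σ)
        rw [abs_sub_comm] at this
        linarith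
      · have e1 : win (α / (2 * R)) (max (jT ρ ζ i) (jT ρ ζ' i)) σ = 1 :=
          if_pos ⟨hA, lt_max_of_lt_right c2⟩
        have e2 : win (min (jT ρ ζ i) (jT ρ ζ' i)) (max (jT ρ ζ i) (jT ρ ζ' i)) σ = 1 :=
          if_pos ⟨(min_le_left _ _).trans (not_lt.1 c1), lt_max_of_lt_right c2⟩
        rw [e1, e2, jV_stop (by omega) h3 c2]
        have := jV_near hρ (by omega) h2
        have h5 := abs_sub_le (jV ρ m ζ σ) (ζ (i + 1)) (ζ' (i + 1))
        linarith
      · have m1 : jM ρ m ζ i ≤ σ := jM_block (c := i) (fun l a b => by rw [le_antisymm b a]) h2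
          (not_lt.1 c1)
        have m2 : jM ρ m ζ' i ≤ σ := jM_block (c := i) (fun l a b => by rw [le_antisymm b a]) h3
          (not_lt.1 c2)
        rw [jV_merge (by omega) h' m1 m2]; simp only [sub_self, abs_zero]; positivity
  · have d1 := jT_diff_top (ζ := ζ) (ζ' := ζ') (c := c) hρ (h _ le_rfl)
    rw [hc c (by omega) le_rfl, hc' c (by omega) le_rfl] at d1
    have d2 := jT_diff_bot (ζ := ζ) (ζ' := ζ') (c := i) hρ (h' _ le_rfl)
    have d3 : α ≤ rad ρ (i + 1) * (jT ρ ζ i + jT ρ ζ' i) := by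
      unfold jT
      rw [mul_add, mul_div_cancel₀ _ hr.ne', mul_div_cancel₀ _ hr.ne', ← h' i le_rfl]
      have := abs_sub_le (ζ (i + 1)) (ζ i) (ζ' (i + 1))
      rw [abs_sub_comm (ζ i)] at this
      exact this
    have d4 : max (jT ρ ζ i) (jT ρ ζ' i) ≤ jT ρ ζ i + jT ρ ζ' i :=
      max_le (by linarith) (by linarith)
    have hk' : (1 : ℝ) ≤ k := by exact_mod_cast hk
    have d5 : rad ρ (i + 1) * max (jT ρ ζ i) (jT ρ ζ' i)
        ≤ rad ρ (i + 1) * (jT ρ ζ i + jT ρ ζ' i) := by gcongr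
    have d6 : α * (k + 6) ≤ rad ρ (i + 1) * (jT ρ ζ i + jT ρ ζ' i) * (k + 6) := by gcongr
    have d7 : 0 ≤ rad ρ (i + 1) * (jT ρ ζ i + jT ρ ζ' i) * (k - 1) := by
      have : (0 : ℝ) ≤ k - 1 := by linarith
      positivity
    have d8 : 0 ≤ rad ρ (i + 1) * (jM ρ m ζ i - jM ρ m ζ (i + 2)) := by
      have : 0 ≤ jM ρ m ζ i - jM ρ m ζ (i + 2) := by linarith
      positivity
    have d9 : 0 ≤ rad ρ (i + 1) * (jM ρ m ζ' i - jM ρ m ζ' (i + 2)) := by
      have : 0 ≤ jM ρ m ζ' i - jM ρ m ζ' (i + 2) := by linarith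
      positivity
    push_cast
    rw [← hR] at d1
    rw [← hα] at d1 d2
    nlinarith

/-- integrated bound for the part below the scale of the pair -/
lemma Bd_low (hρ : 0 < ρ) {j k : ℕ} {d σ₀ : ℝ} (hcm : j + k ≤ m) (hd1 : rad ρ j ≤ d)
    (hd2 : rad ρ (j + 1) ≤ 2 * d)
    (h : ∀ l, j + k + 1 ≤ l → ζ l = ζ' l)
    (hc : ∀ l, j ≤ l → l ≤ j + k → ζ l = ζ j) (hc' : ∀ l, j ≤ l → l ≤ j + k → ζ' l = ζ' j)
    (hσ₀ : 0 ≤ σ₀) (hv : |ζ 0 - ζ' 0| ≤ d * σ₀) :
    Bd (fun s => |jV ρ m ζ (Real.exp s) - jV ρ m ζ' (Real.exp s)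
        - (if σ₀ ≤ Real.exp s then ζ 0 - ζ' 0 else 0)|)
      (|ζ j - ζ' j| * (k + 4) + 6 * d * (jM ρ m ζ 0 + jM ρ m ζ' 0) + 5 * d * σ₀) := by
  have hmeas : Measurable (fun s => |jV ρ m ζ (Real.exp s) - jV ρ m ζ' (Real.exp s)
        - (if σ₀ ≤ Real.exp s then ζ 0 - ζ' 0 else 0)|) :=
    ((measurable_jV.sub measurable_jV).sub (measurable_step _ _)).abs
  have hd : 0 < d := (rad_pos hρ j).trans_le hd1
  set c := j + k with hcdef
  set α := |ζ j - ζ' j| with hα
  set R := rad ρ (c + 1) with hR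
  set G := max (jM ρ m ζ 0) (jM ρ m ζ' 0) with hG
  have hRpos : 0 < R := rad_pos hρ _
  have hα0 : 0 ≤ α := abs_nonneg _
  have g1 := jM_nonneg (ρ := ρ) (m := m) (ζ := ζ) 0
  have g2 := jM_nonneg (ρ := ρ) (m := m) (ζ := ζ') 0
  have hG0 : 0 ≤ G := le_max_of_le_left g1
  have b1 := (Bd_win_exp (le_min (jT_nonneg (ζ := ζ) hρ c) (jT_nonneg (ζ := ζ') hρ c))
    min_le_max).mul (c := 2 * R) (by positivity)
  have b2 := Bd_win_log (α := α) (r := d) (κ := (k + 2 : ℕ)) (A := α / (2 * R))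
    (B := max G σ₀) hα0 hd (by positivity) (le_max_of_le_left hG0) (by
      have e : R = 2 ^ k * rad ρ (j + 1) := by
        rw [hR, hcdef, add_right_comm, rad_add (j + 1)]
      have e' : 2 * R ≤ 2 ^ (k + 2) * d := by
        rw [e, pow_add]; nlinarith [pow_pos (show (0 : ℝ) < 2 by norm_num) k]
      have := two_pow_le_exp (k + 2)
      rw [← mul_div_assoc, le_div_iff₀ (by positivity)]
      nlinarith [mul_le_mul_of_nonneg_right this (mul_nonneg hd.le hα0),
        mul_le_mul_of_nonneg_left e' hα0])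
  have b3 := (Bd_win_exp (A := 0) (B := max G σ₀) le_rfl (le_max_of_le_left hG0)).mul
    (c := 4 * d) (by positivity)
  have b4 := Bd_win_log (α := |ζ 0 - ζ' 0|) (r := d) (κ := 0) (A := σ₀) (B := G)
    (abs_nonneg _) hd le_rfl hG0 (by simpa using hv)
  refine ((((b1.add b2).add b3).add b4).mono hmeas (fun _ => abs_nonneg _) fun s => ?_).le ?_
  · set σ := Real.exp s
    have hσ : 0 < σ := Real.exp_pos s
    have w1 := win_nonneg (min (jT ρ ζ c) (jT ρ ζ' c)) (max (jT ρ ζ c) (jT ρ ζ' c)) σ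
    have w2 := win_nonneg (α / (2 * R)) (max G σ₀) σ
    have w3 := win_nonneg 0 (max G σ₀) σ
    have w4 := win_nonneg σ₀ G σ
    have p1 : 0 ≤ 2 * R * (σ * win (min (jT ρ ζ c) (jT ρ ζ' c)) (max (jT ρ ζ c) (jT ρ ζ' c)) σ) := by
      positivity
    have p2 : 0 ≤ α * win (α / (2 * R)) (max G σ₀) σ := by positivity
    have p3 : 0 ≤ 4 * d * (σ * win 0 (max G σ₀) σ) := by positivity
    have p4 : 0 ≤ |ζ 0 - ζ' 0| * win σ₀ G σ := by positivity
    by_cases c0 : max G σ₀ ≤ σ
    · have q1 : jM ρ m ζ 0 ≤ σ := ((le_max_left _ _).trans (le_max_left _ _)).trans c0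
      have q2 : jM ρ m ζ' 0 ≤ σ := ((le_max_right _ _).trans (le_max_left _ _)).trans c0
      rw [jV_full q1, jV_full q2, if_pos ((le_max_right _ _).trans c0)]
      simp only [sub_self, abs_zero]; positivity
    push Not at c0
    have q0 : |if σ₀ ≤ σ then ζ 0 - ζ' 0 else 0| ≤ |ζ 0 - ζ' 0| * win σ₀ G σ := by
      split_ifs with c1
      · have : win σ₀ G σ = 1 := if_pos ⟨c1, by
          rcases lt_max_iff.1 c0 with h | h
          · exact h
          · linarith⟩
        rw [this, mul_one]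
      · simpa using p4
    refine (abs_sub _ _).trans ?_
    rcases stage_one (σ := σ) (j := j) (c := c) hρ (by omega) hcm h hc hc' with h1 | h1 | h1
    · rw [h1]; simp only [sub_self, abs_zero]; linarith
    · have : win (min (jT ρ ζ c) (jT ρ ζ' c)) (max (jT ρ ζ c) (jT ρ ζ' c)) σ = 1 :=
        if_pos ⟨h1.1, h1.2.1⟩
      rw [this]; linarith [h1.2.2]
    · obtain ⟨h2, h3, h4⟩ := h1
      have hA : α / (2 * R) ≤ σ := by rw [div_le_iff₀ (by positivity)]; linarith
      have e1 : win (α / (2 * R)) (max G σ₀) σ = 1 := if_pos ⟨hA, c0⟩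
      have e2 : win 0 (max G σ₀) σ = 1 := if_pos ⟨hσ.le, c0⟩
      rw [e1, e2]
      have n1 := jV_near hρ (by omega) h2
      have n2 := jV_near hρ (by omega) h3
      have h5 := abs_sub_le (jV ρ m ζ σ) (ζ j) (jV ρ m ζ' σ)
      have h6 := abs_sub_le (ζ j) (ζ' j) (jV ρ m ζ' σ)
      rw [abs_sub_comm] at n2
      have : σ * rad ρ j ≤ σ * d := by gcongr
      nlinarith
  · have d1 := jT_diff_top (ζ := ζ) (ζ' := ζ') (c := c) hρ (h _ le_rfl)
    rw [hc c (by omega) le_rfl, hc' c (by omega) le_rfl, ← hR, ← hα] at d1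
    have d2 : G ≤ jM ρ m ζ 0 + jM ρ m ζ' 0 := max_le (by linarith) (by linarith)
    have d3 : max G σ₀ ≤ G + σ₀ := max_le (by linarith) (by linarith)
    push_cast
    nlinarith [mul_le_mul_of_nonneg_left d2 hd.le, mul_le_mul_of_nonneg_left d3 hd.le]

end Vale.Agent.P249
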