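import Vale.Agent.P249.Nrm

/-! Sparse random sums. -/

namespace Vale.Agent.P249

open Finset

lemma rpow_sub_le {p x y : ℝ} (hp : 1 ≤ p) (hy : 0 ≤ y) (hxy : y ≤ x) :
    x ^ p - y ^ p ≤ p * x ^ (p - 1) * (x - y) := by
  rcases (hy.trans hxy).eq_or_lt with h | h
  · have : y = 0 := le_antisymm (h ▸ hxy) hy
    subst this; rw [← h]; simp
  have h1 := one_add_mul_self_le_rpow_one_add (s := y / x - 1)
    (by have := div_nonneg hy h.le; linarith) hp
  rw [add_sub_cancel, Real.div_rpow hy h.le, le_div_iff₀ (Real.rpow_pos_of_pos h _)] at h1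
  have e : p * x ^ (p - 1) * (x - y) = -(p * (y / x - 1) * x ^ p) := by
    rw [Real.rpow_sub_one h.ne']; field_simp; ring
  rw [e]; linarith

lemma abs_rpow_sub_le {p x y m : ℝ} (hp : 1 ≤ p) (hx : |x| ≤ m) (hy : |y| ≤ m) :
    |(|x| ^ p - |y| ^ p)| ≤ p * m ^ (p - 1) * |x - y| := by
  have key : ∀ x y : ℝ, |x| ≤ m → |x| ^ p - |y| ^ p ≤ p * m ^ (p - 1) * |x - y| := by
    intro x y hx
    have m0 : 0 ≤ m := (abs_nonneg _).trans hx
    by_cases h : |y| ≤ |x|
    · refine (rpow_sub_le hp (abs_nonneg _) h).trans ?_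
      exact mul_le_mul (mul_le_mul_of_nonneg_left
        (Real.rpow_le_rpow (abs_nonneg _) hx (by linarith)) (by linarith))
        (abs_sub_abs_le_abs_sub _ _) (by linarith) (by positivity)
    · have := Real.rpow_le_rpow (abs_nonneg x) (not_le.1 h).le (by linarith : 0 ≤ p)
      have : 0 ≤ p * m ^ (p - 1) * |x - y| := by positivity
      linarith
  rw [abs_le]; constructor
  · have := key y x hy; rw [abs_sub_comm] at this; linarith
  · exact key x y hx

lemma exists_elem {p ε : ℝ} (hp : 1 ≤ p) (hε : 0 < ε) : ∃ C : ℝ, 1 ≤ C ∧ ∀ s b : ℝ,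
    |(|s + b| ^ p - |s| ^ p - |b| ^ p)| ≤ ε * |b| ^ p + C * (|s| ^ (p - 1) * |b|) := by
  have hp0 : 0 < p := by linarith
  set η := min 1 (ε / (p * 2 ^ (p - 1))) with hη
  have η0 : 0 < η := lt_min one_pos (by positivity)
  have η1 : η ≤ 1 := min_le_left _ _
  have η2 : p * 2 ^ (p - 1) * η ≤ ε := by
    rw [mul_comm, ← le_div_iff₀ (by positivity)]; exact min_le_right _ _
  refine ⟨1 + p * (1 + η⁻¹) ^ (p - 1) + η⁻¹ ^ (p - 1),
    by rw [add_assoc]; exact le_add_of_nonneg_right (by positivity), fun s b => ?_⟩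
  have pw : ∀ x : ℝ, |x| ^ p = |x| ^ (p - 1) * |x| := fun x => by
    rw [← Real.rpow_add_one' (abs_nonneg _) (by linarith)]; simp
  have s0 := abs_nonneg s
  have b0 := abs_nonneg b
  have k0 : 0 ≤ |s| ^ (p - 1) * |b| := by positivity
  have k1 : 0 ≤ p * (1 + η⁻¹) ^ (p - 1) * (|s| ^ (p - 1) * |b|) := by positivity
  have k2 : 0 ≤ η⁻¹ ^ (p - 1) * (|s| ^ (p - 1) * |b|) := by positivity
  by_cases h : |s| ≤ η * |b|
  · have h1 : |s| ≤ |b| := h.trans (mul_le_of_le_one_left b0 η1)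
    have h2 := abs_rpow_sub_le (x := s + b) (y := b) (m := 2 * |b|) hp
      ((abs_add_le _ _).trans (by linarith)) (by linarith)
    rw [add_sub_cancel_right, Real.mul_rpow (by norm_num) b0] at h2
    have h3 : p * (2 ^ (p - 1) * |b| ^ (p - 1)) * |s| ≤ ε * |b| ^ p := by
      refine (mul_le_mul_of_nonneg_left h (by positivity)).trans ?_
      rw [pw b]
      nlinarith [mul_le_mul_of_nonneg_right η2 (show 0 ≤ |b| ^ (p - 1) * |b| by positivity)]
    have h4 : |s| ^ p ≤ |s| ^ (p - 1) * |b| := by rw [pw s]; gcongr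
    have h5 := abs_sub (|s + b| ^ p - |b| ^ p) (|s| ^ p)
    rw [abs_of_nonneg (Real.rpow_nonneg s0 p), sub_right_comm] at h5
    linarith
  · have h1 : |b| ≤ η⁻¹ * |s| := by rw [le_inv_mul_iff₀ η0]; linarith
    have h2 := abs_rpow_sub_le (x := s + b) (y := s) (m := (1 + η⁻¹) * |s|) hp
      ((abs_add_le _ _).trans (by linarith))
      (le_mul_of_one_le_left s0 (le_add_of_nonneg_right (by positivity)))
    rw [add_sub_cancel_left, Real.mul_rpow (by positivity) s0] at h2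
    have h4 : |b| ^ p ≤ η⁻¹ ^ (p - 1) * (|s| ^ (p - 1) * |b|) := by
      rw [pw b, ← mul_assoc, ← Real.mul_rpow (by positivity) s0]
      exact mul_le_mul_of_nonneg_right (Real.rpow_le_rpow b0 h1 (by linarith)) b0
    have h5 := abs_sub (|s + b| ^ p - |s| ^ p) (|b| ^ p)
    rw [abs_of_nonneg (Real.rpow_nonneg b0 p)] at h5
    have : 0 ≤ ε * |b| ^ p := by positivity
    nlinarith

variable {A : Type*} [Fintype A]

/-- law of one draw -/
noncomputable def drw (w : A → ℝ) (N : ℕ) : Fin N → Option A → ℝ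
  | _, some a => w a / N
  | _, none => 1 - (∑ a, w a) / N

/-- value of a draw -/
def vo (β : A → ℝ) : Option A → ℝ
  | some a => β a
  | none => 0

variable {w β : A → ℝ} {N : ℕ}

lemma drw_prob (hw : ∀ a, 0 ≤ w a) (hN : 0 < N) (hW : ∑ a, w a ≤ N) : IsProb (drw w N) := by
  have h : (0 : ℝ) < N := by exact_mod_cast hN
  constructor
  · intro i o; cases o with
    | none => exact sub_nonneg.2 ((div_le_one h).2 hW)
    | some a => exact div_nonneg (hw a) h.le
  · intro i; rw [Fintype.sum_option]; simp only [drw]; rw [← sum_div]; ring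

lemma sum_drw (i : Fin N) (φ : ℝ → ℝ) (h0 : φ 0 = 0) :
    ∑ o, drw w N i o * φ (vo β o) = (∑ a, w a * φ (β a)) / N := by
  rw [Fintype.sum_option, sum_div]
  simp only [drw, vo, h0, mul_zero, zero_add]
  exact sum_congr rfl fun _ _ => by ring

lemma moment_sum {p ε C r : ℝ} (hp : 1 ≤ p) (hε0 : 0 ≤ ε) (hε : ε ≤ 1 / 4) (hC0 : 0 ≤ C)
    (hC : ∀ s b : ℝ,
      |(|s + b| ^ p - |s| ^ p - |b| ^ p)| ≤ ε * |b| ^ p + C * (|s| ^ (p - 1) * |b|))
    (hw : ∀ a, 0 ≤ w a) (hN : 0 < N) (hW : ∑ a, w a ≤ N) (hr : 0 < r)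
    (h1 : |∑ a, w a * |β a| ^ p - r ^ p| ≤ ε * r ^ p) (h2 : 3 * C * ∑ a, w a * |β a| ≤ ε * r) :
    |Ex (drw w N) (fun η => |∑ i, vo β (η i)| ^ p) - r ^ p| ≤ 4 * ε * r ^ p := by
  have hK := drw_prob hw hN hW
  have hN' : (0 : ℝ) < N := by exact_mod_cast hN
  have hp0 : 0 < p := by linarith
  have r0 : 0 < r ^ p := Real.rpow_pos_of_pos hr _
  set mp := ∑ a, w a * |β a| ^ p with hmp
  set m1 := ∑ a, w a * |β a| with hm1
  have mp0 : 0 ≤ mp := sum_nonneg fun a _ => mul_nonneg (hw a) (by positivity)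
  have m10 : 0 ≤ m1 := sum_nonneg fun a _ => mul_nonneg (hw a) (by positivity)
  have mp1 := (abs_le.1 h1).2
  set S : ℕ → (Fin N → Option A) → ℝ := fun l η => ∑ i : Fin N, if i < l then vo β (η i) else 0
    with hS
  have key : ∀ l, l ≤ N → |Ex (drw w N) (fun η => |S l η| ^ p) - l / N * mp|
      ≤ l / N * (ε * mp + ε * r ^ p) := by
    intro l
    induction l with
    | zero =>
      intro
      simp [hS, Real.zero_rpow hp0.ne', Ex]
    | succ l ih =>
      intro hl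
      have ih := ih (by omega)
      have e1 : ∀ η a, S (l + 1) (Function.update η ⟨l, hl⟩ a) = S l η + vo β a := by
        intro η a
        have : vo β a = ∑ i : Fin N, if i = ⟨l, hl⟩ then vo β a else 0 := by simp
        simp only [hS]
        rw [this, ← sum_add_distrib]
        refine sum_congr rfl fun i _ => ?_
        by_cases h : i = ⟨l, hl⟩
        · subst h; simp
        · have : (i : ℕ) ≠ l := fun h' => h (Fin.ext h')
          have e : ((i : ℕ) < l + 1) ↔ ((i : ℕ) < l) := by omega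
          simp only [e, if_neg h, add_zero, Function.update_of_ne h]
      rw [← Ex_resample hK ⟨l, hl⟩]
      simp only [e1]
      have l1 : (l : ℝ) / N ≤ 1 := (div_le_one hN').2 (by exact_mod_cast (by omega : l ≤ N))
      have l0 : (0 : ℝ) ≤ l / N := by positivity
      have y2 : Ex (drw w N) (fun η => |S l η| ^ p) ≤ 2 * r ^ p := by
        have := (abs_le.1 ih).2
        have a1 : l / N * (mp + (ε * mp + ε * r ^ p)) ≤ mp + (ε * mp + ε * r ^ p) :=
          mul_le_of_le_one_left (by positivity) l1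
        nlinarith
      have y3 : Ex (drw w N) (fun η => |S l η| ^ (p - 1)) ≤ 3 * r ^ (p - 1) := by
        have := Ex_mono hK.nonneg (f := fun η => |S l η| ^ (p - 1))
          (g := fun η => r ^ (p - 1) + r⁻¹ * |S l η| ^ p) fun η => by
            have s0 := abs_nonneg (S l η)
            by_cases h : |S l η| ≤ r
            · have := Real.rpow_le_rpow s0 h (by linarith : 0 ≤ p - 1)
              have : 0 ≤ r⁻¹ * |S l η| ^ p := by positivity
              linarith
            · have h' := not_le.1 h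
              have : |S l η| ^ (p - 1) ≤ r⁻¹ * |S l η| ^ p := by
                rw [Real.rpow_sub_one (by linarith), inv_mul_eq_div]
                exact div_le_div_of_nonneg_left (by positivity) hr h'.le
              have : 0 ≤ r ^ (p - 1) := by positivity
              linarith
        rw [Ex_add, Ex_const hK, Ex_mul] at this
        have e : r⁻¹ * (2 * r ^ p) = 2 * r ^ (p - 1) := by
          rw [Real.rpow_sub_one hr.ne']; field_simp
        linarith [mul_le_mul_of_nonneg_left y2 (inv_pos.2 hr).le]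
      have y4 : |Ex (drw w N) (fun η => ∑ a, drw w N ⟨l, hl⟩ a * |S l η + vo β a| ^ p)
          - Ex (drw w N) (fun η => |S l η| ^ p) - mp / N|
          ≤ ε * (mp / N) + C * (m1 / N) * Ex (drw w N) (fun η => |S l η| ^ (p - 1)) := by
        rw [← Ex_const hK (mp / N), ← Ex_sub, ← Ex_sub, Ex_const hK (mp / N), ← Ex_mul,
          ← Ex_const hK (ε * (mp / N)), ← Ex_add]
        refine (abs_Ex_le hK.nonneg _).trans (Ex_mono hK.nonneg fun η => ?_)
        have q1 := sum_drw (w := w) (β := β) ⟨l, hl⟩ (fun b => |b| ^ p)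
          (by simp [Real.zero_rpow hp0.ne'])
        have q2 := sum_drw (w := w) (β := β) ⟨l, hl⟩ (fun b => |b|) (by simp)
        rw [← hmp] at q1
        rw [← hm1] at q2
        have e : ∑ a, drw w N ⟨l, hl⟩ a * |S l η + vo β a| ^ p - |S l η| ^ p - mp / N
            = ∑ a, drw w N ⟨l, hl⟩ a * (|S l η + vo β a| ^ p - |S l η| ^ p - |vo β a| ^ p) := by
          simp only [mul_sub, sum_sub_distrib, ← sum_mul, hK.sum_one, q1, one_mul]
        rw [e, ← q1, ← q2, mul_sum, mul_assoc, sum_mul, mul_sum, ← sum_add_distrib]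
        refine (abs_sum_le_sum_abs _ _).trans (sum_le_sum fun a _ => ?_)
        rw [abs_mul, abs_of_nonneg (hK.nonneg _ _)]
        refine (mul_le_mul_of_nonneg_left (hC _ _) (hK.nonneg _ _)).trans (le_of_eq (by ring))
      have y5 : C * (m1 / N) * Ex (drw w N) (fun η => |S l η| ^ (p - 1)) ≤ ε * r ^ p / N := by
        refine (mul_le_mul_of_nonneg_left y3 (by positivity)).trans ?_
        have := mul_le_mul_of_nonneg_right h2 (show 0 ≤ r ^ (p - 1) / N by positivity)
        have e : ε * r * (r ^ (p - 1) / N) = ε * r ^ p / N := by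
          rw [Real.rpow_sub_one hr.ne']; field_simp
        rw [← e]; refine le_trans (le_of_eq ?_) this; ring
      have e2 : ((l + 1 : ℕ) : ℝ) / N = l / N + 1 / N := by push_cast; ring
      rw [e2]
      have e3 : mp / N = 1 / N * mp := by ring
      have e4 : ε * r ^ p / N = 1 / N * (ε * r ^ p) := by ring
      rw [e3] at y4
      rw [e4] at y5
      rw [abs_le] at ih y4 ⊢
      constructor <;> nlinarith [ih.1, ih.2, y4.1, y4.2]
  have := key N le_rfl
  rw [div_self hN'.ne', one_mul, one_mul] at this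
  simp only [hS, Fin.is_lt, if_true] at this
  rw [abs_le] at this h1 ⊢
  constructor <;> nlinarith [this.1, this.2, h1.1, h1.2]

lemma exp_moment {M : ℝ} (hw : ∀ a, 0 ≤ w a) (hN : 0 < N) (hM : 0 < M)
    (hW : ∑ a, w a ≤ N) (hβ : ∀ a, |β a| ≤ M) (h1 : ∑ a, w a * |β a| ≤ M) :
    Ex (drw w N) (fun η => Real.exp ((∑ i, |vo β (η i)|) / M)) ≤ Real.exp 2 := by
  have hK := drw_prob hw hN hW
  have hN' : (0 : ℝ) < N := by exact_mod_cast hN
  simp only [sum_div, Real.exp_sum]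
  rw [Ex_prod (fun _ o => Real.exp (|vo β o| / M))]
  have : ∀ i ∈ (univ : Finset (Fin N)), ∑ o, drw w N i o * Real.exp (|vo β o| / M)
      ≤ Real.exp (2 / N) := by
    intro i _
    have a1 : ∀ o ∈ (univ : Finset (Option A)), drw w N i o * Real.exp (|vo β o| / M)
        ≤ drw w N i o + (2 / M) * (drw w N i o * |vo β o|) := by
      intro o _
      have b1 : |vo β o| / M ≤ 1 := by
        rw [div_le_one hM]; cases o with
        | none => simp [vo, hM.le]
        | some a => exact hβ a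
      have b0 : 0 ≤ |vo β o| / M := by positivity
      have := Real.abs_exp_sub_one_le (x := |vo β o| / M) (by rwa [abs_of_nonneg b0])
      rw [abs_of_nonneg b0] at this
      have b2 : Real.exp (|vo β o| / M) ≤ 1 + 2 * (|vo β o| / M) := by
        linarith [le_abs_self (Real.exp (|vo β o| / M) - 1)]
      refine (mul_le_mul_of_nonneg_left b2 (hK.nonneg i o)).trans (le_of_eq (by ring))
    refine (sum_le_sum a1).trans ?_
    rw [sum_add_distrib, ← mul_sum, hK.sum_one, sum_drw i (fun b => |b|) (by simp)]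
    have a2 : 2 / M * ((∑ a, w a * |β a|) / N) ≤ 2 / N := by
      have := mul_le_mul_of_nonneg_left h1 (show 0 ≤ 2 / (M * N) by positivity)
      refine le_trans (le_of_eq (by field_simp)) (this.trans (le_of_eq (by field_simp)))
    linarith [Real.add_one_le_exp (2 / (N : ℝ))]
  refine (prod_le_prod (fun i _ => sum_nonneg fun o _ =>
    mul_nonneg (hK.nonneg i o) (Real.exp_pos _).le) this).trans (le_of_eq ?_)
  rw [prod_const, card_univ, Fintype.card_fin, ← Real.exp_nat_mul]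
  congr 1; field_simp

lemma chernoff {S : Type*} [Fintype S] {D : ℕ} {ν φ : S → ℝ} {B δ : ℝ}
    (hK : IsProb (fun (_ : Fin D) => ν)) (h0 : ∀ s, 0 ≤ ν s) (h1 : ∑ s, ν s = 1) (hB : 0 < B)
    (hφ0 : ∀ s, 0 ≤ φ s) (hφ : ∀ s, φ s ≤ B) (hδ0 : 0 ≤ δ) (hδ : δ ≤ 2 * B) :
    Ex (fun (_ : Fin D) => ν)
      (fun η => if D * δ < |∑ k, φ (η k) - D * ∑ s, ν s * φ s| then 1 else 0)
      ≤ 2 * Real.exp (-(D * δ ^ 2 / (4 * B ^ 2))) := by
  set μ := ∑ s, ν s * φ s with hμ
  have μ0 : 0 ≤ μ := sum_nonneg fun s _ => mul_nonneg (h0 s) (hφ0 s)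
  have μ1 : μ ≤ B := by
    refine (sum_le_sum fun s _ => mul_le_mul_of_nonneg_left (hφ s) (h0 s)).trans (le_of_eq ?_)
    rw [← sum_mul, h1, one_mul]
  set t := δ / (2 * B ^ 2) with ht
  have t0 : 0 ≤ t := by positivity
  have tB : t * B ≤ 1 := by
    rw [ht, div_mul_eq_mul_div, div_le_one (by positivity)]; nlinarith
  have key : ∀ c : ℝ, |c| = t → Ex (fun (_ : Fin D) => ν)
      (fun η => Real.exp (-(t * (D * δ))) * Real.exp (c * (∑ k, φ (η k) - D * μ)))
      ≤ Real.exp (-(D * δ ^ 2 / (4 * B ^ 2))) := by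
    intro c hc
    have e : ∀ η : Fin D → S, Real.exp (c * (∑ k, φ (η k) - D * μ))
        = ∏ k, Real.exp (c * (φ (η k) - μ)) := fun η => by
      rw [← Real.exp_sum, ← mul_sum, sum_sub_distrib]; simp
    simp only [e]
    rw [Ex_mul, Ex_prod (fun _ s => Real.exp (c * (φ s - μ)))]
    have a1 : ∑ s, ν s * Real.exp (c * (φ s - μ)) ≤ Real.exp ((t * B) ^ 2) := by
      have b1 : ∀ s ∈ (univ : Finset S), ν s * Real.exp (c * (φ s - μ))
          ≤ (1 + (t * B) ^ 2 - c * μ) * ν s + c * (ν s * φ s) := by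
        intro s _
        have c1 : |c * (φ s - μ)| ≤ t * B := by
          rw [abs_mul, hc]
          exact mul_le_mul_of_nonneg_left (abs_le.2 ⟨by linarith [hφ0 s], by linarith [hφ s]⟩) t0
        have c2 := Real.abs_exp_sub_one_sub_id_le (c1.trans tB)
        have c3 : (c * (φ s - μ)) ^ 2 ≤ (t * B) ^ 2 := by
          rw [← sq_abs (c * _)]; exact pow_le_pow_left₀ (abs_nonneg _) c1 2
        have c4 : Real.exp (c * (φ s - μ)) ≤ 1 + c * (φ s - μ) + (t * B) ^ 2 := by
          linarith [(abs_le.1 c2).2]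
        refine (mul_le_mul_of_nonneg_left c4 (h0 s)).trans (le_of_eq (by ring))
      refine (sum_le_sum b1).trans ?_
      rw [sum_add_distrib, ← mul_sum, ← mul_sum, h1, ← hμ]
      linarith [Real.add_one_le_exp ((t * B) ^ 2)]
    have a2 : ∏ _k : Fin D, ∑ s, ν s * Real.exp (c * (φ s - μ))
        ≤ ∏ _k : Fin D, Real.exp ((t * B) ^ 2) :=
      prod_le_prod (fun _ _ => sum_nonneg fun s _ => mul_nonneg (h0 s) (Real.exp_pos _).le)
        fun _ _ => a1
    refine (mul_le_mul_of_nonneg_left a2 (Real.exp_pos _).le).trans (le_of_eq ?_)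
    rw [prod_const, card_univ, Fintype.card_fin, ← Real.exp_nat_mul, ← Real.exp_add]
    congr 1; rw [ht]; field_simp; ring
  have k1 := key t (abs_of_nonneg t0)
  have k2 := key (-t) (by rw [abs_neg, abs_of_nonneg t0])
  have k3 := add_le_add k1 k2
  rw [← Ex_add, ← two_mul] at k3
  refine le_trans (Ex_mono hK.nonneg fun η => ?_) k3
  rw [← Real.exp_add, ← Real.exp_add]
  have p1 := Real.exp_pos (-(t * (D * δ)) + t * (∑ k, φ (η k) - D * μ))
  have p2 := Real.exp_pos (-(t * (D * δ)) + -t * (∑ k, φ (η k) - D * μ))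
  split_ifs with h
  · rcases lt_abs.1 h with h | h
    · have := Real.one_le_exp (x := -(t * (D * δ)) + t * (∑ k, φ (η k) - D * μ))
        (by nlinarith [mul_le_mul_of_nonneg_left h.le t0])
      linarith
    · have := Real.one_le_exp (x := -(t * (D * δ)) + -t * (∑ k, φ (η k) - D * μ))
        (by nlinarith [mul_le_mul_of_nonneg_left h.le t0])
      linarith
  · linarith

lemma trunc_mean {p M τ : ℝ} (hp : 1 ≤ p) (hw : ∀ a, 0 ≤ w a) (hN : 0 < N) (hM : 0 < M)
    (hτ : 0 ≤ τ) (hW : ∑ a, w a ≤ N) (hβ : ∀ a, |β a| ≤ M) (h1 : ∑ a, w a * |β a| ≤ M) :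
    |Ex (drw w N) (fun η => min (|∑ i, vo β (η i)| ^ p) ((τ * M) ^ p))
      - Ex (drw w N) (fun η => |∑ i, vo β (η i)| ^ p)|
        ≤ M ^ p * (2 * p) ^ p * Real.exp (2 - τ / 2) ∧
    Ex (drw w N) (fun η => if τ * M < |∑ i, vo β (η i)| then 1 else 0) ≤ Real.exp (2 - τ) := by
  have hK := drw_prob hw hN hW
  have hE := exp_moment hw hN hM hW hβ h1
  have hp0 : 0 < p := by linarith
  have hY : ∀ η : Fin N → Option A, |∑ i, vo β (η i)| ≤ (∑ i, |vo β (η i)|) / M * M := fun η => by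
    rw [div_mul_cancel₀ _ hM.ne']; exact abs_sum_le_sum_abs _ _
  constructor
  · rw [← Ex_sub]
    refine (abs_Ex_le hK.nonneg _).trans (le_trans (Ex_mono hK.nonneg
      (g := fun η => M ^ p * (2 * p) ^ p * Real.exp (-(τ / 2)) *
        Real.exp ((∑ i, |vo β (η i)|) / M)) fun η => ?_) ?_)
    · set Y := (∑ i, |vo β (η i)|) / M with hYd
      have Y0 : 0 ≤ Y := div_nonneg (sum_nonneg fun _ _ => abs_nonneg _) hM.le
      by_cases h : |∑ i, vo β (η i)| ≤ τ * M
      · rw [min_eq_left (Real.rpow_le_rpow (abs_nonneg _) h hp0.le), sub_self, abs_zero]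
        positivity
      · have h' := not_le.1 h
        have a1 : τ ≤ Y := le_of_mul_le_mul_right (h'.le.trans (hY η)) hM
        have a2 := Real.rpow_le_rpow (abs_nonneg _) (hY η) hp0.le
        rw [Real.mul_rpow Y0 hM.le] at a2
        have a3 := rpow_le_exp_half hp Y0
        have a4 : Real.exp (Y / 2) ≤ Real.exp (-(τ / 2)) * Real.exp Y := by
          rw [← Real.exp_add]; exact Real.exp_le_exp.2 (by linarith)
        have a5 := a3.trans (mul_le_mul_of_nonneg_left a4 (by positivity))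
        have a6 := a2.trans (mul_le_mul_of_nonneg_right a5 (by positivity))
        rw [abs_sub_comm, abs_of_nonneg (sub_nonneg.2 (min_le_left _ _))]
        have a7 : 0 ≤ min (|∑ i, vo β (η i)| ^ p) ((τ * M) ^ p) :=
          le_min (by positivity) (by positivity)
        linarith
    · rw [Ex_mul]
      refine (mul_le_mul_of_nonneg_left hE (by positivity)).trans (le_of_eq ?_)
      rw [mul_assoc, ← Real.exp_add]; congr 2; ring
  · refine le_trans (Ex_mono hK.nonneg
      (g := fun η => Real.exp (-τ) * Real.exp ((∑ i, |vo β (η i)|) / M)) fun η => ?_) ?_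
    · split_ifs with h
      · rw [← Real.exp_add]
        exact Real.one_le_exp (by linarith [le_of_mul_le_mul_right (h.le.trans (hY η)) hM])
      · positivity
    · rw [Ex_mul]
      refine (mul_le_mul_of_nonneg_left hE (by positivity)).trans (le_of_eq ?_)
      rw [← Real.exp_add]; congr 1; ring

/-- indicator of failure for one pair -/
noncomputable def bad (p ε r T : ℝ) {D : ℕ} (S : Fin D → ℝ) (μ : ℝ) : ℝ :=
  (∑ k, if T < |S k| then 1 else 0) +
    if D * (ε * r ^ p) < |∑ k, min (|S k| ^ p) (T ^ p) - D * μ| then 1 else 0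

lemma bad_nonneg (p ε r T : ℝ) {D : ℕ} (S : Fin D → ℝ) (μ : ℝ) : 0 ≤ bad p ε r T S μ :=
  add_nonneg (sum_nonneg fun _ _ => by split_ifs <;> norm_num) (by split_ifs <;> norm_num)

lemma of_bad_lt {p ε r T μ : ℝ} {D : ℕ} {S : Fin D → ℝ} (hp : 0 ≤ p) (h : bad p ε r T S μ < 1) :
    |∑ k, |S k| ^ p - D * μ| ≤ D * (ε * r ^ p) := by
  unfold bad at h
  have h0 : ∀ k, (0 : ℝ) ≤ if T < |S k| then 1 else 0 := fun k => by split_ifs <;> norm_num
  have h1 : ∀ k, |S k| ≤ T := fun k => by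
    by_contra hc
    have := single_le_sum (f := fun k => if T < |S k| then (1 : ℝ) else 0) (fun k _ => h0 k)
      (mem_univ k)
    rw [if_pos (not_le.1 hc)] at this
    split_ifs at h <;> linarith
  have h2 : ∑ k, min (|S k| ^ p) (T ^ p) = ∑ k, |S k| ^ p :=
    sum_congr rfl fun k _ => min_eq_left (Real.rpow_le_rpow (abs_nonneg _) (h1 k) hp)
  rw [h2] at h
  by_contra hc
  rw [if_pos (not_le.1 hc)] at h
  linarith [sum_nonneg fun k (_ : k ∈ univ) => h0 k]

/-- sum of the drawn values -/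
noncomputable def sm (β : A → ℝ) {N : ℕ} (η : Fin N → Option A) : ℝ := ∑ i, vo β (η i)

/-- truncated moment -/
noncomputable def tmean (p T : ℝ) (w β : A → ℝ) (N : ℕ) : ℝ :=
  Ex (drw w N) (fun η => min (|sm β η| ^ p) (T ^ p))

lemma Ex_bad {p ε r M τ : ℝ} {D : ℕ} (hp : 1 ≤ p) (hε0 : 0 < ε) (hε : ε ≤ 1 / 4)
    (hw : ∀ a, 0 ≤ w a) (hN : 0 < N) (hM : 0 < M) (hr : 0 < r) (hτ : 0 < τ)
    (hW : ∑ a, w a ≤ N) (hβ : ∀ a, |β a| ≤ M) (h1 : ∑ a, w a * |β a| ≤ M) (c4 : r ≤ τ * M) :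
    Ex (fun (_ : Fin D) => wt (drw w N))
      (fun η => bad p ε r (τ * M) (fun k => sm β (η k)) (tmean p (τ * M) w β N))
      ≤ D * Real.exp (2 - τ)
        + 2 * Real.exp (-(D * (ε * r ^ p) ^ 2 / (4 * ((τ * M) ^ p) ^ 2))) := by
  have hp0 : 0 < p := by linarith
  have hK := drw_prob hw hN hW
  have hO : IsProb (fun (_ : Fin D) => wt (drw w N)) :=
    ⟨fun _ => wt_nonneg hK.nonneg, fun _ => sum_wt hK⟩
  have tm := (trunc_mean hp hw hN hM hτ.le hW hβ h1).2
  simp only [bad]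
  rw [Ex_add, Ex_sum]
  refine add_le_add ?_ ?_
  · refine (sum_le_card_nsmul univ _ (Real.exp (2 - τ)) fun k _ => ?_).trans (by simp)
    rw [Ex_coord hO k (fun η => if τ * M < |sm β η| then (1 : ℝ) else 0)]
    exact tm
  · have a0 : r ^ p ≤ (τ * M) ^ p := Real.rpow_le_rpow hr.le c4 hp0.le
    have a1 : 0 < r ^ p := by positivity
    exact chernoff (φ := fun η => min (|sm β η| ^ p) ((τ * M) ^ p))
      (B := (τ * M) ^ p) (δ := ε * r ^ p) hO (wt_nonneg hK.nonneg)
      (sum_wt hK) (by positivity) (fun _ => le_min (by positivity) (by positivity))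
      (fun _ => min_le_right _ _) (by positivity) (by nlinarith)

lemma of_bad {p ε C r M τ : ℝ} {D : ℕ} (hp : 1 ≤ p) (hε0 : 0 < ε) (hε : ε ≤ 1 / 4) (hC0 : 0 ≤ C)
    (hC : ∀ s b : ℝ,
      |(|s + b| ^ p - |s| ^ p - |b| ^ p)| ≤ ε * |b| ^ p + C * (|s| ^ (p - 1) * |b|))
    (hw : ∀ a, 0 ≤ w a) (hN : 0 < N) (hM : 0 < M) (hr : 0 < r) (hτ : 0 < τ)
    (hW : ∑ a, w a ≤ N) (hβ : ∀ a, |β a| ≤ M) (h1 : ∑ a, w a * |β a| ≤ M)
    (h2 : |∑ a, w a * |β a| ^ p - r ^ p| ≤ ε * r ^ p) (h3 : 3 * C * ∑ a, w a * |β a| ≤ ε * r)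
    (c3 : M ^ p * (2 * p) ^ p * Real.exp (2 - τ / 2) ≤ ε * r ^ p)
    (η : Fin D → Fin N → Option A)
    (h : bad p ε r (τ * M) (fun k => sm β (η k)) (tmean p (τ * M) w β N) < 1) :
    |∑ k, |sm β (η k)| ^ p - D * r ^ p| ≤ 6 * ε * (D * r ^ p) := by
  have hp0 : 0 < p := by linarith
  have e5 := of_bad_lt hp0.le h
  have e6 := moment_sum hp hε0.le hε hC0 hC hw hN hW hr h2 h3
  have e7 := (trunc_mean hp hw hN hM hτ.le hW hβ h1).1
  have e9 : |tmean p (τ * M) w β N - r ^ p| ≤ 5 * ε * r ^ p := by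
    have := abs_sub_le (tmean p (τ * M) w β N) (Ex (drw w N) (fun η => |sm β η| ^ p)) (r ^ p)
    simp only [tmean, sm] at this ⊢
    linarith
  have D0 : (0 : ℝ) ≤ D := by positivity
  have e10 := mul_le_mul_of_nonneg_left (abs_le.1 e9).1 D0
  have e11 := mul_le_mul_of_nonneg_left (abs_le.1 e9).2 D0
  rw [abs_le] at e5 ⊢
  constructor <;> linarith [e5.1, e5.2]

theorem exists_sample {X : Type*} [Fintype X] [MetricSpace X] {p ε C κ γ M τ n : ℝ} {D : ℕ}
    (hp : 1 ≤ p) (hε0 : 0 < ε) (hε : ε ≤ 1 / 4) (hC0 : 0 ≤ C)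
    (hC : ∀ s b : ℝ,
      |(|s + b| ^ p - |s| ^ p - |b| ^ p)| ≤ ε * |b| ^ p + C * (|s| ^ (p - 1) * |b|))
    (hw : ∀ a, 0 ≤ w a) (b : A → X → ℝ) (hκ : 0 < κ) (hM : 0 < M) (hn : Fintype.card X ≤ n)
    (h1 : ∀ x y, x ≠ y →
      |∑ a, w a * |b a x - b a y| ^ p - (κ * dist x y) ^ p| ≤ ε * (κ * dist x y) ^ p)
    (h2 : ∀ x y, x ≠ y → ∑ a, w a * |b a x - b a y| ≤ γ * dist x y)
    (h3 : ∀ x y, x ≠ y → ∀ a, |b a x - b a y| ≤ M * dist x y)
    (c1 : 3 * C * γ ≤ ε * κ) (c2 : γ ≤ M)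
    (c3 : M ^ p * (2 * p) ^ p * Real.exp (2 - τ / 2) ≤ ε * κ ^ p) (c4 : κ ≤ τ * M)
    (c5 : n ^ 2 * (D * Real.exp (2 - τ)
      + 2 * Real.exp (-(D * (ε * κ ^ p) ^ 2 / (4 * ((τ * M) ^ p) ^ 2)))) < 1) :
    ∃ f : X → Fin D → ℝ, ∀ x y, x ≠ y →
      |∑ k, |f x k - f y k| ^ p - D * (κ * dist x y) ^ p| ≤ 6 * ε * (D * (κ * dist x y) ^ p) := by
  classical
  have hp0 : 0 < p := by linarith
  have hτ : 0 < τ := by
    by_contra hc
    nlinarith [mul_nonneg (neg_nonneg.2 (not_lt.1 hc)) hM.le]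
  obtain ⟨N, hN, hW⟩ : ∃ N : ℕ, 0 < N ∧ ∑ a, w a ≤ N :=
    ⟨⌈∑ a, w a⌉₊ + 1, Nat.succ_pos _, by push_cast; linarith [Nat.le_ceil (∑ a, w a)]⟩
  have hK := drw_prob hw hN hW
  have hO : IsProb (fun (_ : Fin D) => wt (drw w N)) :=
    ⟨fun _ => wt_nonneg hK.nonneg, fun _ => sum_wt hK⟩
  obtain ⟨Bq, hBq⟩ : ∃ Bq : X × X → (Fin D → Fin N → Option A) → ℝ, Bq = fun q η =>
    if q.1 = q.2 then 0 else bad p ε (κ * dist q.1 q.2) (τ * (M * dist q.1 q.2))
      (fun k => sm (fun a => b a q.1 - b a q.2) (η k))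
      (tmean p (τ * (M * dist q.1 q.2)) w (fun a => b a q.1 - b a q.2) N) := ⟨_, rfl⟩
  have B0 : ∀ q η, 0 ≤ Bq q η := fun q η => by
    simp only [hBq]; split_ifs
    · exact le_rfl
    · exact bad_nonneg _ _ _ _ _ _
  have h2' : ∀ x y, x ≠ y → ∑ a, w a * |b a x - b a y| ≤ M * dist x y := fun x y hxy =>
    (h2 x y hxy).trans (mul_le_mul_of_nonneg_right c2 dist_nonneg)
  obtain ⟨c, hc⟩ : ∃ c, c = D * Real.exp (2 - τ)
      + 2 * Real.exp (-(D * (ε * κ ^ p) ^ 2 / (4 * ((τ * M) ^ p) ^ 2))) := ⟨_, rfl⟩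
  have c0 : 0 ≤ c := by rw [hc]; positivity
  have e1 : ∀ q ∈ (univ : Finset (X × X)),
      Ex (fun (_ : Fin D) => wt (drw w N)) (Bq q) ≤ c := by
    rintro ⟨x, y⟩ _
    by_cases hxy : x = y
    · simp only [hBq, if_pos hxy]; rw [Ex_const hO]; exact c0
    have d0 : 0 < dist x y := dist_pos.2 hxy
    simp only [hBq, if_neg hxy]
    refine (Ex_bad hp hε0 hε hw hN (mul_pos hM d0) (mul_pos hκ d0) hτ hW (h3 x y hxy)
      (h2' x y hxy) (by nlinarith)).trans (le_of_eq ?_)
    rw [hc, ← mul_assoc τ, Real.mul_rpow (x := τ * M) (by positivity) d0.le,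
      Real.mul_rpow hκ.le d0.le]
    have : 0 < dist x y ^ p := by positivity
    have : 0 < (τ * M) ^ p := by positivity
    congr 4; field_simp
  obtain ⟨η, hη⟩ := exists_le_Ex hO (fun η => ∑ q, Bq q η)
  rw [Ex_sum] at hη
  have e2 : ∑ q, Bq q η < 1 := by
    rw [← hc] at c5
    refine (hη.trans (sum_le_card_nsmul univ _ c e1)).trans_lt (lt_of_le_of_lt ?_ c5)
    rw [nsmul_eq_mul, card_univ, Fintype.card_prod]
    push_cast
    refine mul_le_mul_of_nonneg_right ?_ c0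
    rw [sq]; exact mul_le_mul hn hn (by positivity) (le_trans (by positivity) hn)
  refine ⟨fun x k => sm (fun a => b a x) (η k), fun x y hxy => ?_⟩
  have d0 : 0 < dist x y := dist_pos.2 hxy
  have e3 : ∀ k, sm (fun a => b a x) (η k) - sm (fun a => b a y) (η k)
      = sm (fun a => b a x - b a y) (η k) := fun k => by
    simp only [sm]
    rw [← sum_sub_distrib]
    refine sum_congr rfl fun i _ => ?_
    cases η k i <;> simp [vo]
  simp only [e3]
  have e4 := (single_le_sum (f := fun q => Bq q η) (fun q _ => B0 q η)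
    (mem_univ (x, y))).trans_lt e2
  simp only [hBq, if_neg hxy] at e4
  refine of_bad hp hε0 hε hC0 hC hw hN (mul_pos hM d0) (mul_pos hκ d0) hτ hW (h3 x y hxy)
    (h2' x y hxy) (h1 x y hxy) ?_ ?_ η e4
  · have := mul_le_mul_of_nonneg_left (h2 x y hxy) (show 0 ≤ 3 * C by positivity)
    have := mul_le_mul_of_nonneg_right c1 d0.le
    linarith
  · rw [Real.mul_rpow hM.le d0.le, Real.mul_rpow hκ.le d0.le]
    linarith [mul_le_mul_of_nonneg_right c3 (show 0 ≤ dist x y ^ p by positivity)]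

end Vale.Agent.P249
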