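import Vale.Agent.P249.Band
import Vale.Agent.P249.Sample

/-! Band-pass followed by sampling. -/

namespace Vale.Agent.P249

open Finset

lemma c5_num {p ε G L n : ℝ} (hp : 1 ≤ p) (hG0 : 0 ≤ G) (hL0 : 0 ≤ L) (hn0 : 0 ≤ n)
    (hn : n ≤ Real.exp L) (hε : Real.exp (-G) ≤ ε)
    (hG : 4 + 2 * L + (6 * p + 4) * G ≤ Real.exp G) {D : ℕ}
    (hD : D = ⌈Real.exp ((6 * p + 4) * G)⌉₊) :
    n ^ 2 * (D * Real.exp (2 - Real.exp G) + 2 * Real.exp (-(D * (ε * Real.exp (-G) ^ p) ^ 2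
      / (4 * ((Real.exp G * Real.exp G) ^ p) ^ 2)))) < 1 := by
  have pG : 0 ≤ (6 * p + 4) * G := by positivity
  have D1 : Real.exp ((6 * p + 4) * G) ≤ D := hD ▸ Nat.le_ceil _
  have D2 : (D : ℝ) ≤ 2 * Real.exp ((6 * p + 4) * G) := by
    have := Nat.ceil_lt_add_one (Real.exp_pos ((6 * p + 4) * G)).le
    rw [← hD] at this
    linarith [Real.one_le_exp pG]
  have n2 : n ^ 2 ≤ Real.exp (2 * L) := by
    rw [two_mul, Real.exp_add, pow_two]; exact mul_le_mul hn hn hn0 (Real.exp_pos _).le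
  have a1 : Real.exp (2 * L) * (D * Real.exp (2 - Real.exp G)) ≤ 2 * Real.exp (-2) := by
    refine (mul_le_mul_of_nonneg_left (mul_le_mul_of_nonneg_right D2 (Real.exp_pos _).le)
      (Real.exp_pos _).le).trans ?_
    rw [mul_assoc, mul_left_comm, ← Real.exp_add, ← Real.exp_add]
    exact mul_le_mul_of_nonneg_left (Real.exp_le_exp.2 (by linarith)) (by norm_num)
  have a2 : 2 * L + 2 ≤ D * (ε * Real.exp (-G) ^ p) ^ 2
      / (4 * ((Real.exp G * Real.exp G) ^ p) ^ 2) := by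
    rw [le_div_iff₀ (by positivity), ← Real.exp_add, ← Real.exp_mul, ← Real.exp_mul]
    have b1 : (Real.exp (-G) * Real.exp (-G * p)) ^ 2 ≤ (ε * Real.exp (-G * p)) ^ 2 := by gcongr
    have b2 := mul_le_mul D1 b1 (by positivity) (by positivity)
    refine le_trans ?_ b2
    have b3 : (2 * L + 2) * 4 ≤ Real.exp G * Real.exp G :=
      mul_le_mul (by linarith) (by linarith) (by norm_num) (Real.exp_pos _).le
    rw [← mul_assoc]
    refine (mul_le_mul_of_nonneg_right b3 (by positivity)).trans (le_of_eq ?_)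
    simp only [pow_two, ← Real.exp_add]
    congr 1; ring
  have a3 : Real.exp (2 * L) * (2 * Real.exp (-(D * (ε * Real.exp (-G) ^ p) ^ 2
      / (4 * ((Real.exp G * Real.exp G) ^ p) ^ 2)))) ≤ 2 * Real.exp (-2) := by
    rw [mul_left_comm, ← Real.exp_add]
    exact mul_le_mul_of_nonneg_left (Real.exp_le_exp.2 (by linarith)) (by norm_num)
  have a4 : Real.exp (-2) < 1 / 4 := by
    rw [Real.exp_neg, inv_eq_one_div]
    refine one_div_lt_one_div_of_lt (by norm_num) ?_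
    have := Real.exp_one_gt_d9
    rw [show (2 : ℝ) = 1 + 1 by norm_num, Real.exp_add]; nlinarith
  refine (mul_le_mul_of_nonneg_right n2 (by positivity)).trans_lt ?_
  rw [mul_add]; linarith

theorem exists_combine {X A : Type*} [Fintype X] [MetricSpace X] [Fintype A]
    {p ε ε' C κ Γ G L : ℝ} (hp : 1 ≤ p) (hε4 : ε ≤ 1 / 4) (hC1 : 1 ≤ C)
    (hC : ∀ s b : ℝ,
      |(|s + b| ^ p - |s| ^ p - |b| ^ p)| ≤ ε * |b| ^ p + C * (|s| ^ (p - 1) * |b|))
    (hε1 : ε' ≤ 1) (hε' : p * 2 ^ (p - 1) * ε' ≤ ε) (hG0 : 0 ≤ G) (hL0 : 0 ≤ L)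
    (hn : Fintype.card X ≤ Real.exp L) (hε : Real.exp (-G) ≤ ε) (hpG : 2 * p ≤ Real.exp G)
    (hG : 4 + 2 * L + (6 * p + 4) * G ≤ Real.exp G) (hΓ0 : 0 ≤ Γ)
    (hΓ : 3 * C * Γ ≤ ε * Real.exp ((p - 1) * G)) (hκ : 1 ≤ κ)
    (t : A → X → ℝ) (u : A → ℝ)
    (h1 : ∀ x y, x ≠ y → |nrm p (fun a => t a x - t a y) - κ * dist x y| ≤ ε' * κ * dist x y)
    (h2 : ∀ x y, x ≠ y → ∀ a, |t a x - t a y| ≤ Real.exp G * Real.exp (u a) * dist x y)
    (h3 : ∀ x y, x ≠ y → ∑ a, Real.exp ((p - 1) * u a) * |t a x - t a y| ≤ Γ * dist x y) :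
    ∃ f : X → Fin ⌈Real.exp ((6 * p + 4) * G)⌉₊ → ℝ, ∃ s : ℝ, 0 < s ∧ ∀ x y, x ≠ y →
      |∑ k, |f x k - f y k| ^ p - s * dist x y ^ p| ≤ 6 * ε * (s * dist x y ^ p) := by
  have hp0 : 0 < p := by linarith
  have ε0 : 0 < ε := (Real.exp_pos _).trans_le hε
  have κ0 : 0 < κ := by linarith
  obtain ⟨k, hk⟩ : ∃ k, k = Real.exp (-G) := ⟨_, rfl⟩
  have k0 : 0 < k := hk ▸ Real.exp_pos _
  have k1 : k ≤ 1 := hk ▸ Real.exp_le_one_iff.2 (by linarith)
  obtain ⟨l, hl⟩ : ∃ l, l = (k / κ) ^ p := ⟨_, rfl⟩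
  have l0 : 0 < l := hl ▸ by positivity
  have l1 : l ≤ k ^ p := hl ▸ Real.rpow_le_rpow (by positivity) (div_le_self k0.le hκ) hp0.le
  have l2 : l * κ ^ p = k ^ p := by
    rw [hl, Real.div_rpow k0.le κ0.le]; field_simp
  have eb : ∀ a x y, |Real.exp (-u a) * t a x - Real.exp (-u a) * t a y|
      = Real.exp (-u a) * |t a x - t a y| := fun a x y => by
    rw [← mul_sub, abs_mul, abs_of_pos (Real.exp_pos _)]
  have c1 : 3 * C * (k ^ p * Γ) ≤ ε * k := by
    have := mul_le_mul_of_nonneg_left hΓ (show 0 ≤ k ^ p by positivity)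
    have e : k ^ p * (ε * Real.exp ((p - 1) * G)) = ε * k := by
      rw [hk, ← Real.exp_mul, mul_left_comm, ← Real.exp_add]; congr 2; ring
    linarith
  have eG := Real.one_le_exp hG0
  refine (exists_sample (D := ⌈Real.exp ((6 * p + 4) * G)⌉₊) (κ := k)
    (γ := k ^ p * Γ) (M := Real.exp G) (τ := Real.exp G) (n := Real.exp L)
    (w := fun a => l * Real.exp (p * u a)) hp ε0 hε4 (by linarith) hC (fun a => by positivity)
    (fun a x => Real.exp (-u a) * t a x) k0 (Real.exp_pos _) hn ?_ ?_ ?_ c1 ?_ ?_ ?_ ?_).imp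
    fun f hf => ?_
  rotate_right
  · refine ⟨⌈Real.exp ((6 * p + 4) * G)⌉₊ * k ^ p,
      mul_pos (by exact_mod_cast Nat.ceil_pos.2 (Real.exp_pos _)) (by positivity),
      fun x y hxy => ?_⟩
    have := hf x y hxy
    rwa [Real.mul_rpow k0.le dist_nonneg, ← mul_assoc] at this
  · intro x y hxy
    have d0 : 0 < dist x y := dist_pos.2 hxy
    have e1 : ∑ a, l * Real.exp (p * u a) *
        |Real.exp (-u a) * t a x - Real.exp (-u a) * t a y| ^ p
        = l * nrm p (fun a => t a x - t a y) ^ p := by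
      rw [nrm_rpow hp, mul_sum]
      refine sum_congr rfl fun a _ => ?_
      rw [eb, Real.mul_rpow (Real.exp_pos _).le (abs_nonneg _), ← Real.exp_mul, ← mul_assoc,
        mul_assoc l, ← Real.exp_add, show p * u a + -u a * p = 0 by ring, Real.exp_zero, mul_one]
    have e2 : (k * dist x y) ^ p = l * (κ * dist x y) ^ p := by
      rw [Real.mul_rpow k0.le d0.le, Real.mul_rpow κ0.le d0.le, ← mul_assoc, l2]
    rw [e1, e2, ← mul_sub, abs_mul, abs_of_pos l0, mul_left_comm]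
    refine mul_le_mul_of_nonneg_left ?_ l0.le
    have r0 : 0 < κ * dist x y := by positivity
    have q := h1 x y hxy
    rw [mul_assoc] at q
    obtain ⟨r, hr⟩ : ∃ r, r = κ * dist x y := ⟨_, rfl⟩
    rw [← hr] at q r0 ⊢
    have n0 := nrm_nonneg (p := p) (fun a => t a x - t a y)
    have q1 := abs_rpow_sub_le (x := nrm p (fun a => t a x - t a y)) (y := r) (m := 2 * r) hp
      (by rw [abs_of_nonneg n0]; nlinarith [(abs_le.1 q).2]) (by rw [abs_of_pos r0]; linarith)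
    rw [abs_of_nonneg n0, abs_of_pos r0, Real.mul_rpow (by norm_num) r0.le] at q1
    refine q1.trans ((mul_le_mul_of_nonneg_left q (by positivity)).trans ?_)
    have e3 : r ^ p = r ^ (p - 1) * r := by rw [Real.rpow_sub_one r0.ne']; field_simp
    rw [e3]
    linarith [mul_le_mul_of_nonneg_right hε' (show 0 ≤ r ^ (p - 1) * r by positivity)]
  · intro x y hxy
    have e1 : ∑ a, l * Real.exp (p * u a) * |Real.exp (-u a) * t a x - Real.exp (-u a) * t a y|
        = l * ∑ a, Real.exp ((p - 1) * u a) * |t a x - t a y| := by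
      rw [mul_sum]
      refine sum_congr rfl fun a _ => ?_
      rw [eb, ← mul_assoc, mul_assoc l, ← Real.exp_add, mul_assoc]
      congr 3; ring
    rw [e1, mul_assoc]
    exact mul_le_mul l1 (h3 x y hxy) (sum_nonneg fun a _ => by positivity) (by positivity)
  · intro x y hxy a
    rw [eb]
    refine (mul_le_mul_of_nonneg_left (h2 x y hxy a) (Real.exp_pos _).le).trans (le_of_eq ?_)
    rw [Real.exp_neg]; field_simp
  · have : 0 ≤ k ^ p * Γ := by positivity
    nlinarith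
  · have a1 : (2 * p) ^ p ≤ Real.exp G ^ p := Real.rpow_le_rpow (by positivity) hpG hp0.le
    have a2 : Real.exp (-G) * k ^ p ≤ ε * k ^ p := by gcongr
    refine le_trans ?_ a2
    refine (mul_le_mul_of_nonneg_right (mul_le_mul_of_nonneg_left a1 (by positivity))
      (by positivity)).trans ?_
    rw [hk]
    simp only [← Real.exp_mul, ← Real.exp_add]
    exact Real.exp_le_exp.2 (by nlinarith)
  · nlinarith
  · rw [hk]
    exact c5_num hp hG0 hL0 (Real.exp_pos _).le le_rfl hε hG rfl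

end Vale.Agent.P249
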