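import Mathlib

namespace Vale.Agent.P249

open MeasureTheory

universe u

/-- The norm of `ℓ_p^d`. -/
noncomputable def ellNorm (p : ℝ) {d : ℕ} (y : Fin d → ℝ) : ℝ := (∑ k, |y k| ^ p) ^ (1 / p)

/-- The real space `L_p(μ)`. -/
abbrev LpSpace (p : ℝ) {Ω : Type u} [MeasurableSpace Ω] (μ : Measure Ω) : Type u :=
  Lp ℝ (ENNReal.ofReal p) μ

/-- The distance `‖x - x'‖_p` in `L_p(μ)`. -/
noncomputable def lpDist {p : ℝ} {Ω : Type u} [MeasurableSpace Ω] {μ : Measure Ω}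
    (x x' : LpSpace p μ) : ℝ := ‖x - x'‖

/-- The map `f` from `X`, with distance `ρ`, into `ℓ_p^d` has distortion at most `D`. -/
def DistortionLE (p D : ℝ) {X : Type u} (ρ : X → X → ℝ) {d : ℕ} (f : X → Fin d → ℝ) : Prop :=
  ∃ s : ℝ, 0 < s ∧ ∀ x x' : X,
    s * ρ x x' ≤ ellNorm p (f x - f x') ∧ ellNorm p (f x - f x') ≤ D * s * ρ x x'

/-- Every `n`-point subset of every real `L_p(μ)` admits a map into `ℓ_p^d` with distortion at
most `D`. -/
def Embeds (p D : ℝ) (n d : ℕ) : Prop :=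
  ∀ (Ω : Type u) [MeasurableSpace Ω] (μ : Measure Ω) (X : Finset (LpSpace p μ)), X.card = n →
    ∃ f : X → Fin d → ℝ, DistortionLE p D (fun x x' : X => lpDist x.1 x'.1) f

/-- The quantity `d_p(n, D)`. -/
noncomputable def dimRed (p D : ℝ) (n : ℕ) : ℕ := sInf {d | Embeds.{u} p D n d}

end Vale.Agent.P249
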