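import Mathlib

/-! Finite product expectations. -/

namespace Vale.Agent.P249

open Finset

variable {ι α : Type*} [Fintype ι] [DecidableEq ι] [Fintype α]

/-- weight of a configuration -/
noncomputable def wt (K : ι → α → ℝ) (ξ : ι → α) : ℝ := ∏ i, K i (ξ i)

/-- expectation under the product weights -/
noncomputable def Ex (K : ι → α → ℝ) (f : (ι → α) → ℝ) : ℝ := ∑ ξ, wt K ξ * f ξ

/-- probability kernel family -/
structure IsProb (K : ι → α → ℝ) : Prop where
  nonneg : ∀ i a, 0 ≤ K i a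
  sum_one : ∀ i, ∑ a, K i a = 1

variable {K K' : ι → α → ℝ}

omit [DecidableEq ι] [Fintype α] in
lemma wt_nonneg (h : ∀ i a, 0 ≤ K i a) (ξ : ι → α) : 0 ≤ wt K ξ :=
  prod_nonneg fun i _ => h i _

lemma sum_wt (h : IsProb K) : ∑ ξ, wt K ξ = 1 := by
  unfold wt
  rw [← Fintype.piFinset_univ, ← prod_univ_sum]
  simp [h.sum_one]

lemma Ex_const (h : IsProb K) (c : ℝ) : Ex K (fun _ => c) = c := by
  unfold Ex; rw [← sum_mul, sum_wt h, one_mul]

lemma Ex_add (f g : (ι → α) → ℝ) : Ex K (fun ξ => f ξ + g ξ) = Ex K f + Ex K g := by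
  unfold Ex; rw [← sum_add_distrib]; exact sum_congr rfl fun _ _ => by ring

lemma Ex_sub (f g : (ι → α) → ℝ) : Ex K (fun ξ => f ξ - g ξ) = Ex K f - Ex K g := by
  unfold Ex; rw [← sum_sub_distrib]; exact sum_congr rfl fun _ _ => by ring

lemma Ex_mul (c : ℝ) (f : (ι → α) → ℝ) : Ex K (fun ξ => c * f ξ) = c * Ex K f := by
  unfold Ex; rw [mul_sum]; exact sum_congr rfl fun _ _ => by ring

lemma Ex_mul' (c : ℝ) (f : (ι → α) → ℝ) : Ex K (fun ξ => f ξ * c) = Ex K f * c := by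
  unfold Ex; rw [sum_mul]; exact sum_congr rfl fun _ _ => by ring

lemma Ex_sum {β : Type*} (s : Finset β) (f : β → (ι → α) → ℝ) :
    Ex K (fun ξ => ∑ b ∈ s, f b ξ) = ∑ b ∈ s, Ex K (f b) := by
  unfold Ex; rw [sum_comm]; exact sum_congr rfl fun _ _ => by rw [mul_sum]

lemma Ex_mono_supp (h : ∀ i a, 0 ≤ K i a) {f g : (ι → α) → ℝ}
    (hfg : ∀ ξ, (∀ i, K i (ξ i) ≠ 0) → f ξ ≤ g ξ) : Ex K f ≤ Ex K g := by
  unfold Ex
  refine sum_le_sum fun ξ _ => ?_
  by_cases hξ : ∀ i, K i (ξ i) ≠ 0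
  · exact mul_le_mul_of_nonneg_left (hfg ξ hξ) (wt_nonneg h ξ)
  · push Not at hξ
    obtain ⟨i, hi⟩ := hξ
    have : wt K ξ = 0 := prod_eq_zero (mem_univ i) hi
    simp [this]

lemma Ex_mono (h : ∀ i a, 0 ≤ K i a) {f g : (ι → α) → ℝ}
    (hfg : ∀ ξ, f ξ ≤ g ξ) : Ex K f ≤ Ex K g := Ex_mono_supp h fun ξ _ => hfg ξ

lemma Ex_nonneg (h : ∀ i a, 0 ≤ K i a) {f : (ι → α) → ℝ}
    (hf : ∀ ξ, 0 ≤ f ξ) : 0 ≤ Ex K f :=
  sum_nonneg fun ξ _ => mul_nonneg (wt_nonneg h ξ) (hf ξ)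

lemma abs_Ex_le (h : ∀ i a, 0 ≤ K i a) (f : (ι → α) → ℝ) :
    |Ex K f| ≤ Ex K (fun ξ => |f ξ|) := by
  unfold Ex
  refine (abs_sum_le_sum_abs _ _).trans (le_of_eq (sum_congr rfl fun ξ _ => ?_))
  rw [abs_mul, abs_of_nonneg (wt_nonneg h ξ)]

lemma Ex_dom (h : ∀ i a, 0 ≤ K i a) (c : ι → ℝ) (hc : ∀ i a, K i a ≤ c i * K' i a)
    {f : (ι → α) → ℝ} (hf : ∀ ξ, 0 ≤ f ξ) : Ex K f ≤ (∏ i, c i) * Ex K' f := by
  unfold Ex
  rw [mul_sum]
  refine sum_le_sum fun ξ _ => ?_
  rw [← mul_assoc]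
  refine mul_le_mul_of_nonneg_right ?_ (hf ξ)
  unfold wt
  rw [← prod_mul_distrib]
  exact prod_le_prod (fun i _ => h i _) fun i _ => hc i _

lemma Ex_prod (φ : ι → α → ℝ) :
    Ex K (fun ξ => ∏ i, φ i (ξ i)) = ∏ i, ∑ a, K i a * φ i a := by
  unfold Ex wt
  rw [prod_univ_sum, Fintype.piFinset_univ]
  exact sum_congr rfl fun ξ _ => by rw [prod_mul_distrib]

/-- mix two configurations -/
def mix (S : ι → Prop) [DecidablePred S] {β : Type*} (ξ ξ' : ι → β) : ι → β :=
  fun i => if S i then ξ i else ξ' i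

lemma Ex_mix (S : ι → Prop) [DecidablePred S] (h : IsProb K) (h' : IsProb K')
    (f : (ι → α) → ℝ) :
    Ex (mix S K K') f = Ex K (fun ξ => Ex K' (fun ξ' => f (mix S ξ ξ'))) := by
  have hp : IsProb (mix S K' K) := by
    constructor
    · intro i a; unfold mix; split_ifs
      · exact h'.nonneg i a
      · exact h.nonneg i a
    · intro i; unfold mix; split_ifs
      · exact h'.sum_one i
      · exact h.sum_one i
  let e : (ι → α) × (ι → α) ≃ (ι → α) × (ι → α) :=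
    { toFun := fun q => (mix S q.1 q.2, mix S q.2 q.1)
      invFun := fun q => (mix S q.1 q.2, mix S q.2 q.1)
      left_inv := by
        intro q; ext i <;> simp only [mix] <;> split_ifs <;> rfl
      right_inv := by
        intro q; ext i <;> simp only [mix] <;> split_ifs <;> rfl }
  have h1 : Ex (mix S K K') f
      = ∑ q : (ι → α) × (ι → α), wt (mix S K K') q.1 * wt (mix S K' K) q.2 * f q.1 := by
    rw [Fintype.sum_prod_type]
    unfold Ex
    refine sum_congr rfl fun ξ _ => ?_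
    simp only
    rw [← sum_mul, ← mul_sum, sum_wt hp, mul_one]
  have h2 : Ex K (fun ξ => Ex K' (fun ξ' => f (mix S ξ ξ')))
      = ∑ q : (ι → α) × (ι → α), wt K q.1 * wt K' q.2 * f (mix S q.1 q.2) := by
    rw [Fintype.sum_prod_type]
    unfold Ex
    refine sum_congr rfl fun ξ _ => ?_
    rw [mul_sum]
    exact sum_congr rfl fun _ _ => by ring
  rw [h1, h2, ← e.sum_comp]
  refine sum_congr rfl fun q _ => ?_
  have : wt (mix S K K') (e q).1 * wt (mix S K' K) (e q).2 = wt K q.1 * wt K' q.2 := by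
    unfold wt
    rw [← prod_mul_distrib, ← prod_mul_distrib]
    refine prod_congr rfl fun i _ => ?_
    simp only [e, Equiv.coe_fn_mk, mix]
    split_ifs <;> ring
  rw [this]; rfl

lemma Ex_coord (h : IsProb K) (j : ι) (φ : α → ℝ) :
    Ex K (fun ξ => φ (ξ j)) = ∑ a, K j a * φ a := by
  have := Ex_prod (K := K) (fun i a => if i = j then φ a else 1)
  simp only [prod_ite_eq', mem_univ, if_true] at this
  rw [this, ← Finset.mul_prod_erase univ _ (mem_univ j)]
  simp only [if_true]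
  rw [prod_eq_one, mul_one]
  intro i hi
  simp [ne_of_mem_erase hi, h.sum_one]

/-- replacing the kernel at one coordinate -/
lemma Ex_update (h : IsProb K) (j : ι) (ν : α → ℝ) (hν0 : ∀ a, 0 ≤ ν a) (hν : ∑ a, ν a = 1)
    (f : (ι → α) → ℝ) :
    Ex (Function.update K j ν) f = Ex K (fun ξ => ∑ a, ν a * f (Function.update ξ j a)) := by
  have hp : IsProb (Function.update K j ν) := by
    constructor
    · intro i a; by_cases hi : i = j
      · subst hi; simp [hν0]
      · simp [Function.update_of_ne hi, h.nonneg]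
    · intro i; by_cases hi : i = j
      · subst hi; simp [hν]
      · simp [Function.update_of_ne hi, h.sum_one]
  have e1 : Function.update K j ν = mix (fun i => i ≠ j) K (Function.update K j ν) := by
    funext i; unfold mix; by_cases hi : i = j
    · subst hi; simp
    · simp [hi]
  rw [e1, Ex_mix _ h hp]
  congr 1; funext ξ
  have e2 : (fun ξ' : ι → α => f (mix (fun i => i ≠ j) ξ ξ'))
      = fun ξ' => (fun a => f (Function.update ξ j a)) (ξ' j) := by
    funext ξ'; congr 1; funext i; unfold mix; by_cases hi : i = j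
    · subst hi; simp
    · simp [hi]
  rw [e2, Ex_coord hp j (fun a => f (Function.update ξ j a))]
  simp

lemma Ex_resample (h : IsProb K) (j : ι) (f : (ι → α) → ℝ) :
    Ex K (fun ξ => ∑ a, K j a * f (Function.update ξ j a)) = Ex K f := by
  rw [← Ex_update h j (K j) (h.nonneg j) (h.sum_one j)]; simp

/-- independence of one coordinate -/
lemma Ex_indep (h : IsProb K) (j : ι) (φ : α → ℝ) (F : (ι → α) → ℝ)
    (hF : ∀ ξ a, F (Function.update ξ j a) = F ξ) :
    Ex K (fun ξ => φ (ξ j) * F ξ) = (∑ a, K j a * φ a) * Ex K F := by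
  rw [← Ex_resample h j, ← Ex_mul]
  congr 1; funext ξ
  simp only [Function.update_self, hF]
  rw [sum_mul]; exact sum_congr rfl fun _ _ => by ring

lemma Ex_comm {ι' α' : Type*} [Fintype ι'] [DecidableEq ι'] [Fintype α'] (K2 : ι' → α' → ℝ)
    (f : (ι → α) → (ι' → α') → ℝ) :
    Ex K (fun ξ => Ex K2 (fun η => f ξ η)) = Ex K2 (fun η => Ex K (fun ξ => f ξ η)) := by
  unfold Ex
  simp only [mul_sum]
  rw [sum_comm]
  exact sum_congr rfl fun _ _ => sum_congr rfl fun _ _ => by ring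

lemma exists_le_Ex (h : IsProb K) (f : (ι → α) → ℝ) : ∃ ξ, f ξ ≤ Ex K f := by
  by_contra hc
  push Not at hc
  have h1 : ∃ ξ, 0 < wt K ξ := by
    by_contra h2; push Not at h2
    have : ∑ ξ, wt K ξ ≤ 0 := sum_nonpos fun ξ _ => h2 ξ
    rw [sum_wt h] at this; linarith
  obtain ⟨ξ0, h0⟩ := h1
  have : ∑ ξ, wt K ξ * Ex K f < ∑ ξ, wt K ξ * f ξ :=
    sum_lt_sum (fun ξ _ => mul_le_mul_of_nonneg_left (hc ξ).le (wt_nonneg h.nonneg ξ))
      ⟨ξ0, mem_univ _, mul_lt_mul_of_pos_left (hc ξ0) h0⟩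
  rw [← sum_mul, sum_wt h, one_mul] at this
  exact lt_irrefl _ this

end Vale.Agent.P249
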