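import Vale.Agent.P249.Path
import Vale.Agent.P249.Bd

/-! The hybrid argument. -/

namespace Vale.Agent.P249

open Finset

variable {X : Type*} [Fintype X] [PseudoMetricSpace X]

/-- values along the path -/
def sq {m : ℕ} (g : X → ℝ) (x0 b : X) (ξ : Fin m → Option X) : ℕ → ℝ :=
  fun l => g (pz b (ext x0 ξ) l)

/-- smoothed truncation -/
noncomputable def HH (ρ θ : ℝ) (F : ℕ → Prop) [DecidablePred F] (m : ℕ) (g : X → ℝ) (x0 x : X)
    (σ : ℝ) : ℝ := Ex (KK ρ θ F m x) (fun ξ => jV ρ m (sq g x0 x ξ) σ)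

/-- probability that some test fails -/
noncomputable def PP (ρ θ : ℝ) (F : ℕ → Prop) [DecidablePred F] (m : ℕ) (g : X → ℝ) (x0 x : X)
    (σ : ℝ) : ℝ := Ex (KK ρ θ F m x) (fun ξ => if σ < jM ρ m (sq g x0 x ξ) 0 then 1 else 0)

/-- hybrid kernels -/
noncomputable def hyb (ρ θ : ℝ) (F : ℕ → Prop) [DecidablePred F] (m : ℕ) (x y : X) (i : ℕ) :
    Fin m → Option X → ℝ := mix (fun l : Fin m => i ≤ l) (KK ρ θ F m x) (KK ρ θ F m y)

variable {ρ θ L : ℝ} {F : ℕ → Prop} [DecidablePred F] {m : ℕ}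

lemma hyb_prob (x y : X) (i : ℕ) : IsProb (hyb ρ θ F m x y i) := by
  constructor
  · intro l a; unfold hyb mix; split_ifs <;> exact (KK_prob _).nonneg l a
  · intro l; unfold hyb mix; split_ifs <;> exact (KK_prob _).sum_one l

lemma sum_div_rad (hρ : 0 < ρ) {d : ℝ} {j : ℕ} (hd0 : 0 ≤ d) (hd : d ≤ rad ρ (j + 1)) (n : ℕ) :
    ∑ l ∈ range n, (if j ≤ l then d / rad ρ (l + 1) else 0) ≤ 2 := by
  have key : ∀ n, ∑ l ∈ range n, (if j ≤ l then d / rad ρ (l + 1) else 0)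
      + 2 * (d / rad ρ (max n j + 1)) ≤ 2 := by
    intro n
    induction n with
    | zero =>
      have := (div_le_one (rad_pos hρ (j + 1))).2 hd
      simp only [range_zero, sum_empty, zero_add, Nat.zero_max]; linarith
    | succ n ih =>
      rw [sum_range_succ]
      split_ifs with h
      · rw [max_eq_left h] at ih
        rw [max_eq_left (by omega), rad_succ (n + 1)]
        have := rad_pos hρ (n + 1)
        have e : 2 * (d / (2 * rad ρ (n + 1))) = d / rad ρ (n + 1) := by field_simp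
        linarith
      · rw [max_eq_right (by omega)] at ih ⊢; linarith
  have := key n
  have : 0 ≤ d / rad ρ (max n j + 1) := div_nonneg hd0 (rad_pos hρ _).le
  linarith

lemma hyb_dom (hρ : 0 < ρ) (x y : X) {j i : ℕ} (hd : dist x y ≤ rad ρ (j + 1)) (hji : j ≤ i)
    {f : (Fin m → Option X) → ℝ} (hf : ∀ ξ, 0 ≤ f ξ) :
    Ex (hyb ρ θ F m x y i) f ≤ Real.exp 8 * Ex (KK ρ θ F m y) f := by
  have h1 := Ex_dom (K' := KK ρ θ F m y) (hyb_prob (ρ := ρ) (θ := θ) (F := F) x y i).nonneg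
    (fun l : Fin m => Real.exp (4 * (if j ≤ l then dist x y / rad ρ (l + 1) else 0)))
    (fun l a => by
      unfold hyb mix
      by_cases h : i ≤ l
      · rw [if_pos h, if_pos (hji.trans h)]
        exact ker_ratio hρ (amp_nonneg _) x y l a
      · rw [if_neg h]
        refine le_mul_of_one_le_left ((KK_prob y).nonneg l a) (Real.one_le_exp ?_)
        have := rad_pos hρ (l + 1)
        split_ifs <;> positivity) hf
  refine h1.trans (mul_le_mul_of_nonneg_right ?_ (Ex_nonneg (KK_prob y).nonneg hf))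
  rw [← Real.exp_sum, ← mul_sum, Fin.sum_univ_eq_sum_range
    (fun l => if j ≤ l then dist x y / rad ρ (l + 1) else 0)]
  exact Real.exp_le_exp.2 (by linarith [sum_div_rad hρ dist_nonneg hd m])

/-- total resampling oscillation -/
noncomputable def osc (ρ θ : ℝ) (F : ℕ → Prop) [DecidablePred F] (m : ℕ) (y : X)
    (f : (Fin m → Option X) → ℝ) : ℝ :=
  ∑ i : Fin m, (rad ρ (i + 1))⁻¹ * Ex (KK ρ θ F m y)
    (fun ξ => ∑ a, KK ρ θ F m y i a * |f (Function.update ξ i a) - f ξ|)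

lemma hyb_step (hρ : 0 < ρ) (x y : X) {j : ℕ} (hd : dist x y ≤ rad ρ (j + 1)) (i : Fin m)
    (hji : j ≤ i) (f : (Fin m → Option X) → ℝ) :
    |Ex (hyb ρ θ F m x y i) f - Ex (hyb ρ θ F m x y (i + 1)) f|
      ≤ Real.exp 12 * dist x y * ((rad ρ (i + 1))⁻¹ * Ex (KK ρ θ F m y)
        (fun ξ => ∑ a, KK ρ θ F m y i a * |f (Function.update ξ i a) - f ξ|)) := by
  have hx := KK_prob (ρ := ρ) (θ := θ) (F := F) (m := m) x
  have hy := KK_prob (ρ := ρ) (θ := θ) (F := F) (m := m) y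
  have hp := hyb_prob (ρ := ρ) (θ := θ) (F := F) (m := m) x y (i + 1)
  have e1 : hyb ρ θ F m x y i = Function.update (hyb ρ θ F m x y (i + 1)) i (KK ρ θ F m x i) := by
    funext l
    by_cases h : l = i
    · subst h; simp [hyb, mix]
    · rw [Function.update_of_ne h]
      have : (l : ℕ) ≠ i := fun h' => h (Fin.ext h')
      have e : ((i : ℕ) ≤ (l : ℕ)) ↔ ((i : ℕ) + 1 ≤ (l : ℕ)) := by omega
      unfold hyb mix
      simp only [e]
  have e2 : hyb ρ θ F m x y (i + 1) i = KK ρ θ F m y i := by simp [hyb, mix]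
  have hdi : dist x y ≤ rad ρ (i + 1) := by
    refine hd.trans ?_
    unfold rad
    exact mul_le_mul_of_nonneg_left (pow_le_pow_right₀ (by norm_num) (by omega)) hρ.le
  rw [e1, Ex_update hp i _ (hx.nonneg i) (hx.sum_one i), ← Ex_resample hp i f, ← Ex_sub, e2]
  refine (abs_Ex_le hp.nonneg _).trans ?_
  have h1 := Ex_mono hp.nonneg
    (f := fun ξ => |∑ a, KK ρ θ F m x i a * f (Function.update ξ i a)
      - ∑ a, KK ρ θ F m y i a * f (Function.update ξ i a)|)
    (g := fun ξ => (Real.exp 4 * (dist x y / rad ρ (i + 1))) *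
      ∑ a, KK ρ θ F m y i a * |f (Function.update ξ i a) - f ξ|) fun ξ => by
      have : ∑ a, KK ρ θ F m x i a * f (Function.update ξ i a)
          - ∑ a, KK ρ θ F m y i a * f (Function.update ξ i a)
          = ∑ a, (KK ρ θ F m x i a - KK ρ θ F m y i a) * (f (Function.update ξ i a) - f ξ) := by
        simp only [mul_sub, sub_mul, sum_sub_distrib, ← sum_mul, hx.sum_one, hy.sum_one]; ring
      rw [this, mul_sum]
      refine (abs_sum_le_sum_abs _ _).trans (sum_le_sum fun a _ => ?_)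
      rw [abs_mul, ← mul_assoc]
      exact mul_le_mul_of_nonneg_right (ker_diff hρ (amp_nonneg _) x y i a hdi) (abs_nonneg _)
  refine h1.trans ?_
  rw [Ex_mul]
  have h2 := hyb_dom (θ := θ) (F := F) hρ x y hd (show j ≤ i + 1 by omega)
    (f := fun ξ => ∑ a, KK ρ θ F m y i a * |f (Function.update ξ i a) - f ξ|)
    fun ξ => sum_nonneg fun a _ => mul_nonneg (hy.nonneg i a) (abs_nonneg _)
  have := rad_pos hρ (i + 1)
  refine (mul_le_mul_of_nonneg_left h2 (by positivity)).trans (le_of_eq ?_)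
  rw [show (12 : ℝ) = 4 + 8 by norm_num, Real.exp_add]; ring

lemma hyb_total (hρ : 0 < ρ) (x y : X) {j : ℕ} (hd : dist x y ≤ rad ρ (j + 1)) (hj : j ≤ m)
    (f : (Fin m → Option X) → ℝ) :
    |Ex (hyb ρ θ F m x y j) f - Ex (KK ρ θ F m y) f|
      ≤ Real.exp 12 * dist x y * osc ρ θ F m y f := by
  have hy := KK_prob (ρ := ρ) (θ := θ) (F := F) (m := m) y
  set b : Fin m → ℝ := fun i => (rad ρ (i + 1))⁻¹ * Ex (KK ρ θ F m y)
    (fun ξ => ∑ a, KK ρ θ F m y i a * |f (Function.update ξ i a) - f ξ|) with hb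
  have b0 : ∀ i, 0 ≤ b i := fun i => mul_nonneg (inv_nonneg.2 (rad_pos hρ _).le)
    (Ex_nonneg hy.nonneg fun ξ => sum_nonneg fun a _ => mul_nonneg (hy.nonneg i a) (abs_nonneg _))
  have key : ∀ i, j ≤ i → i ≤ m → |Ex (hyb ρ θ F m x y i) f - Ex (KK ρ θ F m y) f|
      ≤ Real.exp 12 * dist x y * ∑ l : Fin m, if i ≤ l then b l else 0 := by
    intro i hji hi
    induction hi using Nat.decreasingInduction with
    | self =>
      have : hyb ρ θ F m x y m = KK ρ θ F m y := by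
        funext l; simp [hyb, mix]
      rw [this, sub_self, abs_zero]
      refine mul_nonneg (by positivity) (sum_nonneg fun l _ => ?_)
      split_ifs
      · exact b0 l
      · exact le_rfl
    | of_succ i hi ih =>
      have ih := ih (by omega)
      have h1 := hyb_step (θ := θ) (F := F) hρ x y hd ⟨i, hi⟩ hji f
      have h2 : ∑ l : Fin m, (if i ≤ l then b l else 0)
          = b ⟨i, hi⟩ + ∑ l : Fin m, if i + 1 ≤ l then b l else 0 := by
        have : b ⟨i, hi⟩ = ∑ l : Fin m, if l = ⟨i, hi⟩ then b l else 0 := by simp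
        rw [this, ← sum_add_distrib]
        refine sum_congr rfl fun l _ => ?_
        by_cases h : l = ⟨i, hi⟩
        · subst h; simp
        · have : (l : ℕ) ≠ i := fun h' => h (Fin.ext h')
          have e : (i ≤ l) ↔ (i + 1 ≤ l) := by omega
          simp only [e, if_neg h, zero_add]
      rw [h2, mul_add]
      have := abs_sub_le (Ex (hyb ρ θ F m x y i) f) (Ex (hyb ρ θ F m x y (i + 1)) f)
        (Ex (KK ρ θ F m y) f)
      simp only at h1
      linarith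
  refine (key j le_rfl hj).trans (mul_le_mul_of_nonneg_left ?_ (by positivity))
  refine sum_le_sum fun l _ => ?_
  split_ifs
  · exact le_rfl
  · exact b0 l

/-- the part below the scale of the pair -/
noncomputable def low (ρ θ : ℝ) (F : ℕ → Prop) [DecidablePred F] (m : ℕ) (g : X → ℝ)
    (x0 x y : X) (j : ℕ) (σ w : ℝ) : ℝ :=
  Ex (KK ρ θ F m x) fun ξ => Ex (KK ρ θ F m y) fun ξ' =>
    |jV ρ m (sq g x0 x ξ) σ - jV ρ m (sq g x0 y (mix (fun l : Fin m => j ≤ l) ξ ξ')) σ - w|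

lemma HH_diff (hρ : 0 < ρ) (g : X → ℝ) (x0 x y : X) {j : ℕ} (hd : dist x y ≤ rad ρ (j + 1))
    (hj : j ≤ m) (σ w : ℝ) :
    |HH ρ θ F m g x0 x σ - HH ρ θ F m g x0 y σ - w| ≤ low ρ θ F m g x0 x y j σ w
      + Real.exp 12 * dist x y * osc ρ θ F m y (fun ξ => jV ρ m (sq g x0 y ξ) σ) := by
  have hx := KK_prob (ρ := ρ) (θ := θ) (F := F) (m := m) x
  have hy := KK_prob (ρ := ρ) (θ := θ) (F := F) (m := m) y
  have h1 := hyb_total (θ := θ) (F := F) hρ x y hd hj (fun ξ => jV ρ m (sq g x0 y ξ) σ)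
  have h2 : |HH ρ θ F m g x0 x σ - Ex (hyb ρ θ F m x y j) (fun ξ => jV ρ m (sq g x0 y ξ) σ) - w|
      ≤ low ρ θ F m g x0 x y j σ w := by
    unfold hyb HH low
    rw [Ex_mix _ hx hy, ← Ex_sub, ← Ex_const hx w, ← Ex_sub]
    refine (abs_Ex_le hx.nonneg _).trans (Ex_mono hx.nonneg fun ξ => ?_)
    rw [Ex_const hx w]
    refine le_trans (le_of_eq ?_) (abs_Ex_le hy.nonneg _)
    rw [Ex_sub, Ex_sub, Ex_const hy, Ex_const hy]
  have h3 := abs_add_le
    (HH ρ θ F m g x0 x σ - Ex (hyb ρ θ F m x y j) (fun ξ => jV ρ m (sq g x0 y ξ) σ) - w)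
    (Ex (hyb ρ θ F m x y j) (fun ξ => jV ρ m (sq g x0 y ξ) σ) - HH ρ θ F m g x0 y σ)
  have e : HH ρ θ F m g x0 x σ - Ex (hyb ρ θ F m x y j) (fun ξ => jV ρ m (sq g x0 y ξ) σ) - w
      + (Ex (hyb ρ θ F m x y j) (fun ξ => jV ρ m (sq g x0 y ξ) σ) - HH ρ θ F m g x0 y σ)
      = HH ρ θ F m g x0 x σ - HH ρ θ F m g x0 y σ - w := by ring
  rw [e] at h3
  unfold HH at h3 h2 ⊢
  linarith

omit [Fintype X] [PseudoMetricSpace X] in
lemma ext_mix_high (x0 : X) (ξ ξ' : Fin m → Option X) {j l : ℕ} (h : j ≤ l) :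
    ext x0 (mix (fun l : Fin m => j ≤ l) ξ ξ') l = ext x0 ξ l := by
  unfold ext mix; split_ifs <;> rfl

omit [Fintype X] [PseudoMetricSpace X] in
lemma ext_mix_low (x0 : X) (ξ ξ' : Fin m → Option X) {j l : ℕ} (h : l < j) :
    ext x0 (mix (fun l : Fin m => j ≤ l) ξ ξ') l = ext x0 ξ' l := by
  unfold ext mix; split_ifs with h1 h2 <;> first | rfl | (simp only at h2; omega)

lemma telescope {a : ℕ → ℝ} (ha : ∀ i j, i ≤ j → a j ≤ a i) (h0 : ∀ i, 0 ≤ a i) (K n : ℕ) :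
    ∑ i ∈ range n, (a i - a (i + K)) ≤ K * a 0 := by
  induction K with
  | zero => simp
  | succ K ih =>
    have e : ∑ i ∈ range n, (a i - a (i + (K + 1)))
        = ∑ i ∈ range n, (a i - a (i + K)) + ∑ i ∈ range n, (a (i + K) - a (i + 1 + K)) := by
      rw [← sum_add_distrib]
      exact sum_congr rfl fun i _ => by rw [show i + (K + 1) = i + 1 + K by omega]; ring
    rw [e, sum_range_sub' (fun i => a (i + K))]
    have := ha 0 (0 + K) (by omega)
    have := h0 (n + K)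
    push_cast; linarith

lemma run_le_supp {K0 : ℕ} (hF : ∀ j, ∃ l, l < K0 ∧ F (j + l)) (x0 y : X)
    {ξ : Fin m → Option X} (hξ : ∀ i, KK ρ θ F m y i (ξ i) ≠ 0) {j : ℕ} (hj : j ≤ m) :
    run x0 ξ j ≤ K0 := by
  by_contra hc
  push Not at hc
  obtain ⟨l, hl, hFl⟩ := hF j
  have h1 := runF_none (ext x0 ξ) (m - j) j l (hl.trans hc)
  have h2 := run_le x0 ξ hj
  have h3 : j + l < m := by omega
  have h4 := hξ ⟨j + l, h3⟩
  have h5 : ξ ⟨j + l, h3⟩ = none := by rw [← h1]; exact (ext_fin x0 ξ ⟨j + l, h3⟩).symm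
  rw [h5] at h4
  apply h4
  simp [KK, ker, wg, amp, hFl]

lemma Bd_Ex {ι α : Type*} [Fintype ι] [DecidableEq ι] [Fintype α] {K : ι → α → ℝ}
    (hK : ∀ i a, 0 ≤ K i a) {f : (ι → α) → ℝ → ℝ} {c : (ι → α) → ℝ}
    (h : ∀ ξ, Bd (f ξ) (c ξ)) : Bd (fun s => Ex K (fun ξ => f ξ s)) (Ex K c) :=
  Bd.sum univ fun ξ _ => (h ξ).mul (wt_nonneg hK ξ)

lemma Bd_osc (hρ : 0 < ρ) (g : X → ℝ) (x0 y : X) :
    Bd (fun s => osc ρ θ F m y (fun ξ => jV ρ m (sq g x0 y ξ) (Real.exp s)))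
      (32 * Ex (KK ρ θ F m y) (fun ξ => jM ρ m (sq g x0 y ξ) 0) + 16 * ∑ i ∈ range m,
        Ex (KK ρ θ F m y) (fun ξ => run x0 ξ (i + 1) * jT ρ (sq g x0 y ξ) i)) := by
  have hy := KK_prob (ρ := ρ) (θ := θ) (F := F) (m := m) y
  set ψ : ℕ → (Fin m → Option X) → ℝ := fun i ξ =>
    8 * (jM ρ m (sq g x0 y ξ) i - jM ρ m (sq g x0 y ξ) (i + 2))
      + 8 * run x0 ξ (i + 1) * jT ρ (sq g x0 y ξ) i with hψ
  have h1 : ∀ (i : Fin m) (ξ : Fin m → Option X) (a : Option X),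
      Bd (fun s => |jV ρ m (sq g x0 y (Function.update ξ i a)) (Real.exp s)
        - jV ρ m (sq g x0 y ξ) (Real.exp s)|)
        (rad ρ (i + 1) * (ψ i (Function.update ξ i a) + ψ i ξ)) := by
    intro i ξ a
    have hu : ∀ l, (i : ℕ) + 1 ≤ l → ext x0 (Function.update ξ i a) l = ext x0 ξ l :=
      fun l hl => ext_update x0 ξ i a (by omega)
    have := Bd_up (m := m) (ζ := sq g x0 y (Function.update ξ i a)) (ζ' := sq g x0 y ξ)
      (i := i) (k := run x0 ξ (i + 1)) hρ (run_le x0 ξ (by omega))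
      (fun l hl => congrArg g (pz_congr_high x0 y y ξ (by omega) hu (fun _ _ => rfl) l hl))
      (fun l hl => congrArg g (pz_update x0 y ξ i a hl))
      (fun l h1 h2 => congrArg g (pz_block x0 y ξ hu l h1 h2))
      (fun l h1 h2 => congrArg g (pz_block x0 y ξ (fun _ _ => rfl) l h1 h2))
    simp only [hψ]
    rwa [run_update x0 ξ i a (by omega)]
  have h2 := Bd.sum (univ : Finset (Fin m)) fun i _ =>
    (Bd_Ex hy.nonneg fun ξ => Bd.sum univ fun a _ => (h1 i ξ a).mul (hy.nonneg i a)).mul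
      (inv_nonneg.2 (rad_pos hρ (i + 1)).le)
  refine Bd.le h2 ?_
  have h3 : ∀ i : Fin m, (rad ρ (i + 1))⁻¹ * Ex (KK ρ θ F m y) (fun ξ => ∑ a, KK ρ θ F m y i a *
      (rad ρ (i + 1) * (ψ i (Function.update ξ i a) + ψ i ξ))) = 2 * Ex (KK ρ θ F m y) (ψ i) := by
    intro i
    have e : (fun ξ => ∑ a, KK ρ θ F m y i a *
        (rad ρ (i + 1) * (ψ i (Function.update ξ i a) + ψ i ξ)))
        = fun ξ => rad ρ (i + 1) *
          (∑ a, KK ρ θ F m y i a * ψ i (Function.update ξ i a) + ψ i ξ) := by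
      funext ξ
      have : ψ i ξ = ∑ a, KK ρ θ F m y i a * ψ i ξ := by rw [← sum_mul, hy.sum_one, one_mul]
      conv_rhs => rw [this, ← sum_add_distrib, mul_sum]
      exact sum_congr rfl fun _ _ => by ring
    rw [e, Ex_mul, Ex_add, Ex_resample hy]
    have := (rad_pos hρ (i + 1)).ne'
    field_simp; ring
  rw [sum_congr rfl fun i _ => h3 i, ← mul_sum,
    Fin.sum_univ_eq_sum_range (fun i => Ex (KK ρ θ F m y) (ψ i)), ← Ex_sum, ← Ex_sum, ← Ex_mul,
    ← Ex_mul, ← Ex_mul, ← Ex_add]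
  refine Ex_mono hy.nonneg fun ξ => ?_
  simp only [hψ]
  rw [sum_add_distrib, ← mul_sum]
  have := telescope (a := jM ρ m (sq g x0 y ξ)) (fun i j h => jM_anti h) jM_nonneg 2 m
  have e : ∑ i ∈ range m, 8 * (run x0 ξ (i + 1) : ℝ) * jT ρ (sq g x0 y ξ) i
      = 8 * ∑ i ∈ range m, (run x0 ξ (i + 1) : ℝ) * jT ρ (sq g x0 y ξ) i := by
    rw [mul_sum]; exact sum_congr rfl fun _ _ => by ring
  rw [e]; push_cast at this; linarith

lemma osc_le {K0 : ℕ} (hF : ∀ j, ∃ l, l < K0 ∧ F (j + l)) (hρ : 0 < ρ) (g : X → ℝ) (x0 y : X)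
    {σ : ℝ} (hσ : 0 ≤ σ) :
    osc ρ θ F m y (fun ξ => jV ρ m (sq g x0 y ξ) σ)
      ≤ 2 ^ (K0 + 4) * (K0 + 2) * σ * PP ρ θ F m g x0 y σ := by
  have hy := KK_prob (ρ := ρ) (θ := θ) (F := F) (m := m) y
  set u : (Fin m → Option X) → ℕ → ℝ := fun ξ i =>
    if σ < jM ρ m (sq g x0 y ξ) i then 1 else 0 with hu
  have uanti : ∀ ξ i j, i ≤ j → u ξ j ≤ u ξ i := by
    intro ξ i j h
    have := jM_anti (ρ := ρ) (m := m) (ζ := sq g x0 y ξ) h
    simp only [hu]; split_ifs <;> linarith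
  have hw : ∀ ξ i k, k ≤ K0 → win (jM ρ m (sq g x0 y ξ) (i + 1 + k + 1)) (jM ρ m (sq g x0 y ξ) i) σ
      ≤ u ξ i - u ξ (i + (K0 + 2)) := by
    intro ξ i k hk
    have a1 := uanti ξ i (i + (K0 + 2)) (by omega)
    have a2 := jM_anti (ρ := ρ) (m := m) (ζ := sq g x0 y ξ)
      (show i + 1 + k + 1 ≤ i + (K0 + 2) by omega)
    unfold win; split_ifs with h
    · simp only [hu]; rw [if_pos h.2, if_neg (by push Not; linarith [h.1])]; norm_num
    · linarith
  have h1 : ∀ i : Fin m, (rad ρ (i + 1))⁻¹ * Ex (KK ρ θ F m y) (fun ξ => ∑ a, KK ρ θ F m y i a *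
      |jV ρ m (sq g x0 y (Function.update ξ i a)) σ - jV ρ m (sq g x0 y ξ) σ|)
      ≤ 2 ^ (K0 + 4) * σ * Ex (KK ρ θ F m y) (fun ξ => u ξ i - u ξ (i + (K0 + 2))) := by
    intro i
    have hr := rad_pos hρ (i + 1)
    set w : (Fin m → Option X) → ℝ := fun ξ => u ξ i - u ξ (i + (K0 + 2)) with hw'
    have b1 := Ex_mono_supp hy.nonneg
      (f := fun ξ => ∑ a, KK ρ θ F m y i a *
        |jV ρ m (sq g x0 y (Function.update ξ i a)) σ - jV ρ m (sq g x0 y ξ) σ|)
      (g := fun ξ => (2 ^ (K0 + 3) * σ * rad ρ (i + 1)) *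
        (∑ a, KK ρ θ F m y i a * w (Function.update ξ i a) + w ξ)) fun ξ hξ => by
        have hk := run_le_supp hF x0 y hξ (show (i : ℕ) + 1 ≤ m by omega)
        have : w ξ = ∑ a, KK ρ θ F m y i a * w ξ := by rw [← sum_mul, hy.sum_one, one_mul]
        rw [this, ← sum_add_distrib, mul_sum]
        refine sum_le_sum fun a _ => ?_
        have hu' : ∀ l, (i : ℕ) + 1 ≤ l → ext x0 (Function.update ξ i a) l = ext x0 ξ l :=
          fun l hl => ext_update x0 ξ i a (by omega)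
        have c1 := jV_diff_win (m := m) (ζ := sq g x0 y (Function.update ξ i a))
          (ζ' := sq g x0 y ξ) (i := i) (b := i + 1 + run x0 ξ (i + 1) + 1) hρ hσ (by omega)
          (by have := run_le x0 ξ (show (i : ℕ) + 1 ≤ m by omega); omega)
          (fun l hl => congrArg g (pz_congr_high x0 y y ξ (by omega) hu' (fun _ _ => rfl) l hl))
          (fun l hl => congrArg g (pz_update x0 y ξ i a hl))
        have c2 := hw (Function.update ξ i a) i _ hk
        have c3 := hw ξ i _ hk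
        have c4 : 4 * σ * rad ρ (i + 1 + run x0 ξ (i + 1) + 1)
            ≤ 2 ^ (K0 + 3) * σ * rad ρ (i + 1) := by
          rw [add_assoc (i + 1 : ℕ), rad_add (i + 1)]
          have : (2 : ℝ) ^ (run x0 ξ (i + 1) + 1) ≤ 2 ^ (K0 + 1) :=
            pow_le_pow_right₀ (by norm_num) (by omega)
          have e : (2 : ℝ) ^ (K0 + 3) = 4 * 2 ^ (K0 + 1) := by ring
          rw [e]
          nlinarith [mul_le_mul_of_nonneg_right this (mul_nonneg hσ hr.le)]
        have c5 := mul_le_mul c4 (add_le_add c2 c3)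
          (add_nonneg (win_nonneg _ _ _) (win_nonneg _ _ _)) (by positivity)
        have c6 := mul_le_mul_of_nonneg_left (c1.trans c5) (hy.nonneg i a)
        refine c6.trans (le_of_eq ?_)
        simp only [hw']; ring
    rw [Ex_mul, Ex_add, Ex_resample hy] at b1
    rw [inv_mul_le_iff₀ hr]
    refine b1.trans (le_of_eq ?_); ring
  refine (sum_le_sum fun i _ => h1 i).trans ?_
  rw [← mul_sum, Fin.sum_univ_eq_sum_range
    (fun i => Ex (KK ρ θ F m y) (fun ξ => u ξ i - u ξ (i + (K0 + 2)))), ← Ex_sum]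
  have h2 := Ex_mono hy.nonneg (f := fun ξ => ∑ i ∈ range m, (u ξ i - u ξ (i + (K0 + 2))))
    (g := fun ξ => ((K0 + 2 : ℕ) : ℝ) * u ξ 0) fun ξ =>
      telescope (uanti ξ) (fun i => by simp only [hu]; split_ifs <;> norm_num) (K0 + 2) m
  rw [Ex_mul] at h2
  refine (mul_le_mul_of_nonneg_left h2 (by positivity)).trans (le_of_eq ?_)
  unfold PP; push_cast; ring

end Vale.Agent.P249
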