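import Mathlib

/-! The stopped chain attached to a real sequence. -/

namespace Vale.Agent.P249

open Finset

/-- radii -/
noncomputable def rad (ρ : ℝ) (i : ℕ) : ℝ := ρ * 2 ^ i

/-- normalised jump -/
noncomputable def jT (ρ : ℝ) (ζ : ℕ → ℝ) (i : ℕ) : ℝ := |ζ (i + 1) - ζ i| / rad ρ (i + 1)

/-- running maximum from the top -/
noncomputable def jM (ρ : ℝ) (m : ℕ) (ζ : ℕ → ℝ) (i : ℕ) : ℝ :=
  (Icc i m).fold max 0 (jT ρ ζ)

/-- value of the stopped chain -/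
noncomputable def jV (ρ : ℝ) (m : ℕ) (ζ : ℕ → ℝ) (σ : ℝ) : ℝ :=
  ζ (m + 1) + ∑ i ∈ range (m + 1), if jM ρ m ζ i ≤ σ then ζ i - ζ (i + 1) else 0

variable {ρ : ℝ} {m : ℕ} {ζ ζ' : ℕ → ℝ} {σ : ℝ}

lemma rad_pos (hρ : 0 < ρ) (i : ℕ) : 0 < rad ρ i := by unfold rad; positivity

lemma rad_succ (i : ℕ) : rad ρ (i + 1) = 2 * rad ρ i := by unfold rad; ring

lemma rad_add (i k : ℕ) : rad ρ (i + k) = 2 ^ k * rad ρ i := by unfold rad; ring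

lemma sum_rad (hρ : 0 < ρ) (i : ℕ) : ∑ l ∈ range i, rad ρ (l + 1) ≤ 2 * rad ρ i := by
  induction i with
  | zero => simp; exact (rad_pos hρ 0).le
  | succ i ih => rw [sum_range_succ, rad_succ (ρ := ρ) i] ; linarith

lemma jT_nonneg (hρ : 0 < ρ) (i : ℕ) : 0 ≤ jT ρ ζ i :=
  div_nonneg (abs_nonneg _) (rad_pos hρ _).le

lemma jM_le_iff (i : ℕ) :
    jM ρ m ζ i ≤ σ ↔ 0 ≤ σ ∧ ∀ l, i ≤ l → l ≤ m → jT ρ ζ l ≤ σ := by
  unfold jM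
  rw [fold_max_le]
  simp [mem_Icc]

lemma jM_nonneg (i : ℕ) : 0 ≤ jM ρ m ζ i := ((jM_le_iff i).1 le_rfl).1

lemma jT_le_jM {i l : ℕ} (h1 : i ≤ l) (h2 : l ≤ m) : jT ρ ζ l ≤ jM ρ m ζ i :=
  ((jM_le_iff i).1 le_rfl).2 l h1 h2

lemma jM_anti {i j : ℕ} (h : i ≤ j) : jM ρ m ζ j ≤ jM ρ m ζ i :=
  (jM_le_iff j).2 ⟨jM_nonneg i, fun _ h1 h2 => jT_le_jM (h.trans h1) h2⟩

lemma jM_congr {b i : ℕ} (h : ∀ l, b ≤ l → ζ l = ζ' l) (hi : b ≤ i) :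
    jM ρ m ζ i = jM ρ m ζ' i := by
  unfold jM
  refine fold_congr fun l hl => ?_
  have := (mem_Icc.1 hl).1
  unfold jT
  rw [h l (by omega), h (l + 1) (by omega)]

lemma jM_rpow_le (hρ : 0 < ρ) {p : ℝ} (hp : 0 < p) :
    jM ρ m ζ 0 ^ p ≤ ∑ l ∈ range (m + 1), jT ρ ζ l ^ p := by
  have h0 : 0 ≤ ∑ l ∈ range (m + 1), jT ρ ζ l ^ p :=
    sum_nonneg fun l _ => Real.rpow_nonneg (jT_nonneg hρ l) p
  have : jM ρ m ζ 0 ≤ (∑ l ∈ range (m + 1), jT ρ ζ l ^ p) ^ p⁻¹ := by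
    refine (jM_le_iff 0).2 ⟨Real.rpow_nonneg h0 _, fun l _ hl => ?_⟩
    rw [Real.le_rpow_inv_iff_of_pos (jT_nonneg hρ l) h0 hp]
    exact single_le_sum (f := fun l => jT ρ ζ l ^ p)
      (fun l _ => Real.rpow_nonneg (jT_nonneg hρ l) p) (mem_range.2 (by omega))
  rwa [Real.le_rpow_inv_iff_of_pos (jM_nonneg 0) h0 hp] at this

lemma jV_alive {i : ℕ} (hi : i ≤ m + 1) (h : jM ρ m ζ i ≤ σ) :
    jV ρ m ζ σ = ζ i + ∑ l ∈ range i, if jM ρ m ζ l ≤ σ then ζ l - ζ (l + 1) else 0 := by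
  unfold jV
  rw [← sum_range_add_sum_Ico _ hi]
  have : ∑ l ∈ Ico i (m + 1), (if jM ρ m ζ l ≤ σ then ζ l - ζ (l + 1) else 0)
      = ζ i - ζ (m + 1) := by
    rw [sum_congr rfl (g := fun l => ζ l - ζ (l + 1))]
    · rw [sum_Ico_eq_sub _ hi, sum_range_sub', sum_range_sub']; ring
    · intro l hl
      rw [if_pos ((jM_anti (mem_Ico.1 hl).1).trans h)]
  rw [this]; ring

lemma jV_full (h : jM ρ m ζ 0 ≤ σ) : jV ρ m ζ σ = ζ 0 := by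
  rw [jV_alive (Nat.zero_le _) h]; simp

lemma jV_near (hρ : 0 < ρ) {i : ℕ} (hi : i ≤ m + 1) (h : jM ρ m ζ i ≤ σ) :
    |jV ρ m ζ σ - ζ i| ≤ 2 * σ * rad ρ i := by
  have hσ : 0 ≤ σ := (jM_nonneg i).trans h
  rw [jV_alive hi h, add_sub_cancel_left]
  refine (abs_sum_le_sum_abs _ _).trans ?_
  have : ∀ l ∈ range i, |if jM ρ m ζ l ≤ σ then ζ l - ζ (l + 1) else 0| ≤ σ * rad ρ (l + 1) := by
    intro l hl
    have hl' := mem_range.1 hl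
    split_ifs with h1
    · have := (jT_le_jM le_rfl (by omega)).trans h1
      unfold jT at this
      rw [div_le_iff₀ (rad_pos hρ _)] at this
      rwa [abs_sub_comm]
    · simp; exact mul_nonneg hσ (rad_pos hρ _).le
  refine (sum_le_sum this).trans ?_
  rw [← mul_sum]
  nlinarith [sum_rad hρ i]

lemma jV_stop {i : ℕ} (hi : i ≤ m) (h : jM ρ m ζ (i + 1) ≤ σ) (h' : σ < jT ρ ζ i) :
    jV ρ m ζ σ = ζ (i + 1) := by
  rw [jV_alive (by omega) h, sum_eq_zero, add_zero]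
  intro l hl
  have := mem_range.1 hl
  rw [if_neg]
  have := jT_le_jM (ρ := ρ) (ζ := ζ) (i := l) (l := i) (m := m) (by omega) hi
  push Not; linarith

lemma jV_dead {b : ℕ} (hb : b ≤ m + 1) (h : ∀ l, b ≤ l → ζ l = ζ' l) (h' : σ < jM ρ m ζ b) :
    jV ρ m ζ σ = jV ρ m ζ' σ := by
  unfold jV
  rw [h (m + 1) hb]
  congr 1
  refine sum_congr rfl fun l _ => ?_
  by_cases hl : b ≤ l
  · rw [jM_congr h hl, h l hl, h (l + 1) (by omega)]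
  · have h1 : jM ρ m ζ b ≤ jM ρ m ζ l := jM_anti (by omega)
    have h2 : jM ρ m ζ' b ≤ jM ρ m ζ' l := jM_anti (by omega)
    rw [← jM_congr h le_rfl] at h2
    rw [if_neg (by push Not; linarith), if_neg (by push Not; linarith)]

lemma jV_merge {j : ℕ} (hj : j ≤ m + 1) (h : ∀ l, l ≤ j → ζ l = ζ' l)
    (h1 : jM ρ m ζ j ≤ σ) (h2 : jM ρ m ζ' j ≤ σ) : jV ρ m ζ σ = jV ρ m ζ' σ := by
  rw [jV_alive hj h1, jV_alive hj h2, h j le_rfl]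
  congr 1
  refine sum_congr rfl fun l hl => ?_
  have hl' := mem_range.1 hl
  rw [h l (by omega), h (l + 1) (by omega)]
  have key : ∀ {a b : ℕ → ℝ}, (∀ l, l ≤ j → a l = b l) → jM ρ m b j ≤ σ →
      jM ρ m a l ≤ σ → jM ρ m b l ≤ σ := by
    intro a b hab hb ha
    refine (jM_le_iff l).2 ⟨((jM_le_iff l).1 ha).1, fun l' h3 h4 => ?_⟩
    by_cases h5 : j ≤ l'
    · exact (jT_le_jM h5 h4).trans hb
    · have := ((jM_le_iff l).1 ha).2 l' h3 h4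
      unfold jT at this ⊢
      rwa [← hab l' (by omega), ← hab (l' + 1) (by omega)]
  have : jM ρ m ζ l ≤ σ ↔ jM ρ m ζ' l ≤ σ :=
    ⟨key h h2, key (fun l hl => (h l hl).symm) h1⟩
  simp only [this]

lemma jM_block {j c : ℕ} (hc : ∀ l, j ≤ l → l ≤ c → ζ l = ζ j)
    (h1 : jM ρ m ζ (c + 1) ≤ σ) (h2 : jT ρ ζ c ≤ σ) : jM ρ m ζ j ≤ σ := by
  have hσ : 0 ≤ σ := (jM_nonneg _).trans h1
  refine (jM_le_iff j).2 ⟨hσ, fun l h3 h4 => ?_⟩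
  rcases lt_trichotomy l c with h5 | h5 | h5
  · unfold jT; rw [hc l h3 h5.le, hc (l + 1) (by omega) h5]; simpa using hσ
  · rw [h5]; exact h2
  · exact (jT_le_jM h5 h4).trans h1

/-- trichotomy at the first test of a block -/
lemma stage_one (hρ : 0 < ρ) {j c : ℕ} (hjc : j ≤ c) (hcm : c ≤ m)
    (h : ∀ l, c + 1 ≤ l → ζ l = ζ' l)
    (hc : ∀ l, j ≤ l → l ≤ c → ζ l = ζ j) (hc' : ∀ l, j ≤ l → l ≤ c → ζ' l = ζ' j) :
    jV ρ m ζ σ = jV ρ m ζ' σ ∨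
    (min (jT ρ ζ c) (jT ρ ζ' c) ≤ σ ∧ σ < max (jT ρ ζ c) (jT ρ ζ' c) ∧
      |jV ρ m ζ σ - jV ρ m ζ' σ| ≤ 2 * σ * rad ρ (c + 1)) ∨
    (jM ρ m ζ j ≤ σ ∧ jM ρ m ζ' j ≤ σ ∧ |ζ j - ζ' j| ≤ 2 * σ * rad ρ (c + 1)) := by
  by_cases h0 : σ < jM ρ m ζ (c + 1)
  · exact Or.inl (jV_dead (by omega) h h0)
  push Not at h0
  have h0' : jM ρ m ζ' (c + 1) ≤ σ := by rwa [← jM_congr h le_rfl]
  by_cases h1 : σ < jT ρ ζ c <;> by_cases h2 : σ < jT ρ ζ' c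
  · left; rw [jV_stop hcm h0 h1, jV_stop hcm h0' h2, h _ le_rfl]
  · right; left
    push Not at h2
    refine ⟨(min_le_right _ _).trans h2, lt_max_of_lt_left h1, ?_⟩
    rw [jV_stop hcm h0 h1, h _ le_rfl, abs_sub_comm]
    exact jV_near hρ (by omega) h0'
  · right; left
    push Not at h1
    refine ⟨(min_le_left _ _).trans h1, lt_max_of_lt_right h2, ?_⟩
    rw [jV_stop hcm h0' h2, ← h _ le_rfl]
    exact jV_near hρ (by omega) h0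
  · right; right
    push Not at h1 h2
    refine ⟨jM_block hc h0 h1, jM_block hc' h0' h2, ?_⟩
    unfold jT at h1 h2
    rw [div_le_iff₀ (rad_pos hρ _)] at h1 h2
    rw [hc c hjc le_rfl] at h1
    rw [hc' c hjc le_rfl, ← h _ le_rfl] at h2
    have := abs_sub_le (ζ j) (ζ (c + 1)) (ζ' j)
    rw [abs_sub_comm (ζ j) (ζ (c + 1))] at this
    linarith

lemma jT_diff_top (hρ : 0 < ρ) {c : ℕ} (h : ζ (c + 1) = ζ' (c + 1)) :
    rad ρ (c + 1) * (max (jT ρ ζ c) (jT ρ ζ' c) - min (jT ρ ζ c) (jT ρ ζ' c)) ≤ |ζ c - ζ' c| := by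
  rw [max_sub_min_eq_abs', ← abs_of_pos (rad_pos hρ (c + 1)), ← abs_mul]
  unfold jT
  have := (rad_pos hρ (c + 1)).ne'
  rw [mul_sub, mul_div_cancel₀ _ this, mul_div_cancel₀ _ this, ← h]
  refine (abs_abs_sub_abs_le_abs_sub _ _).trans (le_of_eq ?_)
  rw [abs_sub_comm]; congr 1; ring

lemma jT_diff_bot (hρ : 0 < ρ) {c : ℕ} (h : ζ c = ζ' c) :
    rad ρ (c + 1) * (max (jT ρ ζ c) (jT ρ ζ' c) - min (jT ρ ζ c) (jT ρ ζ' c))
      ≤ |ζ (c + 1) - ζ' (c + 1)| := by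
  rw [max_sub_min_eq_abs', ← abs_of_pos (rad_pos hρ (c + 1)), ← abs_mul]
  unfold jT
  have := (rad_pos hρ (c + 1)).ne'
  rw [mul_sub, mul_div_cancel₀ _ this, mul_div_cancel₀ _ this, ← h]
  refine (abs_abs_sub_abs_le_abs_sub _ _).trans (le_of_eq ?_)
  congr 1; ring

/-- crude bound for two chains agreeing above a level -/
lemma jV_diff_crude (hρ : 0 < ρ) (hσ : 0 ≤ σ) {b : ℕ} (hb : b ≤ m + 1)
    (h : ∀ l, b ≤ l → ζ l = ζ' l) :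
    |jV ρ m ζ σ - jV ρ m ζ' σ| ≤ 4 * σ * rad ρ b := by
  by_cases h0 : σ < jM ρ m ζ b
  · rw [jV_dead hb h h0]; simp; have := rad_pos hρ b; positivity
  push Not at h0
  have h0' : jM ρ m ζ' b ≤ σ := by rwa [← jM_congr h le_rfl]
  have h1 := jV_near hρ hb h0
  have h2 := jV_near hρ hb h0'
  rw [← h b le_rfl, abs_sub_comm] at h2
  have := abs_sub_le (jV ρ m ζ σ) (ζ b) (jV ρ m ζ' σ)
  linarith

/-- indicator of a window -/
noncomputable def win (A B σ : ℝ) : ℝ := if A ≤ σ ∧ σ < B then 1 else 0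

lemma win_nonneg (A B σ : ℝ) : 0 ≤ win A B σ := by unfold win; split_ifs <;> norm_num

lemma jV_diff_win (hρ : 0 < ρ) (hσ : 0 ≤ σ) {i b : ℕ} (hib : i ≤ b) (hb : b ≤ m + 1)
    (h : ∀ l, b ≤ l → ζ l = ζ' l) (h' : ∀ l, l ≤ i → ζ l = ζ' l) :
    |jV ρ m ζ σ - jV ρ m ζ' σ| ≤ 4 * σ * rad ρ b *
      (win (jM ρ m ζ b) (jM ρ m ζ i) σ + win (jM ρ m ζ' b) (jM ρ m ζ' i) σ) := by
  have hr := rad_pos hρ b
  have w1 := win_nonneg (jM ρ m ζ b) (jM ρ m ζ i) σ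
  have w2 := win_nonneg (jM ρ m ζ' b) (jM ρ m ζ' i) σ
  by_cases h0 : σ < jM ρ m ζ b
  · rw [jV_dead hb h h0]; simp; positivity
  push Not at h0
  have h0' : jM ρ m ζ' b ≤ σ := by rwa [← jM_congr h le_rfl]
  have hc := jV_diff_crude (m := m) hρ hσ hb h
  have hp : 0 ≤ 4 * σ * rad ρ b := by positivity
  by_cases h1 : σ < jM ρ m ζ i
  · have : win (jM ρ m ζ b) (jM ρ m ζ i) σ = 1 := if_pos ⟨h0, h1⟩
    rw [this]; nlinarith
  by_cases h2 : σ < jM ρ m ζ' i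
  · have : win (jM ρ m ζ' b) (jM ρ m ζ' i) σ = 1 := if_pos ⟨h0', h2⟩
    rw [this]; nlinarith
  push Not at h1 h2
  rw [jV_merge (by omega) h' h1 h2]; simp; positivity

end Vale.Agent.P249
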