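import Vale.Agent.P249.Nrm
import Vale.Agent.P249.Seq

/-! Exponential kernels with a skip outcome. -/

namespace Vale.Agent.P249

open Finset

variable {X : Type*} [Fintype X] [PseudoMetricSpace X] {ρ a : ℝ}

/-- partition function -/
noncomputable def pZ (x : X) (r : ℝ) : ℝ := ∑ z, Real.exp (-dist x z / r)

/-- growth at a level -/
noncomputable def gr (ρ : ℝ) (x : X) (i : ℕ) : ℝ :=
  Real.log (pZ x (rad ρ (i + 1))) - Real.log (pZ x (rad ρ i))

/-- unnormalised weight -/
noncomputable def wg (ρ a : ℝ) (x : X) (i : ℕ) : Option X → ℝ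
  | some z => Real.exp (-dist x z / rad ρ i)
  | none => a * pZ x (rad ρ (i + 1))

/-- the kernel -/
noncomputable def ker (ρ a : ℝ) (x : X) (i : ℕ) (o : Option X) : ℝ :=
  wg ρ a x i o / (pZ x (rad ρ i) + a * pZ x (rad ρ (i + 1)))

/-- normalised displacement of an outcome -/
noncomputable def tt (ρ : ℝ) (x : X) (i : ℕ) : Option X → ℝ
  | some z => dist x z / rad ρ (i + 1)
  | none => 0

lemma one_le_pZ (x : X) (r : ℝ) : 1 ≤ pZ x r := by
  have := single_le_sum (f := fun z => Real.exp (-dist x z / r)) (s := univ)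
    (fun z _ => (Real.exp_pos _).le) (mem_univ x)
  unfold pZ
  simpa using this

lemma pZ_pos (x : X) (r : ℝ) : 0 < pZ x r := lt_of_lt_of_le one_pos (one_le_pZ x r)

lemma pZ_le_card (x : X) {r : ℝ} (hr : 0 < r) : pZ x r ≤ Fintype.card X := by
  unfold pZ
  have : ∀ z ∈ (univ : Finset X), Real.exp (-dist x z / r) ≤ 1 := fun z _ =>
    Real.exp_le_one_iff.2 (div_nonpos_of_nonpos_of_nonneg (by simp) hr.le)
  simpa using sum_le_card_nsmul _ _ _ this

lemma pZ_mono (hρ : 0 < ρ) (x : X) (i : ℕ) : pZ x (rad ρ i) ≤ pZ x (rad ρ (i + 1)) := by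
  refine sum_le_sum fun z _ => Real.exp_le_exp.2 ?_
  have := rad_pos hρ i
  rw [rad_succ, neg_div, neg_div, neg_le_neg_iff]
  exact div_le_div_of_nonneg_left dist_nonneg this (by linarith)

lemma gr_nonneg (hρ : 0 < ρ) (x : X) (i : ℕ) : 0 ≤ gr ρ x i :=
  sub_nonneg.2 (Real.log_le_log (pZ_pos _ _) (pZ_mono hρ x i))

lemma exp_gr (x : X) (i : ℕ) :
    Real.exp (gr ρ x i) = pZ x (rad ρ (i + 1)) / pZ x (rad ρ i) := by
  unfold gr; rw [Real.exp_sub, Real.exp_log (pZ_pos _ _), Real.exp_log (pZ_pos _ _)]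

lemma sum_gr_le (hρ : 0 < ρ) (x : X) (m : ℕ) {L : ℝ} (hL : Real.log (Fintype.card X) ≤ L) :
    ∑ i ∈ range m, gr ρ x i ≤ L := by
  unfold gr
  rw [sum_range_sub (fun i => Real.log (pZ x (rad ρ i)))]
  have h1 := Real.log_le_log (pZ_pos x _) (pZ_le_card x (rad_pos hρ m))
  have h2 := Real.log_nonneg (one_le_pZ x (rad ρ 0))
  linarith

lemma den_pos (ha : 0 ≤ a) (x : X) (i : ℕ) :
    0 < pZ x (rad ρ i) + a * pZ x (rad ρ (i + 1)) := by
  have := pZ_pos x (rad ρ i); have := pZ_pos x (rad ρ (i + 1)); positivity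

lemma wg_nonneg (ha : 0 ≤ a) (x : X) (i : ℕ) (o : Option X) : 0 ≤ wg ρ a x i o := by
  cases o with
  | none => exact mul_nonneg ha (pZ_pos _ _).le
  | some z => exact (Real.exp_pos _).le

lemma ker_nonneg (ha : 0 ≤ a) (x : X) (i : ℕ) (o : Option X) : 0 ≤ ker ρ a x i o :=
  div_nonneg (wg_nonneg ha x i o) (den_pos ha x i).le

lemma ker_sum (ha : 0 ≤ a) (x : X) (i : ℕ) : ∑ o, ker ρ a x i o = 1 := by
  unfold ker
  rw [← sum_div, Fintype.sum_option, div_eq_one_iff_eq (den_pos ha x i).ne']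
  simp only [wg]; rw [add_comm]; rfl

omit [Fintype X] in
lemma tt_nonneg (hρ : 0 < ρ) (x : X) (i : ℕ) (o : Option X) : 0 ≤ tt ρ x i o := by
  cases o with
  | none => exact le_rfl
  | some z => exact div_nonneg dist_nonneg (rad_pos hρ _).le

omit [Fintype X] in
lemma exp_shift (x y z : X) {r r' : ℝ} (hr : 0 < r) (hr' : r ≤ r') :
    Real.exp (-dist x z / r') ≤ Real.exp (dist x y / r) * Real.exp (-dist y z / r') := by
  rw [← Real.exp_add, Real.exp_le_exp]
  have h1 : dist x y / r' ≤ dist x y / r := div_le_div_of_nonneg_left dist_nonneg hr hr'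
  have h2 : -dist x z / r' ≤ dist x y / r' + -dist y z / r' := by
    rw [← add_div]
    refine div_le_div_of_nonneg_right ?_ (by linarith)
    have := dist_triangle_left y z x
    linarith
  linarith

lemma pZ_shift (x y : X) {r r' : ℝ} (hr : 0 < r) (hr' : r ≤ r') :
    pZ x r' ≤ Real.exp (dist x y / r) * pZ y r' := by
  unfold pZ; rw [mul_sum]; exact sum_le_sum fun z _ => exp_shift x y z hr hr'

lemma ker_ratio (hρ : 0 < ρ) (ha : 0 ≤ a) (x y : X) (i : ℕ) (o : Option X) :
    ker ρ a x i o ≤ Real.exp (4 * (dist x y / rad ρ (i + 1))) * ker ρ a y i o := by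
  have hr := rad_pos hρ i
  have hr' : rad ρ i ≤ rad ρ (i + 1) := by rw [rad_succ]; linarith
  set E := Real.exp (dist x y / rad ρ i) with hE
  have hE0 : 0 < E := Real.exp_pos _
  have e : Real.exp (4 * (dist x y / rad ρ (i + 1))) = E * E := by
    rw [hE, ← Real.exp_add, rad_succ]; congr 1; field_simp; ring
  have h1 : wg ρ a x i o ≤ E * wg ρ a y i o := by
    cases o with
    | none =>
      simp only [wg]
      have := mul_le_mul_of_nonneg_left (pZ_shift x y hr hr') ha
      linarith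
    | some z => exact exp_shift x y z hr le_rfl
  have h2 : pZ y (rad ρ i) + a * pZ y (rad ρ (i + 1))
      ≤ E * (pZ x (rad ρ i) + a * pZ x (rad ρ (i + 1))) := by
    have a1 := pZ_shift y x hr le_rfl
    have a2 := mul_le_mul_of_nonneg_left (pZ_shift y x hr hr') ha
    rw [dist_comm y x] at a1 a2
    linarith
  unfold ker
  rw [e, ← mul_div_assoc, div_le_div_iff₀ (den_pos ha x i) (den_pos ha y i)]
  have := wg_nonneg (ρ := ρ) ha y i o
  have := den_pos (ρ := ρ) ha y i
  calc _ ≤ (E * wg ρ a y i o) * (E * (pZ x (rad ρ i) + a * pZ x (rad ρ (i + 1)))) :=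
        mul_le_mul h1 h2 (by positivity) (by positivity)
    _ = _ := by ring

lemma ker_diff (hρ : 0 < ρ) (ha : 0 ≤ a) (x y : X) (i : ℕ) (o : Option X)
    (hd : dist x y ≤ rad ρ (i + 1)) :
    |ker ρ a x i o - ker ρ a y i o|
      ≤ Real.exp 4 * (dist x y / rad ρ (i + 1)) * ker ρ a y i o := by
  have hr := rad_pos hρ (i + 1)
  set u := dist x y / rad ρ (i + 1) with hu
  have u0 : 0 ≤ u := div_nonneg dist_nonneg hr.le
  have u1 : u ≤ 1 := (div_le_one hr).2 hd
  have h1 := ker_ratio hρ ha x y i o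
  have h2 := ker_ratio hρ ha y x i o
  rw [dist_comm y x, ← hu] at h2
  rw [← hu] at h1
  have k1 := ker_nonneg (ρ := ρ) ha x i o
  have k2 := ker_nonneg (ρ := ρ) ha y i o
  have c1 : Real.exp (4 * u) ≤ 1 + Real.exp 4 * u := by
    have := convexOn_exp.2 (Set.mem_univ 0) (Set.mem_univ 4) (by linarith : 0 ≤ 1 - u) u0
      (by ring)
    simp only [smul_eq_mul, mul_zero, zero_add, Real.exp_zero, mul_one] at this
    rw [mul_comm 4 u]; linarith
  have c2 : 1 - Real.exp 4 * u ≤ Real.exp (-(4 * u)) := by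
    have := Real.add_one_le_exp (-(4 * u))
    have := Real.add_one_le_exp 4
    nlinarith
  rw [abs_le]; constructor
  · have : Real.exp (-(4 * u)) * ker ρ a y i o ≤ ker ρ a x i o := by
      rw [Real.exp_neg, inv_mul_le_iff₀ (Real.exp_pos _)]; exact h2
    nlinarith
  · nlinarith

lemma ker_none_le (ha : 0 ≤ a) (x : X) (i : ℕ) :
    ker ρ a x i none ≤ a * Real.exp (gr ρ x i) := by
  unfold ker
  rw [exp_gr, ← mul_div_assoc]
  have := pZ_pos x (rad ρ (i + 1))
  exact div_le_div_of_nonneg_left (wg_nonneg ha x i none) (pZ_pos _ _)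
    (le_add_of_nonneg_right (by positivity))

lemma sum_wg_exp (hρ : 0 < ρ) (x : X) (i : ℕ) :
    ∑ z, wg ρ a x i (some z) * Real.exp (tt ρ x i (some z)) = pZ x (rad ρ (i + 1)) := by
  refine sum_congr rfl fun z _ => ?_
  simp only [wg, tt]
  have := rad_pos hρ i
  rw [← Real.exp_add, rad_succ]; congr 1; field_simp; ring

lemma sum_ker_expm (hρ : 0 < ρ) (x : X) (i : ℕ) :
    ∑ o, ker ρ a x i o * (Real.exp (tt ρ x i o) - 1)
      = (pZ x (rad ρ (i + 1)) - pZ x (rad ρ i)) / (pZ x (rad ρ i) + a * pZ x (rad ρ (i + 1))) := by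
  have h1 := sum_wg_exp (a := a) hρ x i
  have h2 : pZ x (rad ρ i) = ∑ z, wg ρ a x i (some z) := rfl
  have h3 : pZ x (rad ρ (i + 1)) - pZ x (rad ρ i)
      = ∑ z, wg ρ a x i (some z) * (Real.exp (tt ρ x i (some z)) - 1) := by
    rw [← h1, h2, ← sum_sub_distrib]; exact sum_congr rfl fun _ _ => by ring
  rw [h3, Fintype.sum_option, sum_div]
  have h4 : tt ρ x i none = 0 := rfl
  rw [h4, Real.exp_zero, sub_self, mul_zero, zero_add]
  refine sum_congr rfl fun z _ => ?_
  unfold ker; ring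

lemma first_moment (hρ : 0 < ρ) (ha : 0 ≤ a) (x : X) (i : ℕ) :
    ∑ o, ker ρ a x i o * tt ρ x i o ≤ gr ρ x i := by
  have hg := gr_nonneg hρ x i
  have hZ := pZ_pos x (rad ρ i)
  have hZ' := pZ_pos x (rad ρ (i + 1))
  have h1 : ∑ z, wg ρ a x i (some z) * tt ρ x i (some z) ≤ gr ρ x i * pZ x (rad ρ i) := by
    have : ∀ z ∈ (univ : Finset X), wg ρ a x i (some z) * tt ρ x i (some z)
        ≤ (gr ρ x i - 1) * wg ρ a x i (some z) + Real.exp (-gr ρ x i) *
          (wg ρ a x i (some z) * Real.exp (tt ρ x i (some z))) := by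
      intro z _
      have h2 := Real.add_one_le_exp (-gr ρ x i + tt ρ x i (some z))
      rw [Real.exp_add] at h2
      nlinarith [mul_le_mul_of_nonneg_left h2 (wg_nonneg (ρ := ρ) ha x i (some z))]
    refine (sum_le_sum this).trans (le_of_eq ?_)
    rw [sum_add_distrib, ← mul_sum, ← mul_sum, sum_wg_exp hρ, Real.exp_neg, exp_gr]
    have : ∑ z, wg ρ a x i (some z) = pZ x (rad ρ i) := rfl
    rw [this]; field_simp; ring
  rw [Fintype.sum_option]
  simp only [tt, mul_zero, zero_add]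
  have h2 : ∑ z, ker ρ a x i (some z) * (dist x z / rad ρ (i + 1))
      = (∑ z, wg ρ a x i (some z) * tt ρ x i (some z))
        / (pZ x (rad ρ i) + a * pZ x (rad ρ (i + 1))) := by
    rw [sum_div]; refine sum_congr rfl fun z _ => ?_
    unfold ker; simp only [tt]; ring
  rw [h2, div_le_iff₀ (den_pos ha x i)]
  have : 0 ≤ gr ρ x i * (a * pZ x (rad ρ (i + 1))) := by positivity
  nlinarith

lemma expm_le (hρ : 0 < ρ) (ha : 0 ≤ a) (x : X) (i : ℕ) {c : ℝ} (hc0 : 0 ≤ c)
    (hc : a = Real.exp (-c) ∨ gr ρ x i ≤ c) :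
    ∑ o, ker ρ a x i o * (Real.exp (tt ρ x i o) - 1) ≤ 2 * Real.exp c * gr ρ x i := by
  have hg := gr_nonneg hρ x i
  have hZ := pZ_pos x (rad ρ i)
  have hZ' := pZ_pos x (rad ρ (i + 1))
  have hm := pZ_mono hρ x i
  have hec : 1 ≤ Real.exp c := Real.one_le_exp hc0
  have b1 : ∑ o, ker ρ a x i o * (Real.exp (tt ρ x i o) - 1) ≤ Real.exp (gr ρ x i) - 1 := by
    rw [sum_ker_expm hρ, exp_gr, div_sub_one hZ.ne']
    exact div_le_div_of_nonneg_left (by linarith) hZ (le_add_of_nonneg_right (by positivity))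
  by_cases h1 : gr ρ x i ≤ 1
  · have := Real.abs_exp_sub_one_le (x := gr ρ x i) (by rw [abs_of_nonneg hg]; exact h1)
    rw [abs_of_nonneg hg] at this
    have := le_abs_self (Real.exp (gr ρ x i) - 1)
    nlinarith
  push Not at h1
  have b2 : ∑ o, ker ρ a x i o * (Real.exp (tt ρ x i o) - 1) ≤ Real.exp c := by
    rcases hc with hc | hc
    · rw [sum_ker_expm hρ, div_le_iff₀ (den_pos ha x i), hc, mul_add, ← mul_assoc,
        ← Real.exp_add]
      simp only [add_neg_cancel, Real.exp_zero, one_mul]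
      nlinarith
    · linarith [Real.exp_le_exp.2 hc]
  nlinarith

lemma first_moment_skip (hρ : 0 < ρ) (x : X) (i : ℕ) {θ : ℝ} (hθ : 0 ≤ θ) :
    ∑ o, ker ρ (Real.exp (-θ)) x i o * tt ρ x i o
      ≤ 2 * θ * (1 - ker ρ (Real.exp (-θ)) x i none) + 2 * Real.exp (-θ) * gr ρ x i := by
  have ha := (Real.exp_pos (-θ)).le
  have h1 := expm_le hρ ha x i hθ (Or.inl rfl)
  have h2 := ker_sum (ρ := ρ) ha x i
  rw [Fintype.sum_option] at h1 h2 ⊢
  simp only [tt, Real.exp_zero, sub_self, mul_zero, zero_add] at h1 ⊢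
  have : ∀ z ∈ (univ : Finset X), ker ρ (Real.exp (-θ)) x i (some z) * (dist x z / rad ρ (i + 1))
      ≤ 2 * θ * ker ρ (Real.exp (-θ)) x i (some z) + Real.exp (-θ) * Real.exp (-θ) *
        (ker ρ (Real.exp (-θ)) x i (some z) * (Real.exp (dist x z / rad ρ (i + 1)) - 1)) := by
    intro z _
    set t := dist x z / rad ρ (i + 1)
    have t0 : 0 ≤ t := div_nonneg dist_nonneg (rad_pos hρ _).le
    have k0 := ker_nonneg (ρ := ρ) ha x i (some z)
    have : t ≤ 2 * θ + Real.exp (-θ) * Real.exp (-θ) * (Real.exp t - 1) := by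
      have e1 : Real.exp (-θ) ≤ 1 := Real.exp_le_one_iff.2 (by linarith)
      by_cases h : t ≤ 2 * θ
      · have : 0 ≤ Real.exp t - 1 := by linarith [Real.one_le_exp t0]
        have : 0 ≤ Real.exp (-θ) * Real.exp (-θ) * (Real.exp t - 1) := by positivity
        linarith
      · have := Real.add_one_le_exp (-θ + -θ + t)
        rw [Real.exp_add, Real.exp_add] at this
        nlinarith
    nlinarith [mul_le_mul_of_nonneg_left this k0]
  refine (sum_le_sum this).trans ?_
  rw [sum_add_distrib, ← mul_sum, ← mul_sum]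
  have e : Real.exp (-θ) * Real.exp θ = 1 := by rw [← Real.exp_add]; simp
  have h3 := mul_le_mul_of_nonneg_left h1 (mul_nonneg ha ha)
  have h4 : Real.exp (-θ) * Real.exp (-θ) * (2 * Real.exp θ * gr ρ x i)
      = 2 * Real.exp (-θ) * gr ρ x i := by
    linear_combination (2 * Real.exp (-θ) * gr ρ x i) * e
  have h5 : ∑ z, ker ρ (Real.exp (-θ)) x i (some z) = 1 - ker ρ (Real.exp (-θ)) x i none := by
    linarith
  rw [h5]; linarith

lemma p_moment {p : ℝ} (hp : 1 ≤ p) (hρ : 0 < ρ) (ha : 0 ≤ a) (x : X) (i : ℕ) {c : ℝ}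
    (hc1 : 1 ≤ c) (hc : a = Real.exp (-c) ∨ gr ρ x i ≤ c) :
    ∑ o, ker ρ a x i o * tt ρ x i o ^ p
      ≤ ((2 * c) ^ (p - 1) + 4 * (2 * p) ^ p) * gr ρ x i := by
  have h1 := expm_le hρ ha x i (by linarith) hc
  have h2 := first_moment hρ ha x i
  have C0 : 0 < (2 * p) ^ p := Real.rpow_pos_of_pos (by linarith) _
  have D0 : 0 < (2 * c) ^ (p - 1) := Real.rpow_pos_of_pos (by linarith) _
  have : ∀ o ∈ (univ : Finset (Option X)), ker ρ a x i o * tt ρ x i o ^ p
      ≤ (2 * c) ^ (p - 1) * (ker ρ a x i o * tt ρ x i o) + 2 * (2 * p) ^ p * Real.exp (-c) *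
        (ker ρ a x i o * (Real.exp (tt ρ x i o) - 1)) := by
    intro o _
    have t0 := tt_nonneg hρ x i o
    set t := tt ρ x i o
    have k0 := ker_nonneg (ρ := ρ) ha x i o
    have e1 : 0 ≤ Real.exp t - 1 := by linarith [Real.one_le_exp t0]
    have : t ^ p ≤ (2 * c) ^ (p - 1) * t + 2 * (2 * p) ^ p * Real.exp (-c) * (Real.exp t - 1) := by
      by_cases h : t ≤ 2 * c
      · have : 0 ≤ 2 * (2 * p) ^ p * Real.exp (-c) * (Real.exp t - 1) := by positivity
        have e2 : t ^ p = t ^ (p - 1) * t := by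
          rw [← Real.rpow_add_one' t0 (by linarith)]; simp
        have := mul_le_mul_of_nonneg_right
          (Real.rpow_le_rpow t0 h (by linarith : 0 ≤ p - 1)) t0
        linarith
      · push Not at h
        have a1 := rpow_le_exp_half hp t0
        have a2 : Real.exp (t / 2) ≤ Real.exp (-c) * Real.exp t := by
          rw [← Real.exp_add]; exact Real.exp_le_exp.2 (by linarith)
        have a3 : Real.exp t ≤ 2 * (Real.exp t - 1) := by
          have := Real.add_one_le_exp t; linarith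
        have a4 : 0 ≤ (2 * c) ^ (p - 1) * t := by positivity
        have a5 := mul_le_mul_of_nonneg_left a3 (Real.exp_pos (-c)).le
        nlinarith [mul_le_mul_of_nonneg_left (a2.trans a5) C0.le]
    nlinarith [mul_le_mul_of_nonneg_left this k0]
  refine (sum_le_sum this).trans ?_
  rw [sum_add_distrib, ← mul_sum, ← mul_sum]
  have e : Real.exp (-c) * Real.exp c = 1 := by rw [← Real.exp_add]; simp
  have h3 := mul_le_mul_of_nonneg_left h1
    (show 0 ≤ 2 * (2 * p) ^ p * Real.exp (-c) by positivity)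
  have h4 : 2 * (2 * p) ^ p * Real.exp (-c) * (2 * Real.exp c * gr ρ x i)
      = 4 * (2 * p) ^ p * gr ρ x i := by
    linear_combination (4 * (2 * p) ^ p * gr ρ x i) * e
  nlinarith [mul_le_mul_of_nonneg_left h2 D0.le]

end Vale.Agent.P249
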