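import Vale.Agent.P249.Combine

/-! Choice of parameters. -/

namespace Vale.Agent.P249

open Finset Filter

lemma Q0_le (K0 : ℕ) : Q0 K0 ≤ Real.exp (2 * K0 + 18) := by
  unfold Q0
  have h1 := two_pow_le_exp (K0 + 5)
  have h2 := Real.add_one_le_exp ((K0 : ℝ) + 1)
  have h3 : Real.exp 12 * 2 ^ (K0 + 5) * (K0 + 2)
      ≤ Real.exp 12 * Real.exp (K0 + 5 : ℕ) * Real.exp (K0 + 1) := by
    gcongr; linarith
  refine h3.trans (le_of_eq ?_)
  rw [← Real.exp_add, ← Real.exp_add]; congr 1; push_cast; ring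

lemma one_le_Q0 (K0 : ℕ) : 1 ≤ Q0 K0 := by
  unfold Q0
  refine one_le_mul_of_one_le_of_one_le (one_le_mul_of_one_le_of_one_le
    (Real.one_le_exp (by norm_num)) (one_le_pow₀ (by norm_num))) ?_
  have : (0 : ℝ) ≤ K0 := by positivity
  linarith

lemma err_bound {y R : ℝ} {I K0 : ℕ} (hy : 8 ≤ y) (hR : R = y ^ 4 / (4 * Real.log y))
    (h10 : 10 * y ^ 3 ≤ R) (hI : I = ⌈Real.log y⌉₊) (hK : K0 = ⌈y ^ 3⌉₊) :
    y ^ 2 * 2 ^ I ≤ 2 * y ^ 3 ∧
    R + 8 * y ^ 4 / I + y ^ 2 * 2 ^ I + (4 * y ^ 4 / y ^ 2 + 1) * (2 * y ^ 4 / K0) ≤ 35 * R := by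
  have y0 : 0 < y := by linarith
  have l0 : 0 < Real.log y := Real.log_pos (by linarith)
  have i1 : Real.log y ≤ I := hI ▸ Nat.le_ceil _
  have i2 : (I : ℝ) < Real.log y + 1 := hI ▸ Nat.ceil_lt_add_one l0.le
  have k1 : y ^ 3 ≤ K0 := hK ▸ Nat.le_ceil _
  have a1 : (2 : ℝ) ^ I ≤ 2 * y := by
    obtain ⟨J, hJ⟩ : ∃ J, I = J + 1 := Nat.exists_eq_succ_of_ne_zero (by
      rintro rfl; simp at i1; linarith)
    rw [hJ] at i2 ⊢
    push_cast at i2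
    have := (two_pow_le_exp J).trans (Real.exp_le_exp.2 (by linarith : (J : ℝ) ≤ Real.log y))
    rw [Real.exp_log y0] at this
    rw [pow_succ]; linarith
  have a2 : y ^ 2 * 2 ^ I ≤ 2 * y ^ 3 :=
    (mul_le_mul_of_nonneg_left a1 (by positivity)).trans (le_of_eq (by ring))
  have a3 : 8 * y ^ 4 / I ≤ 32 * R := by
    refine (div_le_div_of_nonneg_left (by positivity) l0 i1).trans (le_of_eq ?_)
    rw [hR]; field_simp; ring
  have a4 : 2 * y ^ 4 / K0 ≤ 2 * y := by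
    refine (div_le_div_of_nonneg_left (by positivity) (by positivity) k1).trans (le_of_eq ?_)
    field_simp
  have a5 : 4 * y ^ 4 / y ^ 2 + 1 ≤ 5 * y ^ 2 := by
    have : 4 * y ^ 4 / y ^ 2 = 4 * y ^ 2 := by field_simp
    nlinarith
  have a6 := mul_le_mul a5 a4 (by positivity) (by positivity)
  have a7 : 0 < y ^ 3 := by positivity
  exact ⟨a2, by nlinarith⟩

lemma theta_bound {y : ℝ} (hy : 8 ≤ y) : Real.exp (-y ^ 2 / 2) * y ^ 4 ≤ 1 := by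
  have h1 : 64 ≤ y ^ 2 := by nlinarith
  have h2 := Real.pow_div_factorial_le_exp (y ^ 2 / 2) (by positivity) 3
  rw [neg_div, Real.exp_neg, inv_mul_le_iff₀ (Real.exp_pos _), mul_one]
  refine le_trans ?_ h2
  have : y ^ 4 = (y ^ 2) ^ 2 := by ring
  rw [this]
  generalize y ^ 2 = t at *
  simp only [Nat.factorial]
  push_cast
  nlinarith [mul_le_mul_of_nonneg_right h1 (sq_nonneg t)]

lemma G_bound {p ε y G : ℝ} (hp : 1 ≤ p) (hε : 0 < ε) (hy : 8 ≤ y) (h1 : ε⁻¹ ≤ y)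
    (h2 : 4 * (6 * p + 4) ≤ y) (hG : 10 * y ^ 3 ≤ G) :
    Real.exp (-G) ≤ ε ∧ 2 * p ≤ Real.exp G ∧ 4 + 2 * y ^ 4 + (6 * p + 4) * G ≤ Real.exp G := by
  have a0 : 64 ≤ y ^ 2 := by nlinarith
  have a1 : y ≤ G := by nlinarith
  have a2 := Real.add_one_le_exp G
  refine ⟨?_, by linarith, ?_⟩
  · rw [Real.exp_neg]
    exact inv_le_of_inv_le₀ hε (by linarith)
  · have a3 := Real.quadratic_le_exp_of_nonneg (by linarith : 0 ≤ G)
    have a4 : (10 * y ^ 3) ^ 2 ≤ G ^ 2 := by gcongr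
    have a5 : 64 * y ^ 4 ≤ y ^ 6 := by nlinarith [show 0 ≤ y ^ 4 by positivity]
    have a6 : 64 * 64 ≤ y ^ 4 := by nlinarith
    nlinarith

lemma Gamma_bound {p ε C y R : ℝ} {K0 Λ : ℕ} (hp : 1 ≤ p) (hε : 0 < ε) (hC : 1 ≤ C) (hy : 8 ≤ y)
    (hR0 : 0 ≤ R) (hR : R ≤ y ^ 4) (hK : (K0 : ℝ) ≤ Λ) (hΛy : y ≤ Λ)
    (hU : 18 * C * (17 * y ^ 4) ^ p ≤ ε * Real.exp y) :
    2 * Q0 K0 * Real.exp (2 * Λ) ≤ Real.exp (33 * Λ) ∧
    3 * C * (4 * Real.exp 8 * Q0 K0 * Real.exp (2 * Λ) * (4 * (R + 16 * y ^ 4) ^ p + 2))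
      ≤ ε * Real.exp (33 * Λ) := by
  have q := (Q0_le K0).trans (Real.exp_le_exp.2 (by linarith : 2 * (K0 : ℝ) + 18 ≤ 2 * Λ + 18))
  have q0 := Q0_pos K0
  have e1 : (2 : ℝ) ≤ Real.exp 1 := by linarith [Real.add_one_le_exp 1]
  have e2 : (4 : ℝ) ≤ Real.exp 2 := by
    have := two_pow_le_exp 2; push_cast at this; linarith
  constructor
  · have : 2 * Q0 K0 * Real.exp (2 * Λ)
        ≤ Real.exp 1 * Real.exp (2 * Λ + 18) * Real.exp (2 * Λ) := by gcongr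
    refine this.trans ?_
    rw [← Real.exp_add, ← Real.exp_add]; exact Real.exp_le_exp.2 (by linarith)
  · have a1 : (R + 16 * y ^ 4) ^ p ≤ (17 * y ^ 4) ^ p :=
      Real.rpow_le_rpow (by positivity) (by linarith) (by linarith)
    have a2 : 1 ≤ (17 * y ^ 4) ^ p :=
      Real.one_le_rpow (by linarith [one_le_pow₀ (n := 4) (by linarith : 1 ≤ y)]) (by linarith)
    have a3 : 3 * C * (4 * (R + 16 * y ^ 4) ^ p + 2) ≤ ε * Real.exp Λ := by
      have := mul_le_mul_of_nonneg_left (Real.exp_le_exp.2 hΛy) hε.le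
      have := mul_le_mul_of_nonneg_left
        (by linarith : 4 * (R + 16 * y ^ 4) ^ p + 2 ≤ 6 * (17 * y ^ 4) ^ p)
        (by linarith : 0 ≤ 3 * C)
      linarith
    have a4 : 4 * Real.exp 8 * Q0 K0 * Real.exp (2 * Λ) ≤ Real.exp (32 * Λ) := by
      have : 4 * Real.exp 8 * Q0 K0 * Real.exp (2 * Λ)
          ≤ Real.exp 2 * Real.exp 8 * Real.exp (2 * Λ + 18) * Real.exp (2 * Λ) := by gcongr
      refine this.trans ?_
      rw [← Real.exp_add, ← Real.exp_add, ← Real.exp_add]; exact Real.exp_le_exp.2 (by linarith)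
    have a5 := mul_le_mul a4 a3 (by positivity) (by positivity)
    rw [show (33 : ℝ) * Λ = 32 * Λ + Λ by ring, Real.exp_add]
    linarith

/-- the conditions on the auxiliary parameter `y = L^(1/4)` -/
structure Big (p ε C y : ℝ) : Prop where
  h8 : 8 ≤ y
  hε : ε⁻¹ ≤ y
  hp : 4 * (6 * p + 4) ≤ y
  hlog : 40 * Real.log y ≤ y
  hU : 18 * C * (17 * y ^ 4) ^ p ≤ ε * Real.exp y
  hA : 2 ^ p * (4 * ((2 * (2 * y ^ 3)) ^ (p - 1) + 4 * (2 * p) ^ p) * y ^ 4 + 1)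
    ≤ (y ^ 4 / (4 * Real.log y)) ^ p

lemma eventually_A {p : ℝ} (hp : 1 < p) : ∀ᶠ y in atTop,
    2 ^ p * (4 * ((2 * (2 * y ^ 3)) ^ (p - 1) + 4 * (2 * p) ^ p) * y ^ 4 + 1)
      ≤ (y ^ 4 / (4 * Real.log y)) ^ p := by
  have hp0 : 0 < p := by linarith
  obtain ⟨c, hc⟩ : ∃ c : ℝ, c = 2 ^ p * (4 * (4 ^ (p - 1) + 4 * (2 * p) ^ p) + 1) := ⟨_, rfl⟩
  have c0 : 0 < c := by rw [hc]; positivity
  have h := (isLittleO_log_rpow_rpow_atTop p (s := p - 1) (by linarith)).bound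
    (c := (c * 4 ^ p)⁻¹) (by positivity)
  filter_upwards [h, eventually_gt_atTop (1 : ℝ)] with y h1 h2
  have y0 : 0 < y := by linarith
  have l0 : 0 < Real.log y := Real.log_pos h2
  rw [Real.norm_of_nonneg (by positivity), Real.norm_of_nonneg (by positivity),
    le_inv_mul_iff₀ (by positivity)] at h1
  obtain ⟨z, hz⟩ : ∃ z, z = y ^ (p - 1) := ⟨_, rfl⟩
  have z1 : 1 ≤ z := hz ▸ Real.one_le_rpow h2.le (by linarith)
  have e1 : (2 * (2 * y ^ 3)) ^ (p - 1) = 4 ^ (p - 1) * z ^ 3 := by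
    rw [← mul_assoc, Real.mul_rpow (by norm_num) (by positivity), hz, ← Real.rpow_natCast,
      ← Real.rpow_natCast, ← Real.rpow_mul y0.le, ← Real.rpow_mul y0.le, mul_comm (p - 1)]
    norm_num
  have e2 : (y ^ 4) ^ p = z ^ 4 * y ^ 4 := by
    rw [hz, ← mul_pow, ← Real.rpow_add_one y0.ne', ← Real.rpow_natCast,
      ← Real.rpow_natCast, ← Real.rpow_mul y0.le, ← Real.rpow_mul y0.le]
    congr 1; ring
  rw [Real.div_rpow (by positivity) (by positivity), le_div_iff₀ (by positivity), e1, e2,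
    Real.mul_rpow (by norm_num) l0.le]
  rw [← hz] at h1
  have z3 : 1 ≤ z ^ 3 := one_le_pow₀ z1
  have y4 : 1 ≤ y ^ 4 := one_le_pow₀ h2.le
  have a1 : 2 ^ p * (4 * (4 ^ (p - 1) * z ^ 3 + 4 * (2 * p) ^ p) * y ^ 4 + 1)
      ≤ c * (z ^ 3 * y ^ 4) := by
    rw [hc, mul_assoc ((2 : ℝ) ^ p)]
    refine mul_le_mul_of_nonneg_left ?_ (by positivity)
    have b1 := one_le_mul_of_one_le_of_one_le z3 y4
    have b2 := mul_le_mul_of_nonneg_left z3 (show (0 : ℝ) ≤ (2 * p) ^ p * y ^ 4 by positivity)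
    nlinarith
  refine (mul_le_mul_of_nonneg_right a1 (by positivity)).trans ?_
  have := mul_le_mul_of_nonneg_right h1 (show 0 ≤ z ^ 3 * y ^ 4 by positivity)
  nlinarith

lemma eventually_big {p ε : ℝ} (C : ℝ) (hp : 1 < p) (hε : 0 < ε) :
    ∀ᶠ y in atTop, Big p ε C y := by
  have h1 := Real.isLittleO_log_id_atTop.bound (c := 40⁻¹) (by norm_num)
  have h2 := (tendsto_exp_div_rpow_atTop (4 * p)).eventually_ge_atTop (18 * C * 17 ^ p / ε)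
  filter_upwards [h1, h2, eventually_A hp, eventually_ge_atTop (8 : ℝ), eventually_ge_atTop ε⁻¹,
    eventually_ge_atTop (4 * (6 * p + 4))] with y h1 h2 h3 h4 h5 h6
  have y0 : 0 < y := by linarith
  refine ⟨h4, h5, h6, ?_, ?_, h3⟩
  · rw [Real.norm_of_nonneg (Real.log_nonneg (by linarith)), id, Real.norm_of_nonneg y0.le] at h1
    linarith
  · rw [div_le_div_iff₀ hε (by positivity)] at h2
    rw [Real.mul_rpow (by norm_num) (by positivity), ← Real.rpow_natCast, ← Real.rpow_mul y0.le]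
    push_cast
    linarith

theorem finite_of_big {p ε ε' C y : ℝ} (hp : 1 < p) (hε0 : 0 < ε) (hε4 : ε ≤ 1 / 4) (hC1 : 1 ≤ C)
    (hC : ∀ s b : ℝ,
      |(|s + b| ^ p - |s| ^ p - |b| ^ p)| ≤ ε * |b| ^ p + C * (|s| ^ (p - 1) * |b|))
    (hε' : 0 < ε') (hε1 : ε' ≤ 1) (hε2 : p * 2 ^ (p - 1) * ε' ≤ ε) (hy : Big p ε C y) :
    ∃ D : ℕ, (D : ℝ) ≤ Real.exp ((1 + (6 * p + 4) * (33 * p / (p - 1)) *
        (560000 * Real.exp 12 / ε' + 1)) * (y ^ 4 / (4 * Real.log y))) ∧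
      ∀ (X Ω : Type) [Fintype X] [MetricSpace X] [Fintype Ω] (h : Ω → X → ℝ),
        Fintype.card X ≤ Real.exp (y ^ 4) →
        (∀ a b, nrm p (fun ω => h ω a - h ω b) = dist a b) →
        ∃ f : X → Fin D → ℝ, ∃ s : ℝ, 0 < s ∧ ∀ x y, x ≠ y →
          |∑ k, |f x k - f y k| ^ p - s * dist x y ^ p| ≤ 6 * ε * (s * dist x y ^ p) := by
  have h8 := hy.h8
  have y0 : 0 < y := by linarith
  have p1 : 0 < p - 1 := by linarith
  have l1 : 1 ≤ Real.log y := by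
    rw [Real.le_log_iff_exp_le y0]; linarith [Real.exp_one_lt_d9]
  obtain ⟨R, hR⟩ : ∃ R, R = y ^ 4 / (4 * Real.log y) := ⟨_, rfl⟩
  have hA := hy.hA
  rw [← hR] at hA ⊢
  have y2 : 64 ≤ y ^ 2 := by nlinarith
  have y3 : y ≤ y ^ 3 := by nlinarith
  have R1 : 10 * y ^ 3 ≤ R := by
    rw [hR, le_div_iff₀ (by linarith)]
    nlinarith [mul_le_mul_of_nonneg_right hy.hlog (show 0 ≤ y ^ 3 by positivity)]
  have R2 : R ≤ y ^ 4 := hR ▸ div_le_self (by positivity) (by linarith)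
  obtain ⟨c1, hc1⟩ : ∃ c1, c1 = 560000 * Real.exp 12 / ε' := ⟨_, rfl⟩
  have c11 : 1 ≤ c1 := by
    rw [hc1, le_div_iff₀ hε']; linarith [Real.one_le_exp (by norm_num : (0 : ℝ) ≤ 12)]
  obtain ⟨c2, hc2⟩ : ∃ c2, c2 = 33 * p / (p - 1) := ⟨_, rfl⟩
  have c21 : 33 ≤ c2 := by rw [hc2, le_div_iff₀ p1]; linarith
  have c22 : (p - 1) * c2 = 33 * p := by rw [hc2]; field_simp
  rw [← hc1, ← hc2]
  obtain ⟨Λ, hΛ⟩ : ∃ Λ, Λ = ⌈c1 * R⌉₊ := ⟨_, rfl⟩
  have Λ1 : c1 * R ≤ Λ := hΛ ▸ Nat.le_ceil _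
  have R0 : 1 ≤ R := by linarith
  have Λ2 : (Λ : ℝ) ≤ (c1 + 1) * R := by
    have := Nat.ceil_lt_add_one (show 0 ≤ c1 * R by positivity)
    rw [← hΛ] at this; linarith
  have Λ3 : R ≤ Λ := (le_mul_of_one_le_left (by linarith) c11).trans Λ1
  have G1 : 33 * (Λ : ℝ) ≤ c2 * Λ := mul_le_mul_of_nonneg_right c21 (by positivity)
  refine ⟨⌈Real.exp ((6 * p + 4) * (c2 * Λ))⌉₊, ?_, fun X Ω _ _ _ h hX hh => ?_⟩
  · have a0 : 0 ≤ (6 * p + 4) * (c2 * Λ) := by positivity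
    have a1 := Nat.ceil_lt_add_one (Real.exp_pos ((6 * p + 4) * (c2 * Λ))).le
    have a2 := mul_le_mul_of_nonneg_left Λ2 (show 0 ≤ (6 * p + 4) * c2 by positivity)
    have a3 : Real.exp 1 * Real.exp ((6 * p + 4) * (c2 * Λ))
        ≤ Real.exp ((1 + (6 * p + 4) * c2 * (c1 + 1)) * R) := by
      rw [← Real.exp_add]; exact Real.exp_le_exp.2 (by linarith)
    nlinarith [Real.add_one_le_exp 1, Real.one_le_exp a0]
  rcases isEmpty_or_nonempty X with hX0 | ⟨⟨x0⟩⟩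
  · exact ⟨fun _ _ => 0, 1, one_pos, fun x => isEmptyElim x⟩
  obtain ⟨b1, b2⟩ := err_bound h8 hR R1 rfl rfl
  have K1 : ((⌈y ^ 3⌉₊ : ℕ) : ℝ) ≤ Λ := by
    linarith [Nat.ceil_lt_add_one (show 0 ≤ y ^ 3 by positivity)]
  obtain ⟨H, P, T⟩ := exists_trunc (L := y ^ 4) (θ0 := y ^ 2) (A := R) (I := ⌈Real.log y⌉₊)
    (K0 := ⌈y ^ 3⌉₊) hp.le x0
    ((Real.log_le_iff_le_exp (by exact_mod_cast Fintype.card_pos_iff.2 ⟨x0⟩)).2 hX)
    (by linarith) (theta_bound h8) (Nat.ceil_pos.2 (by linarith)) (Nat.ceil_pos.2 (by positivity))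
    (by linarith) (le_trans (by gcongr) hA) h hh
  obtain ⟨n, t, u, κ, hκ, ht⟩ := exists_band (Λ := Λ) (ε := ε') T hp.le (one_le_Q0 _)
    (by exact_mod_cast (by linarith : (0 : ℝ) < Λ)) hε'.le (by
      refine (mul_le_mul_of_nonneg_left b2 (by positivity)).trans ?_
      have := mul_le_mul_of_nonneg_left Λ1 hε'.le
      have e : ε' * (c1 * R) = 560000 * Real.exp 12 * R := by rw [hc1]; field_simp
      linarith) hh
  obtain ⟨g1, g2, g3⟩ := G_bound (G := c2 * Λ) hp.le hε0 h8 hy.hε hy.hp (by linarith)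
  obtain ⟨g4, g5⟩ := Gamma_bound hp.le hε0 hC1 h8 (by linarith) R2 K1 (by linarith)
    hy.hU
  have q0 := Q0_pos ⌈y ^ 3⌉₊
  refine exists_combine hp.le hε4 hC1 hC hε1 hε2 (by linarith) (by positivity) hX g1 g2 g3
    (by positivity) (g5.trans (mul_le_mul_of_nonneg_left (Real.exp_le_exp.2 ?_) hε0.le)) hκ t u
    (fun x y hxy => (ht x y hxy).1) (fun x y hxy a => ((ht x y hxy).2.1 a).trans ?_)
    fun x y hxy => (ht x y hxy).2.2
  · rw [← mul_assoc, c22]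
    nlinarith
  · have := g4.trans (Real.exp_le_exp.2 G1)
    gcongr

end Vale.Agent.P249
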