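import Vale.Agent.P249.Nrm

/-! Reduction to finitely many atoms. -/

namespace Vale.Agent.P249

open Finset MeasureTheory

/-- vectors of `p`-th powers of distances in finite `ℓ_p` spaces -/
def cone (p : ℝ) (ι : Type) : Set (ι × ι → ℝ) :=
  {w | ∃ (Ω : Type) (_ : Fintype Ω) (h : Ω → ι → ℝ), w = fun q => ∑ ω, |h ω q.1 - h ω q.2| ^ p}

variable {p : ℝ} {ι : Type}

lemma cone_add {v w : ι × ι → ℝ} (hv : v ∈ cone p ι) (hw : w ∈ cone p ι) : v + w ∈ cone p ι := by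
  obtain ⟨Ω, _, h, rfl⟩ := hv
  obtain ⟨Ω', _, h', rfl⟩ := hw
  refine ⟨Ω ⊕ Ω', inferInstance, Sum.elim h h', ?_⟩
  funext q
  simp [Fintype.sum_sum_type]

lemma cone_smul (hp : 1 ≤ p) {v : ι × ι → ℝ} (hv : v ∈ cone p ι) {c : ℝ} (hc : 0 ≤ c) :
    c • v ∈ cone p ι := by
  obtain ⟨Ω, _, h, rfl⟩ := hv
  refine ⟨Ω, inferInstance, fun ω a => c ^ (1 / p) * h ω a, ?_⟩
  funext q
  simp only [Pi.smul_apply, smul_eq_mul, mul_sum]
  refine sum_congr rfl fun ω _ => ?_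
  rw [← mul_sub, abs_mul, Real.mul_rpow (abs_nonneg _) (abs_nonneg _),
    abs_of_nonneg (Real.rpow_nonneg hc _), ← Real.rpow_mul hc, one_div_mul_cancel (by linarith),
    Real.rpow_one]

lemma cone_atom (a : ι → ℝ) : (fun q : ι × ι => |a q.1 - a q.2| ^ p) ∈ cone p ι :=
  ⟨Unit, inferInstance, fun _ => a, by funext q; simp⟩

lemma cone_zero : (0 : ι × ι → ℝ) ∈ cone p ι :=
  ⟨Empty, inferInstance, fun _ => 0, by funext q; simp⟩

lemma integral_mem_closure [Fintype ι] {Ω : Type*} [MeasurableSpace Ω] {μ : Measure Ω}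
    (hp : 1 ≤ p) {φ : Ω → ι × ι → ℝ} (hφ : Integrable φ μ) (h : ∀ ω, φ ω ∈ cone p ι) :
    ∫ ω, φ ω ∂μ ∈ closure (cone p ι) := by
  by_contra hc
  have hconv : Convex ℝ (cone p ι) := fun v hv w hw a b ha hb _ =>
    cone_add (cone_smul hp hv ha) (cone_smul hp hw hb)
  obtain ⟨f, u, h1, h2⟩ := geometric_hahn_banach_point_closed hconv.closure isClosed_closure hc
  have h3 : u < 0 := by simpa using h2 0 (subset_closure cone_zero)
  have h4 : ∀ ω, 0 ≤ f (φ ω) := fun ω => by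
    by_contra hn
    have hn' := not_le.1 hn
    have := h2 _ (subset_closure (cone_smul hp (h ω) (c := u / f (φ ω))
      (div_nonneg_of_nonpos h3.le hn'.le)))
    rw [map_smul, smul_eq_mul, div_mul_cancel₀ _ hn'.ne] at this
    exact lt_irrefl _ this
  rw [← f.integral_comp_comm hφ] at h1
  linarith [integral_nonneg (μ := μ) (f := fun ω => f (φ ω)) h4]

lemma Lp_facts {Ω : Type*} [MeasurableSpace Ω] {μ : Measure Ω} (hp : 1 ≤ p)
    (x y : Lp ℝ (ENNReal.ofReal p) μ) :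
    Integrable (fun ω => |x ω - y ω| ^ p) μ ∧ ∫ ω, |x ω - y ω| ^ p ∂μ = ‖x - y‖ ^ p := by
  have hp0 : 0 < p := by linarith
  have h0 : ENNReal.ofReal p ≠ 0 := by simpa using hp0
  have hm := Lp.memLp (x - y)
  have e : (fun ω => ‖(x - y) ω‖ ^ p) =ᵐ[μ] fun ω => |x ω - y ω| ^ p := by
    filter_upwards [Lp.coeFn_sub x y] with ω hω
    rw [hω]; rfl
  have h1 := hm.integrable_norm_rpow h0 ENNReal.ofReal_ne_top
  have h2 := hm.eLpNorm_eq_integral_rpow_norm h0 ENNReal.ofReal_ne_top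
  rw [ENNReal.toReal_ofReal hp0.le] at h1 h2
  refine ⟨h1.congr e, ?_⟩
  have h3 : 0 ≤ ∫ ω, ‖(x - y) ω‖ ^ p ∂μ := integral_nonneg fun ω => by positivity
  rw [Lp.norm_def, h2, ENNReal.toReal_ofReal (by positivity), Real.rpow_inv_rpow h3 hp0.ne',
    integral_congr_ae e]

theorem exists_reduce [Fintype ι] {Ω₀ : Type*} [MeasurableSpace Ω₀] {μ : Measure Ω₀}
    (hp : 1 ≤ p) (x : ι → Lp ℝ (ENNReal.ofReal p) μ) (hx : ∀ a b, a ≠ b → 0 < ‖x a - x b‖)
    {ε : ℝ} (hε : 0 < ε) :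
    ∃ (Ω : Type) (_ : Fintype Ω) (h : Ω → ι → ℝ), ∀ a b, a ≠ b →
      |∑ ω, |h ω a - h ω b| ^ p - ‖x a - x b‖ ^ p| ≤ ε * ‖x a - x b‖ ^ p := by
  have h1 := integral_mem_closure (μ := μ) (ι := ι) hp
    (φ := fun ω q => |x q.1 ω - x q.2 ω| ^ p)
    (Integrable.of_eval fun q => (Lp_facts hp _ _).1) fun ω => cone_atom fun a => x a ω
  have h2 : ∫ ω, (fun q : ι × ι => |x q.1 ω - x q.2 ω| ^ p) ∂μ
      = fun q => ‖x q.1 - x q.2‖ ^ p := by
    funext q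
    rw [eval_integral fun q => (Lp_facts hp _ _).1]
    exact (Lp_facts hp _ _).2
  rw [h2] at h1
  have h3 : IsOpen (⋂ q : ι × ι, {w : ι × ι → ℝ | q.1 ≠ q.2 →
      |w q - ‖x q.1 - x q.2‖ ^ p| < ε * ‖x q.1 - x q.2‖ ^ p}) := by
    refine isOpen_iInter_of_finite fun q => ?_
    by_cases hq : q.1 = q.2
    · simp [hq]
    · simp only [ne_eq, hq, not_false_eq_true, forall_const]
      exact isOpen_lt (by fun_prop) continuous_const
  obtain ⟨w, hw, Ω, _, h, rfl⟩ := mem_closure_iff.1 h1 _ h3 (Set.mem_iInter.2 fun q hq => by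
    have := hx _ _ hq
    rw [sub_self, abs_zero]; positivity)
  exact ⟨Ω, inferInstance, h, fun a b hab => (Set.mem_iInter.1 hw (a, b) hab).le⟩

end Vale.Agent.P249
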