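import Vale.Agent.P249.Defs
import Vale.Agent.P249.Param
import Vale.Agent.P249.Reduce

/-! Assembly. -/

namespace Vale.Agent.P249

open Finset Filter MeasureTheory

universe u

/-- the finite statement for at most `N` points -/
def FinEmb (p ε N : ℝ) (d : ℕ) : Prop :=
  ∀ (X Ω : Type) [Fintype X] [MetricSpace X] [Fintype Ω] (h : Ω → X → ℝ), Fintype.card X ≤ N →
    (∀ a b, nrm p (fun ω => h ω a - h ω b) = dist a b) →
    ∃ f : X → Fin d → ℝ, ∃ s : ℝ, 0 < s ∧ ∀ x y, x ≠ y →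
      |∑ k, |f x k - f y k| ^ p - s * dist x y ^ p| ≤ 6 * ε * (s * dist x y ^ p)

/-- the metric defined by the atoms -/
noncomputable abbrev atomMetric {p : ℝ} {ι Ω : Type} [Fintype Ω] (hp : 1 ≤ p) (h : Ω → ι → ℝ)
    (hh : ∀ a b, nrm p (fun ω => h ω a - h ω b) = 0 → a = b) : MetricSpace ι where
  dist a b := nrm p (fun ω => h ω a - h ω b)
  dist_self a := by simp [nrm_zero hp]
  dist_comm a b := by rw [← nrm_abs]; simp only [abs_sub_comm (h _ a)]; rw [nrm_abs]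
  dist_triangle a b c := by
    simpa using nrm_add_le hp (fun ω => h ω a - h ω b) (fun ω => h ω b - h ω c)
  eq_of_dist_eq_zero := hh _ _

lemma two_sided {p D ε s r d S : ℝ} (hp : 1 ≤ p) (hD : 1 < D) (hε : 0 < ε)
    (hε' : ε * (9 + 7 * D) ≤ D - 1) (hs : 0 < s) (hr : 0 ≤ r) (hS : 0 ≤ S)
    (h1 : |d - r ^ p| ≤ ε * r ^ p) (h2 : |S - s * d| ≤ 6 * ε * (s * d)) :
    ((1 - 7 * ε) * s) ^ (1 / p) * r ≤ S ^ (1 / p) ∧
      S ^ (1 / p) ≤ D * ((1 - 7 * ε) * s) ^ (1 / p) * r := by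
  have hp0 : 0 < p := by linarith
  have e7 : 0 < 1 - 7 * ε := by nlinarith
  have r0 : 0 ≤ r ^ p := by positivity
  have er : (r ^ p) ^ (1 / p) = r := by
    rw [one_div, Real.rpow_rpow_inv hr hp0.ne']
  have eD : (D ^ p) ^ (1 / p) = D := by
    rw [one_div, Real.rpow_rpow_inv (by linarith) hp0.ne']
  have hDp : D ≤ D ^ p := Real.self_le_rpow_of_one_le hD.le hp
  obtain ⟨t, ht⟩ : ∃ t, t = r ^ p := ⟨_, rfl⟩
  rw [← ht] at h1 r0 er
  rw [abs_le] at h1 h2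
  have a1 : s * ((1 - ε) * t) ≤ s * d := mul_le_mul_of_nonneg_left (by linarith) hs.le
  have a2 : s * d ≤ s * ((1 + ε) * t) := mul_le_mul_of_nonneg_left (by linarith) hs.le
  have st : 0 ≤ s * t := by positivity
  constructor
  · rw [← er, ← Real.mul_rpow (by positivity) r0]
    refine Real.rpow_le_rpow (by positivity) ?_ (by positivity)
    nlinarith [mul_le_mul_of_nonneg_left a1 (by linarith : 0 ≤ 1 - 6 * ε),
      mul_nonneg st (sq_nonneg ε)]
  · rw [← er, ← eD, ← Real.mul_rpow (by positivity) (by positivity),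
      ← Real.mul_rpow (by positivity) r0]
    refine Real.rpow_le_rpow hS ?_ (by positivity)
    have b1 := mul_le_mul_of_nonneg_left a2 (by linarith : 0 ≤ 1 + 6 * ε)
    have b2 : (1 + 6 * ε) * (1 + ε) ≤ D ^ p * (1 - 7 * ε) := by
      nlinarith [mul_le_mul_of_nonneg_right hDp e7.le]
    nlinarith [mul_le_mul_of_nonneg_right b2 st]

lemma embeds_of_finEmb {p D ε N : ℝ} {d n : ℕ} (hp : 1 ≤ p) (hD : 1 < D) (hε : 0 < ε)
    (hε' : ε * (9 + 7 * D) ≤ D - 1) (H : FinEmb p ε N d) (hn : n ≤ N) : Embeds.{u} p D n d := by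
  intro Ω₀ _ μ X hX
  have hp0 : 0 < p := by linarith
  have : Fact (1 ≤ ENNReal.ofReal p) := ⟨by simpa using hp⟩
  have e := X.equivFin
  have hx : ∀ a b, a ≠ b → 0 < ‖(e.symm a).1 - (e.symm b).1‖ := fun a b hab =>
    norm_pos_iff.2 (sub_ne_zero.2 fun h => hab (e.symm.injective (Subtype.ext h)))
  obtain ⟨Ω, _, h, hh⟩ := exists_reduce hp (fun a => (e.symm a).1) hx hε
  have e7 : 0 < 1 - 7 * ε := by nlinarith
  let _ := atomMetric hp h fun a b hab => by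
    by_contra hc
    have h1 := hh a b hc
    have h2 : 0 < ‖(e.symm a).1 - (e.symm b).1‖ ^ p := Real.rpow_pos_of_pos (hx a b hc) _
    rw [← nrm_rpow hp, hab, Real.zero_rpow hp0.ne'] at h1
    nlinarith [(abs_le.1 h1).1]
  obtain ⟨f, s, hs, hf⟩ := H (Fin X.card) Ω h (by simpa [hX] using hn) fun _ _ => rfl
  refine ⟨fun x => f (e x), ((1 - 7 * ε) * s) ^ (1 / p), by positivity, fun x x' => ?_⟩
  simp only [lpDist]
  by_cases hxx : x = x'
  · subst hxx
    have : ellNorm p (f (e x) - f (e x)) = 0 := by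
      rw [sub_self]; exact nrm_zero hp
    rw [this, sub_self, norm_zero, mul_zero, mul_zero]
    exact ⟨le_rfl, le_rfl⟩
  have hne : e x ≠ e x' := fun h => hxx (e.injective h)
  have h1 := hh _ _ hne
  rw [← nrm_rpow hp] at h1
  simp only [Equiv.symm_apply_apply] at h1
  exact two_sided hp hD hε hε' hs (norm_nonneg _) (sum_abs_rpow_nonneg _) h1 (hf _ _ hne)

lemma eventually_finEmb {p ε : ℝ} (hp : 1 < p) (hε0 : 0 < ε) (hε4 : ε ≤ 1 / 4) :
    ∃ c : ℝ, 0 < c ∧ ∀ᶠ L in atTop, ∃ d : ℕ, (d : ℝ) ≤ Real.exp (c * (L / Real.log L)) ∧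
      FinEmb p ε (Real.exp L) d := by
  obtain ⟨C, hC1, hC⟩ := exists_elem hp.le hε0
  have p0 : 0 < p := by linarith
  have p1 : 0 < p - 1 := by linarith
  have k1 : 1 ≤ p * 2 ^ (p - 1) :=
    one_le_mul_of_one_le_of_one_le hp.le (Real.one_le_rpow (by norm_num) p1.le)
  obtain ⟨ε', h'⟩ : ∃ ε', ε' = ε / (p * 2 ^ (p - 1)) := ⟨_, rfl⟩
  have a1 : 0 < ε' := by rw [h']; positivity
  have a2 : ε' ≤ 1 := by rw [h', div_le_one (by linarith)]; linarith
  have a3 : p * 2 ^ (p - 1) * ε' ≤ ε := by rw [h']; exact le_of_eq (by field_simp)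
  refine ⟨1 + (6 * p + 4) * (33 * p / (p - 1)) * (560000 * Real.exp 12 / ε' + 1),
    by positivity, ?_⟩
  filter_upwards [(tendsto_rpow_atTop (by norm_num : (0 : ℝ) < 4⁻¹)).eventually
    (eventually_big C hp hε0), eventually_gt_atTop (0 : ℝ)] with L h1 h2
  have e1 : (L ^ (4⁻¹ : ℝ)) ^ 4 = L := by
    simpa using Real.rpow_inv_natCast_pow h2.le (n := 4) (by norm_num)
  have e2 : 4 * Real.log (L ^ (4⁻¹ : ℝ)) = Real.log L := by rw [Real.log_rpow h2]; ring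
  have := finite_of_big hp hε0 hε4 hC1 hC a1 a2 a3 h1
  rw [e1, e2] at this
  exact this

theorem exists_embeds {p D : ℝ} (hp : 1 < p) (hD : 1 < D) : ∃ C : ℝ, 0 < C ∧ ∀ n : ℕ, 3 ≤ n →
    ∃ d : ℕ, Embeds.{u} p D n d ∧
      (d : ℝ) ≤ Real.exp (C * Real.log n / Real.log (Real.log n)) := by
  obtain ⟨ε, h'⟩ : ∃ ε, ε = (D - 1) / (9 + 7 * D) := ⟨_, rfl⟩
  have a0 : 0 < D - 1 := by linarith
  have a1 : 0 < ε := by rw [h']; positivity
  have a2 : ε * (9 + 7 * D) ≤ D - 1 := by rw [h']; exact le_of_eq (by field_simp)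
  obtain ⟨c, c0, hc⟩ := eventually_finEmb hp a1 (by nlinarith)
  obtain ⟨L0, hL0⟩ := eventually_atTop.1 hc
  obtain ⟨d0, -, hd0⟩ := hL0 L0 le_rfl
  refine ⟨c + d0, by positivity, fun n hn => ?_⟩
  have n3 : (3 : ℝ) ≤ n := by exact_mod_cast hn
  have l1 : 1 < Real.log n := by
    rw [Real.lt_log_iff_exp_lt (by linarith)]; linarith [Real.exp_one_lt_d9]
  have l2 : 0 < Real.log (Real.log n) := Real.log_pos l1
  have l3 : 1 ≤ Real.log n / Real.log (Real.log n) := by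
    rw [one_le_div l2]; linarith [Real.log_le_sub_one_of_pos (by linarith : 0 < Real.log n)]
  have d00 : (0 : ℝ) ≤ d0 := by positivity
  rw [mul_div_assoc]
  by_cases h : L0 ≤ Real.log n
  · obtain ⟨d, h1, h2⟩ := hL0 _ h
    exact ⟨d, embeds_of_finEmb hp.le hD a1 a2 h2 (by rw [Real.exp_log (by linarith)]),
      h1.trans (Real.exp_le_exp.2 (by nlinarith))⟩
  · refine ⟨d0, embeds_of_finEmb hp.le hD a1 a2 hd0
      ((Real.log_le_iff_le_exp (by linarith)).1 (not_le.1 h).le), ?_⟩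
    nlinarith [Real.add_one_le_exp ((c + d0) * (Real.log n / Real.log (Real.log n)))]

theorem dimRed_bound {p D : ℝ} (hp : 1 < p) (hD : 1 < D) : ∃ C : ℝ, 0 < C ∧ ∀ n : ℕ, 3 ≤ n →
    Embeds.{u} p D n (dimRed.{u} p D n) ∧
      (dimRed.{u} p D n : ℝ) ≤ Real.exp (C * Real.log n / Real.log (Real.log n)) := by
  obtain ⟨C, C0, hC⟩ := exists_embeds.{u} hp hD
  refine ⟨C, C0, fun n hn => ?_⟩
  obtain ⟨d, h1, h2⟩ := hC n hn
  exact ⟨Nat.sInf_mem (s := {d | Embeds.{u} p D n d}) ⟨d, h1⟩,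
    le_trans (by exact_mod_cast Nat.sInf_le (s := {d | Embeds.{u} p D n d}) h1) h2⟩

theorem dimRed_littleO {p D : ℝ} (hp : 1 < p) (hD : 1 < D) {δ : ℝ} (hδ : 0 < δ) :
    (fun n : ℕ => (dimRed.{u} p D n : ℝ)) =o[atTop] fun n : ℕ => (n : ℝ) ^ δ := by
  obtain ⟨C, C0, hC⟩ := dimRed_bound.{u} hp hD
  have t1 : Tendsto (fun n : ℕ => Real.log (Real.log n)) atTop atTop :=
    Real.tendsto_log_atTop.comp (Real.tendsto_log_atTop.comp tendsto_natCast_atTop_atTop)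
  have t2 : Tendsto (fun n : ℕ => (n : ℝ) ^ (δ / 2)) atTop atTop :=
    (tendsto_rpow_atTop (by linarith)).comp tendsto_natCast_atTop_atTop
  refine Asymptotics.isLittleO_iff.2 fun c hc => ?_
  filter_upwards [eventually_ge_atTop 3, t1.eventually_ge_atTop (2 * C / δ),
    t2.eventually_ge_atTop c⁻¹] with n h1 h2 h3
  have n3 : (3 : ℝ) ≤ n := by exact_mod_cast h1
  have n0 : (0 : ℝ) < n := by linarith
  have l2 : 0 < Real.log (Real.log n) := lt_of_lt_of_le (by positivity) h2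
  rw [Real.norm_of_nonneg (by positivity), Real.norm_of_nonneg (by positivity)]
  have a1 : Real.exp (C * Real.log n / Real.log (Real.log n)) ≤ (n : ℝ) ^ (δ / 2) := by
    rw [Real.rpow_def_of_pos n0, Real.exp_le_exp, div_le_iff₀ l2]
    rw [div_le_iff₀ hδ] at h2
    nlinarith [Real.log_nonneg (by linarith : (1 : ℝ) ≤ n)]
  refine ((hC n h1).2.trans a1).trans ?_
  have e : (n : ℝ) ^ δ = (n : ℝ) ^ (δ / 2) * (n : ℝ) ^ (δ / 2) := by
    rw [← Real.rpow_add n0]; congr 1; ring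
  rw [e, ← mul_assoc]
  refine le_mul_of_one_le_left (by positivity) ?_
  rwa [inv_le_iff_one_le_mul₀' hc] at h3

end Vale.Agent.P249
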