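import Vale.Agent.P249.Ex

/-! The finite `p`-norm. -/

namespace Vale.Agent.P249

open Finset

variable {Ω : Type*} [Fintype Ω] {p : ℝ}

/-- finite `p`-norm -/
noncomputable def nrm (p : ℝ) (f : Ω → ℝ) : ℝ := (∑ ω, |f ω| ^ p) ^ (1 / p)

lemma sum_abs_rpow_nonneg (f : Ω → ℝ) : 0 ≤ ∑ ω, |f ω| ^ p :=
  sum_nonneg fun _ _ => Real.rpow_nonneg (abs_nonneg _) _

lemma nrm_nonneg (f : Ω → ℝ) : 0 ≤ nrm p f := Real.rpow_nonneg (sum_abs_rpow_nonneg f) _

lemma nrm_rpow (hp : 1 ≤ p) (f : Ω → ℝ) : nrm p f ^ p = ∑ ω, |f ω| ^ p := by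
  unfold nrm
  rw [← Real.rpow_mul (sum_abs_rpow_nonneg f), one_div_mul_cancel (by linarith), Real.rpow_one]

lemma nrm_add_le (hp : 1 ≤ p) (f g : Ω → ℝ) :
    nrm p (fun ω => f ω + g ω) ≤ nrm p f + nrm p g := Real.Lp_add_le univ f g hp

lemma nrm_mono_abs (hp : 1 ≤ p) {f g : Ω → ℝ} (h : ∀ ω, |f ω| ≤ |g ω|) : nrm p f ≤ nrm p g :=
  Real.rpow_le_rpow (sum_abs_rpow_nonneg f)
    (sum_le_sum fun ω _ => Real.rpow_le_rpow (abs_nonneg _) (h ω) (by linarith))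
    (by positivity)

lemma nrm_mono (hp : 1 ≤ p) {f g : Ω → ℝ} (h : ∀ ω, |f ω| ≤ g ω) : nrm p f ≤ nrm p g :=
  nrm_mono_abs hp fun ω => (h ω).trans (le_abs_self _)

lemma nrm_abs (f : Ω → ℝ) : nrm p (fun ω => |f ω|) = nrm p f := by
  unfold nrm; simp

lemma nrm_mul (hp : 1 ≤ p) (c : ℝ) (f : Ω → ℝ) :
    nrm p (fun ω => c * f ω) = |c| * nrm p f := by
  unfold nrm
  have : ∀ ω, |c * f ω| ^ p = |c| ^ p * |f ω| ^ p := fun ω => by
    rw [abs_mul, Real.mul_rpow (abs_nonneg _) (abs_nonneg _)]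
  simp only [this]
  rw [← mul_sum, Real.mul_rpow (Real.rpow_nonneg (abs_nonneg _) _) (sum_abs_rpow_nonneg f),
    ← Real.rpow_mul (abs_nonneg _), mul_one_div_cancel (by linarith), Real.rpow_one]

lemma nrm_zero (hp : 1 ≤ p) : nrm p (fun _ : Ω => (0 : ℝ)) = 0 := by
  have := nrm_mul hp 0 (fun _ : Ω => (0 : ℝ))
  simpa using this

lemma nrm_sum_le (hp : 1 ≤ p) {β : Type*} (t : Finset β) (f : β → Ω → ℝ) :
    nrm p (fun ω => ∑ b ∈ t, f b ω) ≤ ∑ b ∈ t, nrm p (f b) := by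
  classical
  induction t using Finset.induction_on with
  | empty => simp [nrm_zero hp]
  | insert b t hb ih =>
    simp only [sum_insert hb]
    exact (nrm_add_le hp _ _).trans (by linarith)

lemma nrm_Ex_le (hp : 1 ≤ p) {ι α : Type*} [Fintype ι] [DecidableEq ι] [Fintype α]
    {K : ι → α → ℝ} (hK : ∀ i a, 0 ≤ K i a) (f : Ω → (ι → α) → ℝ) :
    nrm p (fun ω => Ex K (f ω)) ≤ Ex K (fun ξ => nrm p (fun ω => f ω ξ)) := by
  unfold Ex
  refine (nrm_sum_le hp univ (fun ξ ω => wt K ξ * f ω ξ)).trans (le_of_eq ?_)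
  refine sum_congr rfl fun ξ _ => ?_
  rw [nrm_mul hp, abs_of_nonneg (wt_nonneg hK ξ)]

lemma nrm_sub_le (hp : 1 ≤ p) (f g : Ω → ℝ) :
    |nrm p f - nrm p g| ≤ nrm p (fun ω => f ω - g ω) := by
  have h1 := nrm_add_le hp (fun ω => f ω - g ω) g
  have h2 := nrm_add_le hp (fun ω => g ω - f ω) f
  have h3 : nrm p (fun ω => g ω - f ω) = nrm p (fun ω => f ω - g ω) := by
    rw [← nrm_abs]; simp only [abs_sub_comm (g _)]; rw [nrm_abs]
  simp only [sub_add_cancel] at h1 h2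
  rw [abs_le]; constructor <;> linarith

lemma nrm_le_of_sum_le (hp : 1 ≤ p) {f : Ω → ℝ} {c : ℝ} (hc : 0 ≤ c)
    (h : ∑ ω, |f ω| ^ p ≤ c ^ p) : nrm p f ≤ c := by
  rw [← nrm_rpow hp] at h
  exact (Real.rpow_le_rpow_iff (nrm_nonneg f) hc (by linarith)).1 h

/-- first moment from the `p`-th moment -/
lemma le_add_rpow_div (hp : 1 ≤ p) {y U : ℝ} (hy : 0 ≤ y) (hU : 0 < U) :
    y ≤ U + y ^ p / U ^ (p - 1) := by
  have hU' : 0 < U ^ (p - 1) := Real.rpow_pos_of_pos hU _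
  by_cases h : y ≤ U
  · have : 0 ≤ y ^ p / U ^ (p - 1) := div_nonneg (Real.rpow_nonneg hy _) hU'.le
    linarith
  · push Not at h
    have hy' : 0 < y := hU.trans h
    have : y ≤ y ^ p / U ^ (p - 1) := by
      rw [le_div_iff₀ hU']
      have e : y ^ p = y * y ^ (p - 1) := by
        rw [Real.rpow_sub_one hy'.ne']; field_simp
      rw [e]
      exact mul_le_mul_of_nonneg_left (Real.rpow_le_rpow hU.le h.le (by linarith)) hy
    linarith

lemma Ex_le_of_rpow (hp : 1 ≤ p) {ι α : Type*} [Fintype ι] [DecidableEq ι] [Fintype α]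
    {K : ι → α → ℝ} (hK : IsProb K) {f : (ι → α) → ℝ} (hf : ∀ ξ, 0 ≤ f ξ) {U : ℝ} (hU : 0 < U)
    (h : Ex K (fun ξ => f ξ ^ p) ≤ U ^ p) : Ex K f ≤ 2 * U := by
  have hU' : 0 < U ^ (p - 1) := Real.rpow_pos_of_pos hU _
  have h1 := Ex_mono hK.nonneg (f := f) (g := fun ξ => U + (U ^ (p - 1))⁻¹ * f ξ ^ p)
    fun ξ => by rw [inv_mul_eq_div]; exact le_add_rpow_div hp (hf ξ) hU
  rw [Ex_add, Ex_const hK, Ex_mul] at h1
  have h2 : (U ^ (p - 1))⁻¹ * Ex K (fun ξ => f ξ ^ p) ≤ U := by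
    rw [inv_mul_le_iff₀ hU']
    refine h.trans (le_of_eq ?_)
    rw [Real.rpow_sub_one hU.ne']; field_simp
  linarith

lemma add_rpow_le_two (hp : 1 ≤ p) {a b : ℝ} (ha : 0 ≤ a) (hb : 0 ≤ b) :
    (a + b) ^ p ≤ 2 ^ p * (a ^ p + b ^ p) := by
  have h1 : a + b ≤ 2 * max a b := by
    have := le_max_left a b; have := le_max_right a b; linarith
  have h2 := Real.rpow_le_rpow (by positivity) h1 (by linarith : 0 ≤ p)
  rw [Real.mul_rpow (by norm_num) (le_max_of_le_left ha)] at h2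
  refine h2.trans (mul_le_mul_of_nonneg_left ?_ (by positivity))
  have := Real.rpow_nonneg ha p; have := Real.rpow_nonneg hb p
  rcases max_choice a b with h | h <;> rw [h] <;> linarith

lemma rpow_le_exp_half (hp : 1 ≤ p) {t : ℝ} (ht : 0 ≤ t) :
    t ^ p ≤ (2 * p) ^ p * Real.exp (t / 2) := by
  have hp0 : 0 < p := by linarith
  have h1 : t ≤ 2 * p * Real.exp (t / (2 * p)) := by
    have := Real.add_one_le_exp (t / (2 * p))
    have h2 : t / (2 * p) ≤ Real.exp (t / (2 * p)) := by linarith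
    rwa [div_le_iff₀ (by positivity), mul_comm] at h2
  have h2 := Real.rpow_le_rpow ht h1 hp0.le
  rw [Real.mul_rpow (by positivity) (Real.exp_pos _).le, ← Real.exp_mul] at h2
  have : t / (2 * p) * p = t / 2 := by field_simp
  rwa [this] at h2

end Vale.Agent.P249
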