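import Vale.Agent.P249.Hybrid

/-! Estimates for a pair of points and a fixed parameter. -/

namespace Vale.Agent.P249

open Finset

variable {X : Type*} [Fintype X] [PseudoMetricSpace X]
variable {ρ θ L : ℝ} {F : ℕ → Prop} [DecidablePred F] {m : ℕ}

lemma PP_nonneg (g : X → ℝ) (x0 x : X) (σ : ℝ) : 0 ≤ PP ρ θ F m g x0 x σ :=
  Ex_nonneg (KK_prob x).nonneg fun ξ => by split_ifs <;> norm_num

lemma PP_le_one (g : X → ℝ) (x0 x : X) (σ : ℝ) : PP ρ θ F m g x0 x σ ≤ 1 := by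
  rw [← Ex_const (KK_prob (ρ := ρ) (θ := θ) (F := F) (m := m) x) 1]
  exact Ex_mono (KK_prob x).nonneg fun ξ => by split_ifs <;> norm_num

lemma PP_anti (g : X → ℝ) (x0 x : X) {σ σ' : ℝ} (h : σ ≤ σ') :
    PP ρ θ F m g x0 x σ' ≤ PP ρ θ F m g x0 x σ :=
  Ex_mono (KK_prob x).nonneg fun ξ => by split_ifs <;> linarith

lemma low_crude {K0 : ℕ} (hF : ∀ j, ∃ l, l < K0 ∧ F (j + l)) (hρ : 0 < ρ) (g : X → ℝ)
    (x0 x y : X) {j : ℕ} (hd : rad ρ j ≤ dist x y) (hj : j ≤ m) {σ : ℝ} (hσ : 0 ≤ σ)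
    {ξ : Fin m → Option X} (hξ : ∀ i, KK ρ θ F m x i (ξ i) ≠ 0) (ξ' : Fin m → Option X) :
    |jV ρ m (sq g x0 x ξ) σ - jV ρ m (sq g x0 y (mix (fun l : Fin m => j ≤ l) ξ ξ')) σ|
      ≤ 2 ^ (K0 + 3) * σ * dist x y := by
  have hk := run_le_supp hF x0 x hξ hj
  have h1 := jV_diff_crude (m := m) (ζ := sq g x0 x ξ)
    (ζ' := sq g x0 y (mix (fun l : Fin m => j ≤ l) ξ ξ')) (b := j + run x0 ξ j + 1) hρ hσ
    (by have := run_le x0 ξ hj; omega)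
    (fun l hl => congrArg g (pz_congr_high x0 x y ξ hj (fun _ _ => rfl)
      (fun _ h => ext_mix_high x0 ξ ξ' h) l hl))
  refine h1.trans ?_
  rw [add_assoc j, rad_add j]
  have h2 : (2 : ℝ) ^ (run x0 ξ j + 1) ≤ 2 ^ (K0 + 1) := pow_le_pow_right₀ (by norm_num) (by omega)
  have h3 := mul_le_mul h2 hd (rad_pos hρ j).le (by positivity)
  have e : (2 : ℝ) ^ (K0 + 3) = 4 * 2 ^ (K0 + 1) := by ring
  rw [e]; nlinarith [mul_le_mul_of_nonneg_left h3 hσ]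

/-- Lipschitz constant of the truncation -/
noncomputable def Q0 (K0 : ℕ) : ℝ := Real.exp 12 * 2 ^ (K0 + 5) * (K0 + 2)

lemma Q0_split (K0 : ℕ) :
    (2 : ℝ) ^ (K0 + 3) + Real.exp 12 * (2 ^ (K0 + 4) * (K0 + 2)) ≤ Q0 K0 := by
  unfold Q0
  have h1 : (1 : ℝ) ≤ Real.exp 12 := Real.one_le_exp (by norm_num)
  have h2 : (0 : ℝ) < 2 ^ K0 := by positivity
  have h3 : (0 : ℝ) ≤ K0 := by positivity
  have h4 : (2 : ℝ) ^ K0 ≤ Real.exp 12 * 2 ^ K0 := le_mul_of_one_le_left h2.le h1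
  rw [pow_add, pow_add, pow_add]
  nlinarith [mul_nonneg (mul_nonneg (Real.exp_pos 12).le h2.le) h3]

lemma Q0_pos (K0 : ℕ) : 0 < Q0 K0 := by unfold Q0; positivity

lemma HH_lip {K0 : ℕ} (hF : ∀ j, ∃ l, l < K0 ∧ F (j + l)) (hρ : 0 < ρ) (g : X → ℝ)
    (x0 x y : X) {j : ℕ} (hd : rad ρ j ≤ dist x y) (hd' : dist x y ≤ rad ρ (j + 1)) (hj : j ≤ m)
    {σ : ℝ} (hσ : 0 ≤ σ) :
    |HH ρ θ F m g x0 x σ - HH ρ θ F m g x0 y σ| ≤ Q0 K0 * σ * dist x y := by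
  have hx := KK_prob (ρ := ρ) (θ := θ) (F := F) (m := m) x
  have hy := KK_prob (ρ := ρ) (θ := θ) (F := F) (m := m) y
  have h1 := HH_diff (θ := θ) (F := F) hρ g x0 x y hd' hj σ 0
  have h2 := osc_le (θ := θ) (m := m) hF hρ g x0 y hσ
  have h3 : low ρ θ F m g x0 x y j σ 0 ≤ 2 ^ (K0 + 3) * σ * dist x y := by
    rw [← Ex_const hx (2 ^ (K0 + 3) * σ * dist x y)]
    refine Ex_mono_supp hx.nonneg fun ξ hξ => ?_
    rw [← Ex_const hy (2 ^ (K0 + 3) * σ * dist x y)]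
    refine Ex_mono hy.nonneg fun ξ' => ?_
    rw [sub_zero]; exact low_crude hF hρ g x0 x y hd hj hσ hξ ξ'
  rw [sub_zero] at h1
  have h4 := mul_le_mul_of_nonneg_left (PP_le_one (ρ := ρ) (θ := θ) (F := F) (m := m) g x0 y σ)
    (show (0 : ℝ) ≤ 2 ^ (K0 + 4) * (K0 + 2) * σ by positivity)
  have h5 := mul_le_mul_of_nonneg_left (h2.trans h4)
    (show 0 ≤ Real.exp 12 * dist x y by positivity)
  have h6 := mul_le_mul_of_nonneg_right (Q0_split K0) (show 0 ≤ σ * dist x y by positivity)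
  nlinarith

lemma HH_tail {K0 : ℕ} (hF : ∀ j, ∃ l, l < K0 ∧ F (j + l)) (hρ : 0 < ρ) (g : X → ℝ)
    (x0 x y : X) {j : ℕ} (hd : rad ρ j ≤ dist x y) (hd' : dist x y ≤ rad ρ (j + 1)) (hj : j ≤ m)
    {σ : ℝ} (hσ : 0 ≤ σ) :
    |HH ρ θ F m g x0 x σ - HH ρ θ F m g x0 y σ - (g x - g y)|
      ≤ Real.exp 8 * (Q0 K0 * σ * dist x y + |g x - g y|)
        * (PP ρ θ F m g x0 x σ + PP ρ θ F m g x0 y σ) := by
  have hx := KK_prob (ρ := ρ) (θ := θ) (F := F) (m := m) x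
  have hy := KK_prob (ρ := ρ) (θ := θ) (F := F) (m := m) y
  have h1 := HH_diff (θ := θ) (F := F) hρ g x0 x y hd' hj σ (g x - g y)
  have h2 := osc_le (θ := θ) (m := m) hF hρ g x0 y hσ
  set c := 2 ^ (K0 + 3) * σ * dist x y + |g x - g y| with hc
  have c0 : 0 ≤ c := by positivity
  set u : X → (Fin m → Option X) → ℝ := fun b ξ =>
    if σ < jM ρ m (sq g x0 b ξ) 0 then 1 else 0 with hu
  have u0 : ∀ b ξ, 0 ≤ u b ξ := fun b ξ => by simp only [hu]; split_ifs <;> norm_num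
  have h3 : low ρ θ F m g x0 x y j σ (g x - g y) ≤ Ex (KK ρ θ F m x) fun ξ =>
      c * (u x ξ + Ex (KK ρ θ F m y) fun ξ' => u y (mix (fun l : Fin m => j ≤ l) ξ ξ')) := by
    refine Ex_mono_supp hx.nonneg fun ξ hξ => ?_
    rw [← Ex_const hy (u x ξ), ← Ex_add, ← Ex_mul]
    refine Ex_mono hy.nonneg fun ξ' => ?_
    have a1 := low_crude hF hρ g x0 x y hd hj hσ hξ ξ'
    have a2 := (abs_sub _ (g x - g y)).trans (add_le_add_left a1 _)
    rw [← hc] at a2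
    have a3 := u0 x ξ
    have a4 := u0 y (mix (fun l : Fin m => j ≤ l) ξ ξ')
    by_cases b1 : σ < jM ρ m (sq g x0 x ξ) 0
    · have : u x ξ = 1 := if_pos b1
      rw [this]; nlinarith
    by_cases b2 : σ < jM ρ m (sq g x0 y (mix (fun l : Fin m => j ≤ l) ξ ξ')) 0
    · have : u y (mix (fun l : Fin m => j ≤ l) ξ ξ') = 1 := if_pos b2
      rw [this]; nlinarith
    rw [jV_full (not_lt.1 b1), jV_full (not_lt.1 b2)]
    simp only [sq, pz, sub_self, abs_zero]; positivity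
  rw [Ex_mul, Ex_add, ← Ex_mix _ hx hy (u y)] at h3
  have h4 := hyb_dom (θ := θ) (F := F) hρ x y hd' (le_refl j) (u0 y)
  change low _ _ _ _ _ _ _ _ _ _ _ ≤ c * (PP ρ θ F m g x0 x σ + Ex (hyb ρ θ F m x y j) (u y)) at h3
  change _ ≤ _ * PP ρ θ F m g x0 y σ at h4
  have p1 := PP_nonneg (ρ := ρ) (θ := θ) (F := F) (m := m) g x0 x σ
  have p2 := PP_nonneg (ρ := ρ) (θ := θ) (F := F) (m := m) g x0 y σ
  set P1 := PP ρ θ F m g x0 x σ
  set P2 := PP ρ θ F m g x0 y σ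
  have e8 : (1 : ℝ) ≤ Real.exp 8 := Real.one_le_exp (by norm_num)
  have h5 := mul_le_mul_of_nonneg_left h2 (show 0 ≤ Real.exp 12 * dist x y by positivity)
  have h6 := mul_le_mul_of_nonneg_right (Q0_split K0) (show 0 ≤ σ * dist x y by positivity)
  set w := Real.exp 12 * (2 ^ (K0 + 4) * (K0 + 2)) * (σ * dist x y) with hw
  have w0 : 0 ≤ w := by positivity
  have h7 : c + w ≤ Q0 K0 * σ * dist x y + |g x - g y| := by rw [hc, hw]; linarith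
  have h8 : c * (P1 + Real.exp 8 * P2) + w * P2 ≤ Real.exp 8 * (c + w) * (P1 + P2) := by
    have := mul_le_mul_of_nonneg_right e8 (mul_nonneg c0 p1)
    have := mul_le_mul_of_nonneg_right e8 (mul_nonneg w0 p2)
    have : 0 ≤ Real.exp 8 * w * P1 := by positivity
    nlinarith
  have h9 := mul_le_mul_of_nonneg_left h4 c0
  have h10 : Real.exp 8 * (c + w) * (P1 + P2)
      ≤ Real.exp 8 * (Q0 K0 * σ * dist x y + |g x - g y|) * (P1 + P2) := by gcongr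
  have h11 : Real.exp 12 * dist x y * (2 ^ (K0 + 4) * (K0 + 2) * σ * P2) = w * P2 := by
    rw [hw]; ring
  nlinarith

lemma measurable_HH (g : X → ℝ) (x0 x : X) :
    Measurable (fun s => HH ρ θ F m g x0 x (Real.exp s)) :=
  Finset.measurable_sum _ fun _ _ => measurable_jV.const_mul _

lemma ii_HH (g : X → ℝ) (x0 x : X) (a b : ℝ) :
    IntervalIntegrable (fun s => HH ρ θ F m g x0 x (Real.exp s)) MeasureTheory.volume a b := by
  have := IntervalIntegrable.sum (μ := MeasureTheory.volume) (a := a) (b := b) univ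
    (f := fun (ξ : Fin m → Option X) s => wt (KK ρ θ F m x) ξ * jV ρ m (sq g x0 x ξ) (Real.exp s))
    fun ξ _ => (ii_jV a b).const_mul _
  refine this.congr fun s _ => ?_
  rw [Finset.sum_apply]; rfl

variable {Ω : Type*} [Fintype Ω] {p A : ℝ} {h : Ω → X → ℝ}

omit [Fintype X] in
lemma nrm_jT (hp : 1 ≤ p) (hρ : 0 < ρ) (hh : ∀ a b, nrm p (fun ω => h ω a - h ω b) = dist a b)
    (x0 y : X) (ξ : Fin m → Option X) (i : ℕ) :
    nrm p (fun ω => jT ρ (sq (h ω) x0 y ξ) i) = ta ρ x0 y ξ i := by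
  unfold jT ta sq
  have hr := rad_pos hρ (i + 1)
  simp only [div_eq_inv_mul]
  rw [nrm_mul hp, nrm_abs, hh, abs_of_pos (inv_pos.2 hr)]

omit [Fintype X] in
lemma sum_jM_rpow (hp : 1 ≤ p) (hρ : 0 < ρ)
    (hh : ∀ a b, nrm p (fun ω => h ω a - h ω b) = dist a b) (x0 y : X) (ξ : Fin m → Option X) :
    ∑ ω, jM ρ m (sq (h ω) x0 y ξ) 0 ^ p ≤ ∑ l ∈ range (m + 1), ta ρ x0 y ξ l ^ p := by
  refine (sum_le_sum fun ω _ => jM_rpow_le hρ (by linarith)).trans (le_of_eq ?_)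
  rw [sum_comm]
  refine sum_congr rfl fun l _ => ?_
  rw [← nrm_jT hp hρ hh, nrm_rpow hp]
  exact sum_congr rfl fun ω _ => by rw [abs_of_nonneg (jT_nonneg hρ l)]

lemma sum_Ex_jM (hp : 1 ≤ p) (hρ : 0 < ρ) (hθ : 2 ≤ θ)
    (hL : Real.log (Fintype.card X) ≤ L) (hA0 : 0 ≤ A)
    (hA : 2 ^ p * (4 * ((2 * θ) ^ (p - 1) + 4 * (2 * p) ^ p) * L + 1) ≤ A ^ p)
    (hh : ∀ a b, nrm p (fun ω => h ω a - h ω b) = dist a b) (x0 y : X)
    (hx0 : dist y x0 ≤ rad ρ (m + 1)) :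
    Ex (KK ρ θ F m y) (fun ξ => ∑ ω, jM ρ m (sq (h ω) x0 y ξ) 0 ^ p)
      ≤ (A + 16 * GF ρ F m y) ^ p :=
  (Ex_mono (KK_prob y).nonneg (sum_jM_rpow hp hρ hh x0 y)).trans
    (Ex_ta_rpow hp hρ hθ hL hA0 hA x0 y hx0)

lemma Ex_nrm_jM (hp : 1 ≤ p) (hρ : 0 < ρ) (hθ : 2 ≤ θ)
    (hL : Real.log (Fintype.card X) ≤ L) (hA0 : 0 < A)
    (hA : 2 ^ p * (4 * ((2 * θ) ^ (p - 1) + 4 * (2 * p) ^ p) * L + 1) ≤ A ^ p)
    (hh : ∀ a b, nrm p (fun ω => h ω a - h ω b) = dist a b) (x0 y : X)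
    (hx0 : dist y x0 ≤ rad ρ (m + 1)) :
    Ex (KK ρ θ F m y) (fun ξ => nrm p fun ω => jM ρ m (sq (h ω) x0 y ξ) 0)
      ≤ 2 * (A + 16 * GF ρ F m y) := by
  refine Ex_le_of_rpow hp (KK_prob y) (fun _ => nrm_nonneg _)
    (by linarith [GF_nonneg (F := F) (m := m) hρ y]) (le_trans (le_of_eq ?_)
      (sum_Ex_jM hp hρ hθ hL hA0.le hA hh x0 y hx0))
  congr 1; funext ξ
  rw [nrm_rpow hp]
  exact sum_congr rfl fun ω _ => by rw [abs_of_nonneg (jM_nonneg 0)]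

lemma final_num {θ A d Gx Gy Nx Ny nU nL : ℝ} (hθ : 2 ≤ θ) (hA : 0 ≤ A) (d0 : 0 ≤ d)
    (hGx : 0 ≤ Gx) (hGy : 0 ≤ Gy) (hNx : 0 ≤ Nx) (hNy : 0 ≤ Ny)
    (u1 : nU ≤ 32 * (2 * (A + 16 * Gy)) + 16 * (Ny * (6 * θ + 2 * Gy) + 4))
    (u2 : nL ≤ d * ((Nx + 5) * (1 + 2 * (2 * θ + 1 + Gx) + 2 * (2 * θ + 1 + Gy))
      + 6 * (2 * (A + 16 * Gx)) + 6 * (Real.exp 8 * (2 * (A + 16 * Gy))) + 15)) :
    nL + Real.exp 12 * d * nU ≤ 2000 * Real.exp 12 * d * (A + (Nx + Ny + 1) * (θ + Gx + Gy)) := by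
  have e1 : (1 : ℝ) ≤ Real.exp 8 := Real.one_le_exp (by norm_num)
  have e2 : Real.exp 8 ≤ Real.exp 12 := Real.exp_le_exp.2 (by norm_num)
  obtain ⟨W, hW⟩ : ∃ W, W = (Nx + Ny + 1) * (θ + Gx + Gy) := ⟨_, rfl⟩
  rw [← hW]
  have s0 : 0 ≤ θ + Gx + Gy := by linarith
  have w1 : θ + Gx + Gy ≤ W := by
    rw [hW]; nlinarith [mul_nonneg hNx s0, mul_nonneg hNy s0]
  have w2 : Nx * (θ + Gx + Gy) ≤ W := by rw [hW]; nlinarith [mul_nonneg hNy s0]
  have w3 : Ny * (θ + Gx + Gy) ≤ W := by rw [hW]; nlinarith [mul_nonneg hNx s0]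
  have v1 : nU ≤ 1300 * (A + W) := by nlinarith [mul_nonneg hNy hGx, mul_nonneg hNy hGy]
  have v2 : (Nx + 5) * (1 + 2 * (2 * θ + 1 + Gx) + 2 * (2 * θ + 1 + Gy))
      + 6 * (2 * (A + 16 * Gx)) + 15 ≤ 300 * (A + W) := by
    nlinarith [mul_nonneg hNx hGx, mul_nonneg hNx hGy, mul_nonneg hNx (sub_nonneg.2 hθ)]
  have v3 : 6 * (2 * (A + 16 * Gy)) ≤ 300 * (A + W) := by linarith
  have AW : 0 ≤ A + W := by linarith
  have v4 : 300 * (A + W) ≤ Real.exp 12 * (300 * (A + W)) :=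
    le_mul_of_one_le_left (by linarith) (e1.trans e2)
  have v5 : Real.exp 8 * (6 * (2 * (A + 16 * Gy))) ≤ Real.exp 12 * (300 * (A + W)) :=
    mul_le_mul e2 v3 (by linarith) (Real.exp_pos _).le
  have v6 := mul_le_mul_of_nonneg_left v1 (show 0 ≤ Real.exp 12 * d by positivity)
  have v7 : nL ≤ d * (2 * (Real.exp 12 * (300 * (A + W)))) :=
    u2.trans (mul_le_mul_of_nonneg_left (by linarith) d0)
  have v8 : 0 ≤ Real.exp 12 * d * (A + W) := by positivity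
  linarith

lemma HH_err (hp : 1 ≤ p) (hρ : 0 < ρ) (hθ : 2 ≤ θ)
    (hL : Real.log (Fintype.card X) ≤ L) (hθL : Real.exp (-θ / 2) * L ≤ 1) (hA0 : 0 < A)
    (hA : 2 ^ p * (4 * ((2 * θ) ^ (p - 1) + 4 * (2 * p) ^ p) * L + 1) ≤ A ^ p)
    (hh : ∀ a b, nrm p (fun ω => h ω a - h ω b) = dist a b) (x0 x y : X)
    (hx0 : ∀ z, dist z x0 ≤ rad ρ (m + 1)) {j : ℕ} (hd : rad ρ j ≤ dist x y)
    (hd' : dist x y ≤ rad ρ (j + 1)) (hj : j ≤ m) (σ₀ : Ω → ℝ) (hσ₀ : ∀ ω, 0 ≤ σ₀ ω)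
    (hv : ∀ ω, |h ω x - h ω y| ≤ dist x y * σ₀ ω) (hn : nrm p σ₀ ≤ 3) :
    ∃ E : Ω → ℝ, (∀ ω, Bd (fun s => |HH ρ θ F m (h ω) x0 x (Real.exp s)
        - HH ρ θ F m (h ω) x0 y (Real.exp s)
        - (if σ₀ ω ≤ Real.exp s then h ω x - h ω y else 0)|) (E ω)) ∧
      nrm p E ≤ 2000 * Real.exp 12 * dist x y *
        (A + (NB ρ θ m x + NB ρ θ m y + 1) * (θ + GF ρ F m x + GF ρ F m y)) := by
  have hx := KK_prob (ρ := ρ) (θ := θ) (F := F) (m := m) x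
  have hy := KK_prob (ρ := ρ) (θ := θ) (F := F) (m := m) y
  set d := dist x y with hdd
  have d0 : 0 ≤ d := dist_nonneg
  set mx : (Fin m → Option X) → (Fin m → Option X) → (Fin m → Option X) :=
    fun ξ ξ' => mix (fun l : Fin m => j ≤ l) ξ ξ' with hmx
  set EL : Ω → ℝ := fun ω => Ex (KK ρ θ F m x) fun ξ => Ex (KK ρ θ F m y) fun ξ' =>
    (run x0 ξ j + 4) * |sq (h ω) x0 x ξ j - sq (h ω) x0 y (mx ξ ξ') j|
      + 6 * d * jM ρ m (sq (h ω) x0 x ξ) 0 + 6 * d * jM ρ m (sq (h ω) x0 y (mx ξ ξ')) 0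
      + 5 * d * σ₀ ω with hEL
  set EU : Ω → ℝ := fun ω => 32 * Ex (KK ρ θ F m y) (fun ξ => jM ρ m (sq (h ω) x0 y ξ) 0)
    + 16 * ∑ i ∈ range m,
      Ex (KK ρ θ F m y) (fun ξ => run x0 ξ (i + 1) * jT ρ (sq (h ω) x0 y ξ) i) with hEU
  refine ⟨fun ω => EL ω + Real.exp 12 * d * EU ω, fun ω => ?_, ?_⟩
  · have b1 : Bd (fun s => low ρ θ F m (h ω) x0 x y j (Real.exp s)
        (if σ₀ ω ≤ Real.exp s then h ω x - h ω y else 0)) (EL ω) := by
      refine Bd_Ex hx.nonneg fun ξ => Bd_Ex hy.nonneg fun ξ' => ?_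
      have := Bd_low (m := m) (ζ := sq (h ω) x0 x ξ) (ζ' := sq (h ω) x0 y (mx ξ ξ')) (j := j)
        (k := run x0 ξ j) (d := d) (σ₀ := σ₀ ω) hρ (run_le x0 ξ hj) hd
        (by rw [rad_succ]; linarith)
        (fun l hl => congrArg (h ω) (pz_congr_high x0 x y ξ hj (fun _ _ => rfl)
          (fun _ h => ext_mix_high x0 ξ ξ' h) l hl))
        (fun l h1 h2 => congrArg (h ω) (pz_block x0 x ξ (fun _ _ => rfl) l h1 h2))
        (fun l h1 h2 => congrArg (h ω)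
          (pz_block x0 y ξ (fun _ h => ext_mix_high x0 ξ ξ' h) l h1 h2))
        (hσ₀ ω) (hv ω)
      exact this.le (le_of_eq (by ring))
    have b2 := (Bd_osc (θ := θ) (F := F) (m := m) hρ (h ω) x0 y).mul
      (show 0 ≤ Real.exp 12 * d by positivity)
    exact (b1.add b2).mono (((measurable_HH _ _ _).sub (measurable_HH _ _ _)).sub
      (measurable_step _ _)).abs (fun _ => abs_nonneg _)
      fun s => HH_diff hρ (h ω) x0 x y hd' hj _ _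
  have Gx := GF_nonneg (F := F) (m := m) hρ x
  have Gy := GF_nonneg (F := F) (m := m) hρ y
  have Nx := NB_nonneg (ρ := ρ) (θ := θ) (m := m) x
  have Ny := NB_nonneg (ρ := ρ) (θ := θ) (m := m) y
  have mx' := Ex_nrm_jM (F := F) hp hρ hθ hL hA0 hA hh x0 x (hx0 x)
  have my' := Ex_nrm_jM (F := F) hp hρ hθ hL hA0 hA hh x0 y (hx0 y)
  have u1 : nrm p EU ≤ 32 * (2 * (A + 16 * GF ρ F m y))
      + 16 * (NB ρ θ m y * (6 * θ + 2 * GF ρ F m y) + 4) := by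
    refine (nrm_add_le hp _ _).trans ?_
    rw [nrm_mul hp, nrm_mul hp, abs_of_pos (by norm_num), abs_of_pos (by norm_num)]
    have a1 := (nrm_Ex_le hp hy.nonneg fun ω ξ => jM ρ m (sq (h ω) x0 y ξ) 0).trans my'
    have a2 := nrm_sum_le hp (range m) fun i ω =>
      Ex (KK ρ θ F m y) (fun ξ => run x0 ξ (i + 1) * jT ρ (sq (h ω) x0 y ξ) i)
    have a3 : ∀ i ∈ range m, nrm p (fun ω =>
        Ex (KK ρ θ F m y) (fun ξ => run x0 ξ (i + 1) * jT ρ (sq (h ω) x0 y ξ) i))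
        ≤ Ex (KK ρ θ F m y) (fun ξ => run x0 ξ (i + 1) * ta ρ x0 y ξ i) := by
      intro i _
      refine (nrm_Ex_le hp hy.nonneg _).trans (le_of_eq ?_)
      congr 1; funext ξ
      rw [nrm_mul hp, nrm_jT hp hρ hh, abs_of_nonneg (by positivity)]
    have a4 := (a2.trans (sum_le_sum a3)).trans (skip_cost hρ hθ hL hθL x0 y)
    linarith
  have u2 : nrm p EL ≤ d * ((NB ρ θ m x + 5) * (1 + 2 * (2 * θ + 1 + GF ρ F m x)
      + 2 * (2 * θ + 1 + GF ρ F m y)) + 6 * (2 * (A + 16 * GF ρ F m x))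
      + 6 * (Real.exp 8 * (2 * (A + 16 * GF ρ F m y))) + 15) := by
    set sy := Ex (KK ρ θ F m y) (fun ξ => ss ρ x0 y ξ j) with hsy
    set nM : X → (Fin m → Option X) → ℝ := fun b ξ => nrm p fun ω => jM ρ m (sq (h ω) x0 b ξ) 0
      with hnM
    have a1 : nrm p EL ≤ Ex (KK ρ θ F m x) fun ξ => Ex (KK ρ θ F m y) fun ξ' =>
        d * ((run x0 ξ j + 4) * (1 + ss ρ x0 x ξ j) + (run x0 ξ j + 4) * ss ρ x0 y ξ' j
          + 6 * nM x ξ + 6 * nM y (mx ξ ξ') + 15) := by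
      refine (nrm_Ex_le hp hx.nonneg _).trans (Ex_mono hx.nonneg fun ξ => ?_)
      refine (nrm_Ex_le hp hy.nonneg _).trans (Ex_mono hy.nonneg fun ξ' => ?_)
      refine (nrm_add_le hp _ _).trans ?_
      refine (add_le_add_left (nrm_add_le hp _ _) _).trans ?_
      refine (add_le_add_left (add_le_add_left (nrm_add_le hp _ _) _) _).trans ?_
      rw [nrm_mul hp, nrm_mul hp, nrm_mul hp, nrm_mul hp, nrm_abs]
      simp only [sq]
      rw [hh, abs_of_nonneg (by positivity), abs_of_nonneg (by positivity),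
        abs_of_nonneg (by positivity)]
      have c1 : pz y (ext x0 (mx ξ ξ')) j = pz y (ext x0 ξ') j :=
        pz_congr_low (i := j) (fun _ h => ext_mix_low x0 ξ ξ' h) j le_rfl
      have c2 : dist (pz x (ext x0 ξ) j) (pz y (ext x0 ξ') j)
          ≤ d * (1 + ss ρ x0 x ξ j + ss ρ x0 y ξ' j) := by
        have r0 := rad_pos hρ j
        have c3 : dist x (pz x (ext x0 ξ) j) ≤ d * ss ρ x0 x ξ j := by
          unfold ss; rw [← mul_div_assoc, le_div_iff₀ r0, mul_comm d]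
          exact mul_le_mul_of_nonneg_left hd dist_nonneg
        have c4 : dist y (pz y (ext x0 ξ') j) ≤ d * ss ρ x0 y ξ' j := by
          unfold ss; rw [← mul_div_assoc, le_div_iff₀ r0, mul_comm d]
          exact mul_le_mul_of_nonneg_left hd dist_nonneg
        have c5 := dist_triangle4 (pz x (ext x0 ξ) j) x y (pz y (ext x0 ξ') j)
        rw [dist_comm _ x] at c5
        linarith
      rw [c1]
      have c6 := mul_le_mul_of_nonneg_left c2 (show (0 : ℝ) ≤ run x0 ξ j + 4 by positivity)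
      have c7 := mul_le_mul_of_nonneg_left hn (show 0 ≤ 5 * d by positivity)
      simp only [hnM]
      nlinarith
    refine a1.trans ?_
    have a2 : (fun ξ => Ex (KK ρ θ F m y) fun ξ' =>
        d * ((run x0 ξ j + 4) * (1 + ss ρ x0 x ξ j) + (run x0 ξ j + 4) * ss ρ x0 y ξ' j
          + 6 * nM x ξ + 6 * nM y (mx ξ ξ') + 15))
        = fun ξ => d * (run x0 ξ j * (1 + sy + ss ρ x0 x ξ j) + 4 * (1 + sy + ss ρ x0 x ξ j)
          + 6 * nM x ξ + 6 * (Ex (KK ρ θ F m y) fun ξ' => nM y (mx ξ ξ')) + 15) := by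
      funext ξ
      rw [Ex_mul, Ex_add, Ex_add, Ex_add, Ex_add, Ex_const hy, Ex_const hy, Ex_const hy, Ex_mul,
        Ex_mul]
      ring
    rw [a2, Ex_mul, Ex_add, Ex_add, Ex_add, Ex_add, Ex_const hx, Ex_mul, Ex_mul, Ex_mul,
      ← Ex_mix _ hx hy (nM y)]
    refine mul_le_mul_of_nonneg_left ?_ d0
    have sy0 : 0 ≤ sy := Ex_nonneg hy.nonneg fun ξ => ss_nonneg hρ x0 y ξ j
    have a3 := Ex_run_le (ρ := ρ) (F := F) hθ x0 x hj (fun ξ => 1 + sy + ss ρ x0 x ξ j)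
      (fun ξ => by linarith [ss_nonneg hρ x0 x ξ j])
      (fun ξ i a hi => by rw [ss_update x0 x ξ i a hi])
    have a4 : Ex (KK ρ θ F m x) (fun ξ => 1 + sy + ss ρ x0 x ξ j)
        ≤ 1 + 2 * (2 * θ + 1 + GF ρ F m x) + 2 * (2 * θ + 1 + GF ρ F m y) := by
      rw [Ex_add, Ex_const hx]
      linarith [Ex_ss_le (F := F) hρ hθ hL hθL x0 x hj, Ex_ss_le (F := F) hρ hθ hL hθL x0 y hj]
    have a5 := (hyb_dom (θ := θ) (F := F) hρ x y hd' (le_refl j) (f := nM y)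
      (fun _ => nrm_nonneg _)).trans (mul_le_mul_of_nonneg_left my' (Real.exp_pos 8).le)
    have a6 := mul_le_mul_of_nonneg_left a4 (show 0 ≤ NB ρ θ m x + 5 by linarith)
    unfold hyb at a5
    nlinarith
  refine (nrm_add_le hp _ _).trans ?_
  rw [nrm_mul hp, abs_of_nonneg (by positivity)]
  exact final_num hθ hA0.le d0 Gx Gy Nx Ny u1 u2

end Vale.Agent.P249
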