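import Vale.Agent.P249.Ex

/-! Runs of skipped levels and the path of points. -/

namespace Vale.Agent.P249

open Finset

variable {X : Type*} {m : ℕ}

/-- extension of a finite configuration -/
def ext (x0 : X) (ξ : Fin m → Option X) (i : ℕ) : Option X :=
  if h : i < m then ξ ⟨i, h⟩ else some x0

/-- the path of points -/
def pz (b : X) (e : ℕ → Option X) : ℕ → X
  | 0 => b
  | i + 1 => (e i).getD (pz b e i)

/-- indicator of a skip -/
def skp : Option X → ℝ
  | none => 1
  | some _ => 0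

/-- run length with fuel -/
def runF (e : ℕ → Option X) : ℕ → ℕ → ℕ
  | 0, _ => 0
  | n + 1, j => match e j with
    | none => runF e n (j + 1) + 1
    | some _ => 0

/-- run length -/
def run (x0 : X) (ξ : Fin m → Option X) (j : ℕ) : ℕ := runF (ext x0 ξ) (m - j) j

lemma runF_le (e : ℕ → Option X) (n j : ℕ) : runF e n j ≤ n := by
  induction n generalizing j with
  | zero => simp [runF]
  | succ n ih =>
    unfold runF; cases e j with
    | none => simpa using ih (j + 1)
    | some _ => simp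

lemma runF_none (e : ℕ → Option X) (n j l : ℕ) (h : l < runF e n j) : e (j + l) = none := by
  induction n generalizing j l with
  | zero => simp [runF] at h
  | succ n ih =>
    unfold runF at h
    cases hj : e j with
    | none =>
      rw [hj] at h
      cases l with
      | zero => simpa using hj
      | succ l =>
        have := ih (j + 1) l (by simpa using h)
        rwa [show j + (l + 1) = j + 1 + l by omega]
    | some _ => rw [hj] at h; simp at h

lemma runF_some (e : ℕ → Option X) (n j : ℕ) (h : e (j + n) ≠ none) :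
    e (j + runF e n j) ≠ none := by
  induction n generalizing j with
  | zero => simpa [runF] using h
  | succ n ih =>
    unfold runF
    cases hj : e j with
    | none =>
      have := ih (j + 1) (by rwa [show j + 1 + n = j + (n + 1) by omega])
      simp only
      rwa [show j + (runF e n (j + 1) + 1) = j + 1 + runF e n (j + 1) by omega]
    | some _ => simp [hj]

lemma runF_congr {e e' : ℕ → Option X} (n j : ℕ) (h : ∀ l, j ≤ l → e l = e' l) :
    runF e n j = runF e' n j := by
  induction n generalizing j with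
  | zero => simp [runF]
  | succ n ih =>
    unfold runF
    rw [h j le_rfl, ih (j + 1) fun l hl => h l (by omega)]

lemma runF_succ_real (e : ℕ → Option X) (n j : ℕ) :
    (runF e (n + 1) j : ℝ) = skp (e j) * (1 + runF e n (j + 1)) := by
  conv_lhs => unfold runF
  cases e j with
  | none => simp [skp]; ring
  | some _ => simp [skp]

lemma run_le (x0 : X) (ξ : Fin m → Option X) {j : ℕ} (hj : j ≤ m) : j + run x0 ξ j ≤ m := by
  have := runF_le (ext x0 ξ) (m - j) j
  unfold run; omega

lemma pz_congr_low {b : X} {e e' : ℕ → Option X} {i : ℕ} (h : ∀ l, l < i → e l = e' l) :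
    ∀ l, l ≤ i → pz b e l = pz b e' l := by
  intro l
  induction l with
  | zero => intro; rfl
  | succ l ih => intro hl; unfold pz; rw [h l (by omega), ih (by omega)]

lemma pz_block (x0 b : X) (ξ : Fin m → Option X) {e : ℕ → Option X} {j : ℕ}
    (h : ∀ l, j ≤ l → e l = ext x0 ξ l) :
    ∀ l, j ≤ l → l ≤ j + run x0 ξ j → pz b e l = pz b e j := by
  intro l hl
  induction l, hl using Nat.le_induction with
  | base => intro; rfl
  | succ l hl ih =>
    intro h2
    have := runF_none (ext x0 ξ) (m - j) j (l - j) (by unfold run at h2; omega)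
    rw [show j + (l - j) = l by omega] at this
    conv_lhs => unfold pz
    rw [h l hl, this, Option.getD_none]
    exact ih (by omega)

lemma pz_congr_high (x0 b b' : X) (ξ : Fin m → Option X) {e e' : ℕ → Option X} {j : ℕ}
    (hj : j ≤ m) (h : ∀ l, j ≤ l → e l = ext x0 ξ l) (h' : ∀ l, j ≤ l → e' l = ext x0 ξ l) :
    ∀ l, j + run x0 ξ j + 1 ≤ l → pz b e l = pz b' e' l := by
  intro l hl
  induction l, hl using Nat.le_induction with
  | base =>
    have := runF_some (ext x0 ξ) (m - j) j (by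
      rw [show j + (m - j) = m by omega]; simp [ext])
    obtain ⟨w, hw⟩ := Option.ne_none_iff_exists'.1 this
    unfold pz
    rw [h _ (by omega), h' _ (by omega)]
    unfold run; rw [hw]; rfl
  | succ l hl ih =>
    unfold pz
    rw [h l (by omega), h' l (by omega), ih]

lemma ext_update (x0 : X) (ξ : Fin m → Option X) (i : Fin m) (a : Option X) {l : ℕ}
    (hl : l ≠ i) : ext x0 (Function.update ξ i a) l = ext x0 ξ l := by
  unfold ext
  split_ifs with h
  · rw [Function.update_of_ne]; intro h'; exact hl (by rw [← h'])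
  · rfl

lemma ext_fin (x0 : X) (ξ : Fin m → Option X) (i : Fin m) : ext x0 ξ i = ξ i := by
  simp [ext]

lemma run_update (x0 : X) (ξ : Fin m → Option X) (i : Fin m) (a : Option X) {j : ℕ}
    (hj : (i : ℕ) < j) : run x0 (Function.update ξ i a) j = run x0 ξ j :=
  runF_congr _ _ fun _ hl => ext_update x0 ξ i a (by omega)

lemma pz_update (x0 b : X) (ξ : Fin m → Option X) (i : Fin m) (a : Option X) {l : ℕ}
    (hl : l ≤ i) : pz b (ext x0 (Function.update ξ i a)) l = pz b (ext x0 ξ) l :=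
  pz_congr_low (i := i) (fun _ h => ext_update x0 ξ i a (by omega)) l hl

/-- expected weighted run, with fuel -/
def kapF (q w : ℕ → ℝ) : ℕ → ℕ → ℝ
  | 0, _ => 0
  | n + 1, j => q j * (w j + kapF q w n (j + 1))

/-- expected weighted run -/
def kap (q w : ℕ → ℝ) (m j : ℕ) : ℝ := kapF q w (m - j) j

lemma kap_rec (q w : ℕ → ℝ) {j : ℕ} (hj : j < m) :
    kap q w m j = q j * (w j + kap q w m (j + 1)) := by
  unfold kap; rw [show m - j = (m - (j + 1)) + 1 by omega]; rfl

lemma kap_top (q w : ℕ → ℝ) : kap q w m m = 0 := by simp [kap, kapF]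

lemma kapF_add (q w w' : ℕ → ℝ) (n j : ℕ) :
    kapF q (fun l => w l + w' l) n j = kapF q w n j + kapF q w' n j := by
  induction n generalizing j with
  | zero => simp [kapF]
  | succ n ih => simp only [kapF]; rw [ih]; ring

lemma kapF_nonneg {q w : ℕ → ℝ} (hq : ∀ l, 0 ≤ q l) (hw : ∀ l, 0 ≤ w l) (n j : ℕ) :
    0 ≤ kapF q w n j := by
  induction n generalizing j with
  | zero => simp [kapF]
  | succ n ih => simp only [kapF]; exact mul_nonneg (hq _) (add_nonneg (hw _) (ih _))

lemma kapF_le_sum {q w : ℕ → ℝ} (hq : ∀ l, 0 ≤ q l) (hq1 : ∀ l, q l ≤ 1) (hw : ∀ l, 0 ≤ w l)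
    (n j : ℕ) : kapF q w n j ≤ ∑ l ∈ range n, w (j + l) := by
  induction n generalizing j with
  | zero => simp [kapF]
  | succ n ih =>
    simp only [kapF]
    rw [sum_range_succ']
    have h1 := ih (j + 1)
    have h2 := kapF_nonneg hq hw n (j + 1)
    have h3 : ∑ l ∈ range n, w (j + 1 + l) = ∑ l ∈ range n, w (j + (l + 1)) :=
      sum_congr rfl fun l _ => by rw [show j + 1 + l = j + (l + 1) by omega]
    have := mul_le_mul_of_nonneg_right (hq1 j) (add_nonneg (hw j) h2)
    simp only [add_zero]; linarith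

lemma kapF_good {q : ℕ → ℝ} {B : ℕ → Prop} [DecidablePred B] {r : ℝ} (hq : ∀ l, 0 ≤ q l)
    (hq1 : ∀ l, q l ≤ 1) (hr0 : 0 ≤ r) (hr : r ≤ 1 / 2) (hB : ∀ l, ¬ B l → q l ≤ r) (n j : ℕ) :
    kapF q (fun l => if B l then 0 else 1) n j ≤ 2 * r := by
  induction n generalizing j with
  | zero => simp [kapF, hr0]
  | succ n ih =>
    simp only [kapF]
    have h1 := ih (j + 1)
    have h2 := kapF_nonneg (w := fun l => if B l then 0 else 1) hq
      (fun l => by split_ifs <;> norm_num) n (j + 1)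
    split_ifs with h
    · nlinarith [hq1 j, hq j]
    · nlinarith [hB j h, hq j]

lemma kap_bad_le {q : ℕ → ℝ} {B : ℕ → Prop} [DecidablePred B] (hq : ∀ l, 0 ≤ q l)
    (hq1 : ∀ l, q l ≤ 1) {j : ℕ} (hj : j ≤ m) :
    kap q (fun l => if B l then 1 else 0) m j ≤ ∑ l ∈ range m, if B l then (1 : ℝ) else 0 := by
  have hw : ∀ l, (0 : ℝ) ≤ if B l then 1 else 0 := fun l => by split_ifs <;> norm_num
  refine (kapF_le_sum hq hq1 hw _ _).trans ?_
  rw [← sum_range_add_sum_Ico _ hj, sum_Ico_eq_sum_range]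
  exact le_add_of_nonneg_left (sum_nonneg fun l _ => hw l)

lemma kap_split (q : ℕ → ℝ) (B : ℕ → Prop) [DecidablePred B] (j : ℕ) :
    kap q (fun _ => 1) m j = kap q (fun l => if B l then 1 else 0) m j
      + kap q (fun l => if B l then 0 else 1) m j := by
  unfold kap; rw [← kapF_add]; congr 1; funext l; split_ifs <;> norm_num

lemma kap_le {q : ℕ → ℝ} {B : ℕ → Prop} [DecidablePred B] {r : ℝ} (hq : ∀ l, 0 ≤ q l)
    (hq1 : ∀ l, q l ≤ 1) (hr0 : 0 ≤ r) (hr : r ≤ 1 / 2) (hB : ∀ l, ¬ B l → q l ≤ r) {j : ℕ}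
    (hj : j ≤ m) :
    kap q (fun _ => 1) m j ≤ (∑ l ∈ range m, if B l then (1 : ℝ) else 0) + 1 := by
  rw [kap_split q B]
  have h1 := kap_bad_le (B := B) hq hq1 hj
  have h2 := kapF_good hq hq1 hr0 hr hB (m - j) j
  unfold kap at *; linarith

lemma kap_sum {q μ f : ℕ → ℝ} {B : ℕ → Prop} [DecidablePred B] {r c : ℝ} (hq : ∀ l, 0 ≤ q l)
    (hq1 : ∀ l, q l ≤ 1) (hr0 : 0 ≤ r) (hr : r ≤ 1 / 2) (hB : ∀ l, ¬ B l → q l ≤ r)
    (hc : 0 ≤ c) (hμ0 : ∀ i, i < m → 0 ≤ μ i) (hf : ∀ i, 0 ≤ f i)
    (hμ : ∀ i, i < m → μ i ≤ c * (1 - q i) + f i) :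
    ∑ i ∈ range m, kap q (fun _ => 1) m (i + 1) * μ i
      ≤ (∑ l ∈ range m, if B l then (1 : ℝ) else 0) * (c + ∑ i ∈ range m, f i)
        + 2 * r * ∑ i ∈ range m, μ i := by
  set N := ∑ l ∈ range m, if B l then (1 : ℝ) else 0 with hN
  set κ := kap q (fun l => if B l then 1 else 0) m with hκ
  have hw : ∀ l, (0 : ℝ) ≤ if B l then 1 else 0 := fun l => by split_ifs <;> norm_num
  have k0 : ∀ j, 0 ≤ κ j := fun j => kapF_nonneg hq hw _ _
  have h1 : ∑ i ∈ range m, κ (i + 1) * (1 - q i) ≤ N := by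
    have : ∀ i ∈ range m, κ (i + 1) * (1 - q i)
        ≤ (κ (i + 1) - κ i) + if B i then 1 else 0 := by
      intro i hi
      have := kap_rec q (fun l => if B l then 1 else 0) (mem_range.1 hi)
      rw [← hκ] at this
      rw [this]
      nlinarith [hq1 i, hw i]
    refine (sum_le_sum this).trans ?_
    rw [sum_add_distrib, sum_range_sub, hκ, kap_top]
    linarith [k0 0]
  have h2 : ∀ i ∈ range m, kap q (fun _ => 1) m (i + 1) * μ i
      ≤ c * (κ (i + 1) * (1 - q i)) + N * f i + 2 * r * μ i := by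
    intro i hi
    have hi' := mem_range.1 hi
    rw [kap_split q B]
    have a1 := kap_bad_le (B := B) (m := m) (j := i + 1) hq hq1 (by omega)
    have a2 : kap q (fun l => if B l then 0 else 1) m (i + 1) ≤ 2 * r :=
      kapF_good hq hq1 hr0 hr hB _ _
    rw [← hκ, ← hN] at a1
    rw [← hκ]
    nlinarith [mul_le_mul_of_nonneg_left (hμ i hi') (k0 (i + 1)),
      mul_le_mul_of_nonneg_right a1 (hf i), mul_le_mul_of_nonneg_right a2 (hμ0 i hi')]
  refine (sum_le_sum h2).trans ?_
  rw [sum_add_distrib, sum_add_distrib, ← mul_sum, ← mul_sum, ← mul_sum]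
  nlinarith [mul_le_mul_of_nonneg_left h1 hc]

variable [Fintype X]

lemma sum_skp (ν : Option X → ℝ) : ∑ o, ν o * skp o = ν none := by
  rw [Fintype.sum_option]; simp [skp]

lemma Ex_run_mul {K : Fin m → Option X → ℝ} (hK : IsProb K) (x0 : X) {q : ℕ → ℝ}
    (hq : ∀ i : Fin m, q i = K i none) {j0 : ℕ} (G : (Fin m → Option X) → ℝ)
    (hG : ∀ ξ (i : Fin m) a, j0 ≤ i → G (Function.update ξ i a) = G ξ) {j : ℕ} (hj0 : j0 ≤ j)
    (hj : j ≤ m) :
    Ex K (fun ξ => run x0 ξ j * G ξ) = kap q (fun _ => 1) m j * Ex K G := by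
  induction hj using Nat.decreasingInduction with
  | self => simp [run, runF, kap_top, Ex]
  | of_succ j hj ih =>
    have ih := ih (by omega)
    rw [kap_rec _ _ hj]
    have e : (fun ξ : Fin m → Option X => (run x0 ξ j : ℝ) * G ξ)
        = fun ξ => skp (ξ ⟨j, hj⟩) * (G ξ + run x0 ξ (j + 1) * G ξ) := by
      funext ξ
      unfold run
      rw [show m - j = (m - (j + 1)) + 1 by omega, runF_succ_real]
      have : ext x0 ξ j = ξ ⟨j, hj⟩ := ext_fin x0 ξ ⟨j, hj⟩
      rw [this]; ring
    rw [e, Ex_indep hK ⟨j, hj⟩ skp, sum_skp, Ex_add, ih, ← hq ⟨j, hj⟩]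
    · ring
    · intro ξ a
      rw [hG ξ ⟨j, hj⟩ a hj0, run_update x0 ξ ⟨j, hj⟩ a (by simp)]

end Vale.Agent.P249
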