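import Vale.Agent.P249.Kernel
import Vale.Agent.P249.Run

/-! Metric estimates along the random path. -/

namespace Vale.Agent.P249

open Finset

variable {X : Type*} [Fintype X] [PseudoMetricSpace X]

/-- skip amplitude -/
noncomputable def amp (θ : ℝ) (F : ℕ → Prop) [DecidablePred F] (i : ℕ) : ℝ :=
  if F i then 0 else Real.exp (-θ)

/-- kernel family -/
noncomputable def KK (ρ θ : ℝ) (F : ℕ → Prop) [DecidablePred F] (m : ℕ) (x : X) :
    Fin m → Option X → ℝ := fun i => ker ρ (amp θ F i) x i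

/-- growth on forced levels -/
noncomputable def GF (ρ : ℝ) (F : ℕ → Prop) [DecidablePred F] (m : ℕ) (x : X) : ℝ :=
  ∑ i ∈ range m, if F i then gr ρ x i else 0

/-- number of bad levels -/
noncomputable def NB (ρ θ : ℝ) (m : ℕ) (x : X) : ℝ :=
  ∑ i ∈ range m, if θ / 2 < gr ρ x i then 1 else 0

/-- normalised distance to the base point -/
noncomputable def ss (ρ : ℝ) {m : ℕ} (x0 y : X) (ξ : Fin m → Option X) (i : ℕ) : ℝ :=
  dist y (pz y (ext x0 ξ) i) / rad ρ i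

/-- normalised jump -/
noncomputable def ta (ρ : ℝ) {m : ℕ} (x0 y : X) (ξ : Fin m → Option X) (i : ℕ) : ℝ :=
  dist (pz y (ext x0 ξ) (i + 1)) (pz y (ext x0 ξ) i) / rad ρ (i + 1)

variable {ρ θ L : ℝ} {F : ℕ → Prop} [DecidablePred F] {m : ℕ}

lemma amp_nonneg (i : ℕ) : 0 ≤ amp θ F i := by
  unfold amp; split_ifs
  · exact le_rfl
  · exact (Real.exp_pos _).le

lemma KK_prob (x : X) : IsProb (KK ρ θ F m x) :=
  ⟨fun i o => ker_nonneg (amp_nonneg _) x i o, fun i => ker_sum (amp_nonneg _) x i⟩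

lemma GF_nonneg (hρ : 0 < ρ) (x : X) : 0 ≤ GF ρ F m x :=
  sum_nonneg fun i _ => by
    split_ifs
    · exact gr_nonneg hρ x i
    · exact le_rfl

lemma gr_le_GF (hρ : 0 < ρ) (x : X) {i : ℕ} (hi : i < m) :
    (if F i then gr ρ x i else 0) ≤ GF ρ F m x :=
  single_le_sum (f := fun i => if F i then gr ρ x i else 0) (fun i _ => by
    split_ifs
    · exact gr_nonneg hρ x i
    · exact le_rfl) (mem_range.2 hi)

lemma NB_nonneg (x : X) : 0 ≤ NB ρ θ m x :=
  sum_nonneg fun i _ => by split_ifs <;> norm_num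

lemma ker_none_le_one (x : X) (i : ℕ) : ker ρ (amp θ F i) x i none ≤ 1 := by
  rw [← ker_sum (ρ := ρ) (amp_nonneg (θ := θ) (F := F) i) x i]
  exact single_le_sum (f := fun o => ker ρ (amp θ F i) x i o)
    (fun o _ => ker_nonneg (amp_nonneg _) x i o) (mem_univ _)

lemma ker_none_good (x : X) (i : ℕ) (h : ¬ θ / 2 < gr ρ x i) :
    ker ρ (amp θ F i) x i none ≤ Real.exp (-θ / 2) := by
  refine (ker_none_le (amp_nonneg _) x i).trans ?_
  unfold amp; split_ifs
  · simp [(Real.exp_pos _).le]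
  · rw [← Real.exp_add]; exact Real.exp_le_exp.2 (by linarith)

lemma exp_half_le (hθ : 2 ≤ θ) : Real.exp (-θ / 2) ≤ 1 / 2 := by
  have h1 : Real.exp (-θ / 2) ≤ Real.exp (-1) := Real.exp_le_exp.2 (by linarith)
  have h2 : Real.exp (-1) * Real.exp 1 = 1 := by rw [← Real.exp_add]; simp
  nlinarith [Real.add_one_le_exp (1 : ℝ), Real.exp_pos (-1)]

lemma exp_L_le (hθ : 2 ≤ θ) (hθL : Real.exp (-θ / 2) * L ≤ 1) : 2 * Real.exp (-θ) * L ≤ 1 := by
  have e : Real.exp (-θ) = Real.exp (-θ / 2) * Real.exp (-θ / 2) := by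
    rw [← Real.exp_add]; ring_nf
  rw [e]
  nlinarith [exp_half_le hθ, Real.exp_pos (-θ / 2)]

lemma mom_fine (hρ : 0 < ρ) (hθ : 2 ≤ θ) (x : X) (i : ℕ) :
    ∑ o, ker ρ (amp θ F i) x i o * tt ρ x i o
      ≤ 2 * θ * (1 - ker ρ (amp θ F i) x i none)
        + (2 * Real.exp (-θ) * gr ρ x i + if F i then gr ρ x i else 0) := by
  have hg := gr_nonneg hρ x i
  by_cases h : F i
  · have h1 := first_moment hρ (amp_nonneg (θ := θ) (F := F) i) x i
    have h2 := ker_none_le_one (ρ := ρ) (θ := θ) (F := F) x i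
    rw [if_pos h]
    have : 0 ≤ 2 * Real.exp (-θ) * gr ρ x i := by positivity
    nlinarith
  · have := first_moment_skip hρ x i (θ := θ) (by linarith)
    simp only [amp, if_neg h]; linarith

lemma mom_coarse (hρ : 0 < ρ) (hθ : 2 ≤ θ) (hL : Real.log (Fintype.card X) ≤ L)
    (hθL : Real.exp (-θ / 2) * L ≤ 1) (x : X) {i : ℕ} (hi : i < m) :
    ∑ o, ker ρ (amp θ F i) x i o * tt ρ x i o ≤ 2 * θ + 1 + GF ρ F m x := by
  have h1 := mom_fine (F := F) hρ hθ x i
  have h2 := gr_le_GF (F := F) hρ x hi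
  have h3 : gr ρ x i ≤ L := (single_le_sum (f := fun i => gr ρ x i)
    (fun i _ => gr_nonneg hρ x i) (mem_range.2 hi)).trans (sum_gr_le hρ x m hL)
  have h4 := exp_L_le hθ hθL
  have h5 := ker_nonneg (ρ := ρ) (amp_nonneg (θ := θ) (F := F) i) x i none
  nlinarith [mul_le_mul_of_nonneg_left h3 (Real.exp_pos (-θ)).le]

omit [Fintype X] in
lemma ss_nonneg (hρ : 0 < ρ) (x0 y : X) (ξ : Fin m → Option X) (i : ℕ) : 0 ≤ ss ρ x0 y ξ i :=
  div_nonneg dist_nonneg (rad_pos hρ _).le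

omit [Fintype X] in
lemma ta_nonneg (hρ : 0 < ρ) (x0 y : X) (ξ : Fin m → Option X) (i : ℕ) : 0 ≤ ta ρ x0 y ξ i :=
  div_nonneg dist_nonneg (rad_pos hρ _).le

omit [Fintype X] in
lemma ss_zero (x0 y : X) (ξ : Fin m → Option X) : ss ρ x0 y ξ 0 = 0 := by simp [ss, pz]

omit [Fintype X] in
lemma ss_succ (hρ : 0 < ρ) (x0 y : X) (ξ : Fin m → Option X) (i : Fin m) :
    ss ρ x0 y ξ (i + 1) = tt ρ y i (ξ i) + skp (ξ i) * (ss ρ x0 y ξ i / 2) := by
  unfold ss
  conv_lhs => unfold pz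
  rw [ext_fin]
  have := rad_pos hρ i
  cases ξ i with
  | none => simp only [Option.getD_none, tt, skp, rad_succ]; field_simp; ring
  | some z => simp [tt, skp]

omit [Fintype X] in
lemma ta_le_fine (hρ : 0 < ρ) (x0 y : X) (ξ : Fin m → Option X) (i : Fin m) :
    ta ρ x0 y ξ i ≤ tt ρ y i (ξ i) + (1 - skp (ξ i)) * (ss ρ x0 y ξ i / 2) := by
  unfold ta ss
  conv_lhs => enter [1, 1]; unfold pz
  rw [ext_fin]
  have := rad_pos hρ i
  cases ξ i with
  | none => simp [tt, skp]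
  | some z =>
    simp only [Option.getD_some, tt, skp, rad_succ, sub_zero, one_mul]
    rw [div_div, mul_comm (rad ρ i) 2, ← add_div]
    exact div_le_div_of_nonneg_right (dist_triangle_left _ _ _) (by positivity)

omit [Fintype X] in
lemma ta_le_coarse (hρ : 0 < ρ) (x0 y : X) (ξ : Fin m → Option X) (i : ℕ) :
    ta ρ x0 y ξ i ≤ ss ρ x0 y ξ (i + 1) + ss ρ x0 y ξ i := by
  unfold ta ss
  have h := rad_pos hρ i
  have h1 : dist y (pz y (ext x0 ξ) i) / rad ρ (i + 1) ≤ dist y (pz y (ext x0 ξ) i) / rad ρ i :=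
    div_le_div_of_nonneg_left dist_nonneg h (by rw [rad_succ]; linarith)
  refine le_trans ?_ (add_le_add_right h1 _)
  rw [← add_div]
  exact div_le_div_of_nonneg_right (dist_triangle_left _ _ _) (rad_pos hρ _).le

omit [Fintype X] in
lemma ss_update (x0 y : X) (ξ : Fin m → Option X) (i : Fin m) (a : Option X) {l : ℕ}
    (hl : l ≤ i) : ss ρ x0 y (Function.update ξ i a) l = ss ρ x0 y ξ l := by
  unfold ss; rw [pz_update x0 y ξ i a hl]

omit [Fintype X] in
lemma ta_update (x0 y : X) (ξ : Fin m → Option X) (i : Fin m) (a : Option X) {l : ℕ}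
    (hl : l + 1 ≤ i) : ta ρ x0 y (Function.update ξ i a) l = ta ρ x0 y ξ l := by
  unfold ta; rw [pz_update x0 y ξ i a hl, pz_update x0 y ξ i a (by omega)]

omit [Fintype X] [PseudoMetricSpace X] in
lemma skp_nonneg (o : Option X) : 0 ≤ skp o := by cases o <;> simp [skp]

omit [Fintype X] [PseudoMetricSpace X] in
lemma skp_le_one (o : Option X) : skp o ≤ 1 := by cases o <;> simp [skp]

lemma Ex_ss_succ (hρ : 0 < ρ) (x0 y : X) {i : ℕ} (hi : i < m) :
    Ex (KK ρ θ F m y) (fun ξ => ss ρ x0 y ξ (i + 1))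
      ≤ ∑ o, ker ρ (amp θ F i) y i o * tt ρ y i o
        + Ex (KK ρ θ F m y) (fun ξ => ss ρ x0 y ξ i) / 2 := by
  have hK := KK_prob (ρ := ρ) (θ := θ) (F := F) (m := m) y
  have := Ex_mono hK.nonneg (f := fun ξ => ss ρ x0 y ξ (i + 1))
    (g := fun ξ => tt ρ y i (ξ ⟨i, hi⟩) + (1 / 2) * ss ρ x0 y ξ i) fun ξ => by
      have := ss_succ hρ x0 y ξ ⟨i, hi⟩
      simp only at this
      rw [this]
      nlinarith [skp_le_one (ξ ⟨i, hi⟩), ss_nonneg hρ x0 y ξ i]
  rw [Ex_add, Ex_mul, Ex_coord hK ⟨i, hi⟩ (tt ρ y i)] at this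
  simp only [KK] at this ⊢
  linarith

lemma Ex_ss_le (hρ : 0 < ρ) (hθ : 2 ≤ θ) (hL : Real.log (Fintype.card X) ≤ L)
    (hθL : Real.exp (-θ / 2) * L ≤ 1) (x0 y : X) {i : ℕ} (hi : i ≤ m) :
    Ex (KK ρ θ F m y) (fun ξ => ss ρ x0 y ξ i) ≤ 2 * (2 * θ + 1 + GF ρ F m y) := by
  induction i with
  | zero =>
    simp only [ss_zero]; rw [Ex_const (KK_prob y)]
    linarith [GF_nonneg (F := F) (m := m) hρ y]
  | succ i ih =>
    have h1 := Ex_ss_succ (θ := θ) (F := F) hρ x0 y (show i < m by omega)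
    have h2 := mom_coarse (F := F) hρ hθ hL hθL y (show i < m by omega)
    linarith [ih (by omega)]

lemma half_rec_sum {e a : ℕ → ℝ} {n : ℕ} (h0 : e 0 = 0) (he : ∀ i, 0 ≤ e i)
    (h : ∀ i, i < n → e (i + 1) ≤ a i + e i / 2) :
    ∑ i ∈ range (n + 1), e i ≤ 2 * ∑ i ∈ range n, a i := by
  have h1 : ∑ i ∈ range n, e (i + 1) ≤ ∑ i ∈ range n, (a i + e i / 2) :=
    sum_le_sum fun i hi => h i (mem_range.1 hi)
  rw [sum_add_distrib, ← sum_div] at h1
  have h2 := sum_range_succ' e n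
  have h3 := sum_range_succ e n
  linarith [he n]

lemma Ex_ta_le (hρ : 0 < ρ) (x0 y : X) {i : ℕ} (hi : i < m) :
    Ex (KK ρ θ F m y) (fun ξ => ta ρ x0 y ξ i)
      ≤ ∑ o, ker ρ (amp θ F i) y i o * tt ρ y i o
        + (1 - ker ρ (amp θ F i) y i none) * (Ex (KK ρ θ F m y) (fun ξ => ss ρ x0 y ξ i) / 2) := by
  have hK := KK_prob (ρ := ρ) (θ := θ) (F := F) (m := m) y
  have := Ex_mono hK.nonneg (f := fun ξ => ta ρ x0 y ξ i)
    (g := fun ξ => tt ρ y i (ξ ⟨i, hi⟩) + (1 - skp (ξ ⟨i, hi⟩)) * ((1 / 2) * ss ρ x0 y ξ i))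
    fun ξ => by
      have := ta_le_fine hρ x0 y ξ ⟨i, hi⟩
      simp only at this
      linarith
  rw [Ex_add, Ex_coord hK ⟨i, hi⟩ (tt ρ y i),
    Ex_indep hK ⟨i, hi⟩ (fun o => 1 - skp o) (fun ξ => (1 / 2) * ss ρ x0 y ξ i)
      (fun ξ a => by rw [ss_update x0 y ξ ⟨i, hi⟩ a le_rfl]), Ex_mul] at this
  have e : ∑ a, KK ρ θ F m y ⟨i, hi⟩ a * (1 - skp a) = 1 - ker ρ (amp θ F i) y i none := by
    simp only [mul_sub, mul_one, sum_sub_distrib, hK.sum_one, sum_skp]; rfl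
  rw [e] at this
  simp only [KK] at this ⊢
  linarith

lemma Ex_run_le (hθ : 2 ≤ θ) (x0 y : X) {j : ℕ} (hj : j ≤ m) (G : (Fin m → Option X) → ℝ)
    (hG0 : ∀ ξ, 0 ≤ G ξ) (hG : ∀ ξ (i : Fin m) a, j ≤ i → G (Function.update ξ i a) = G ξ) :
    Ex (KK ρ θ F m y) (fun ξ => run x0 ξ j * G ξ) ≤ (NB ρ θ m y + 1) * Ex (KK ρ θ F m y) G := by
  have hK := KK_prob (ρ := ρ) (θ := θ) (F := F) (m := m) y
  rw [Ex_run_mul hK x0 (q := fun i => ker ρ (amp θ F i) y i none) (fun _ => rfl) G hG le_rfl hj]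
  refine mul_le_mul_of_nonneg_right ?_ (Ex_nonneg hK.nonneg hG0)
  exact kap_le (B := fun i => θ / 2 < gr ρ y i) (fun i => ker_nonneg (amp_nonneg _) y i _)
    (fun i => ker_none_le_one y i) (Real.exp_pos _).le (exp_half_le hθ)
    (fun i h => ker_none_good y i h) hj

lemma skip_cost (hρ : 0 < ρ) (hθ : 2 ≤ θ) (hL : Real.log (Fintype.card X) ≤ L)
    (hθL : Real.exp (-θ / 2) * L ≤ 1) (x0 y : X) :
    ∑ i ∈ range m, Ex (KK ρ θ F m y) (fun ξ => run x0 ξ (i + 1) * ta ρ x0 y ξ i)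
      ≤ NB ρ θ m y * (6 * θ + 2 * GF ρ F m y) + 4 := by
  have hK := KK_prob (ρ := ρ) (θ := θ) (F := F) (m := m) y
  have hG := GF_nonneg (F := F) (m := m) hρ y
  have hN := NB_nonneg (ρ := ρ) (θ := θ) (m := m) y
  have hgL := sum_gr_le hρ y m hL
  set q := fun i => ker ρ (amp θ F i) y i none with hq
  set μ := fun i => Ex (KK ρ θ F m y) (fun ξ => ta ρ x0 y ξ i) with hμ
  set e := fun i => Ex (KK ρ θ F m y) (fun ξ => ss ρ x0 y ξ i) with he
  set a := fun i => ∑ o, ker ρ (amp θ F i) y i o * tt ρ y i o with ha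
  have q0 : ∀ i, 0 ≤ q i := fun i => ker_nonneg (amp_nonneg _) y i _
  have q1 : ∀ i, q i ≤ 1 := fun i => ker_none_le_one y i
  have e0 : ∀ i, 0 ≤ e i := fun i => Ex_nonneg hK.nonneg fun ξ => ss_nonneg hρ x0 y ξ i
  have h1 : ∀ i ∈ range m, Ex (KK ρ θ F m y) (fun ξ => run x0 ξ (i + 1) * ta ρ x0 y ξ i)
      = kap q (fun _ => 1) m (i + 1) * μ i := fun i hi =>
    Ex_run_mul hK x0 (fun _ => rfl) _ (j0 := i + 1)
      (fun ξ i' a h => ta_update x0 y ξ i' a h) le_rfl (mem_range.1 hi)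
  rw [sum_congr rfl h1]
  have h2 := kap_sum (m := m) (q := q) (μ := μ) (B := fun i => θ / 2 < gr ρ y i)
    (f := fun i => 2 * Real.exp (-θ) * gr ρ y i + if F i then gr ρ y i else 0)
    (c := 4 * θ + 1 + GF ρ F m y) q0 q1 (Real.exp_pos _).le (exp_half_le hθ)
    (fun i h => ker_none_good y i h) (by linarith)
    (fun i _ => Ex_nonneg hK.nonneg fun ξ => ta_nonneg hρ x0 y ξ i)
    (fun i => by
      have := gr_nonneg hρ y i
      split_ifs <;> positivity)
    (fun i hi => by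
      have b1 := Ex_ta_le (θ := θ) (F := F) hρ x0 y hi
      have b2 := mom_fine (F := F) hρ hθ y i
      have b3 := Ex_ss_le (F := F) hρ hθ hL hθL x0 y hi.le
      have b4 : 0 ≤ 1 - q i := by linarith [q1 i]
      simp only [hμ, hq] at b4 ⊢
      nlinarith [mul_le_mul_of_nonneg_left b3 b4])
  have h3 : ∑ i ∈ range m, a i ≤ L :=
    (sum_le_sum fun i _ => first_moment hρ (amp_nonneg _) y i).trans hgL
  have h4 := half_rec_sum (e := e) (a := a) (n := m)
    (by simp only [he, ss_zero]; exact Ex_const hK 0) e0 fun i hi => Ex_ss_succ hρ x0 y hi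
  rw [sum_range_succ] at h4
  have h5 : ∑ i ∈ range m, μ i ≤ ∑ i ∈ range m, (a i + e i / 2) :=
    sum_le_sum fun i hi => by
      have b1 := Ex_ta_le (θ := θ) (F := F) hρ x0 y (mem_range.1 hi)
      have := e0 i
      have := q0 i
      simp only [hμ, ha, he, hq] at *
      nlinarith
  rw [sum_add_distrib, ← sum_div] at h5
  rw [sum_add_distrib, ← mul_sum] at h2
  have h6 := exp_L_le hθ hθL
  have h7 : 2 * Real.exp (-θ) * ∑ i ∈ range m, gr ρ y i ≤ 1 :=
    (mul_le_mul_of_nonneg_left hgL (by positivity)).trans h6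
  have h8 : ∑ i ∈ range m, μ i ≤ 2 * L := by linarith [e0 m]
  have h9 := mul_le_mul_of_nonneg_left h8 (Real.exp_pos (-θ / 2)).le
  refine h2.trans ?_
  change NB ρ θ m y * (_ + (_ + GF ρ F m y)) + _ ≤ _
  nlinarith

lemma Ex_ta_rpow {p A : ℝ} (hp : 1 ≤ p) (hρ : 0 < ρ) (hθ : 2 ≤ θ)
    (hL : Real.log (Fintype.card X) ≤ L) (hA0 : 0 ≤ A)
    (hA : 2 ^ p * (4 * ((2 * θ) ^ (p - 1) + 4 * (2 * p) ^ p) * L + 1) ≤ A ^ p) (x0 y : X)
    (hx0 : dist y x0 ≤ rad ρ (m + 1)) :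
    Ex (KK ρ θ F m y) (fun ξ => ∑ l ∈ range (m + 1), ta ρ x0 y ξ l ^ p)
      ≤ (A + 16 * GF ρ F m y) ^ p := by
  have hK := KK_prob (ρ := ρ) (θ := θ) (F := F) (m := m) y
  have hG := GF_nonneg (F := F) (m := m) hρ y
  have hp0 : 0 < p := by linarith
  have h1 : ∀ ξ : Fin m → Option X, ∑ l ∈ range (m + 1), ta ρ x0 y ξ l ^ p
      ≤ 2 ^ p * (4 * ∑ i : Fin m, tt ρ y i (ξ i) ^ p + 1) := by
    intro ξ
    have s0 := ss_nonneg hρ x0 y ξ
    have a1 : ∑ l ∈ range (m + 1), ta ρ x0 y ξ l ^ p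
        ≤ ∑ l ∈ range (m + 1), 2 ^ p * (ss ρ x0 y ξ (l + 1) ^ p + ss ρ x0 y ξ l ^ p) :=
      sum_le_sum fun l _ => (Real.rpow_le_rpow (ta_nonneg hρ x0 y ξ l)
        (ta_le_coarse hρ x0 y ξ l) hp0.le).trans (add_rpow_le_two hp (s0 _) (s0 _))
    have a2 := half_rec_sum (e := fun i => ss ρ x0 y ξ i ^ p)
      (a := fun i => tt ρ y i (ext x0 ξ i) ^ p) (n := m)
      (by simp only [ss_zero]; exact Real.zero_rpow hp0.ne')
      (fun i => Real.rpow_nonneg (s0 i) p) (fun i hi => by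
        have := ss_succ hρ x0 y ξ ⟨i, hi⟩
        have e := ext_fin x0 ξ ⟨i, hi⟩
        simp only at this e
        rw [this, e]
        cases ξ ⟨i, hi⟩ with
        | none =>
          simp only [tt, skp, zero_add, one_mul, Real.zero_rpow hp0.ne']
          rw [Real.div_rpow (s0 i) (by norm_num)]
          refine div_le_div_of_nonneg_left (Real.rpow_nonneg (s0 i) p) (by norm_num) ?_
          simpa using Real.rpow_le_rpow_of_exponent_le (x := 2) (by norm_num) hp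
        | some z =>
          simp only [skp, zero_mul, add_zero]
          linarith [Real.rpow_nonneg (s0 i) p])
    have a3 : ∑ i ∈ range m, tt ρ y i (ext x0 ξ i) ^ p = ∑ i : Fin m, tt ρ y i (ξ i) ^ p := by
      rw [← Fin.sum_univ_eq_sum_range (fun i => tt ρ y i (ext x0 ξ i) ^ p)]
      exact sum_congr rfl fun i _ => by rw [ext_fin]
    have a4 : ss ρ x0 y ξ (m + 1) ^ p ≤ 1 := by
      refine Real.rpow_le_one (s0 _) ?_ hp0.le
      unfold ss
      rw [div_le_one (rad_pos hρ _)]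
      simpa [pz, ext] using hx0
    have a5 := sum_range_succ' (fun i => ss ρ x0 y ξ i ^ p) (m + 1)
    have a6 := sum_range_succ (fun i => ss ρ x0 y ξ i ^ p) (m + 1)
    have a7 := Real.rpow_nonneg (s0 0) p
    rw [← mul_sum, sum_add_distrib] at a1
    refine a1.trans (mul_le_mul_of_nonneg_left ?_ (by positivity))
    rw [a3] at a2
    linarith
  refine (Ex_mono hK.nonneg h1).trans ?_
  rw [Ex_mul, Ex_add, Ex_mul, Ex_const hK, Ex_sum]
  have h2 : ∀ i : Fin m, Ex (KK ρ θ F m y) (fun ξ => tt ρ y i (ξ i) ^ p)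
      ≤ ((2 * θ) ^ (p - 1) + 4 * (2 * p) ^ p) * gr ρ y i
        + (2 * GF ρ F m y) ^ (p - 1) * (if F i then gr ρ y i else 0) := by
    intro i
    have hg := gr_nonneg hρ y i
    rw [Ex_coord hK i (fun o => tt ρ y i o ^ p)]
    by_cases h : F i
    · have b1 := p_moment hp hρ (amp_nonneg (θ := θ) (F := F) i) y i (c := max θ (gr ρ y i))
        (le_max_of_le_left (by linarith)) (Or.inr (le_max_right _ _))
      have b2 := gr_le_GF (F := F) hρ y i.2
      rw [if_pos h] at b2 ⊢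
      have b3 : (2 * max θ (gr ρ y i)) ^ (p - 1)
          ≤ (2 * θ) ^ (p - 1) + (2 * GF ρ F m y) ^ (p - 1) := by
        have c1 : 0 ≤ (2 * θ) ^ (p - 1) := Real.rpow_nonneg (by linarith) _
        have c2 : 0 ≤ (2 * GF ρ F m y) ^ (p - 1) := Real.rpow_nonneg (by linarith) _
        rcases max_choice θ (gr ρ y i) with h' | h' <;> rw [h']
        · linarith
        · linarith [Real.rpow_le_rpow (by linarith : 0 ≤ 2 * gr ρ y i)
            (by linarith : 2 * gr ρ y i ≤ 2 * GF ρ F m y) (by linarith : 0 ≤ p - 1)]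
      simp only [KK]
      nlinarith [mul_le_mul_of_nonneg_right b3 hg]
    · have b1 := p_moment hp hρ (amp_nonneg (θ := θ) (F := F) i) y i (c := θ)
        (by linarith) (Or.inl (by simp [amp, h]))
      rw [if_neg h]; simp only [KK]; linarith
  have h3 := sum_le_sum (s := univ) fun i _ => h2 i
  rw [sum_add_distrib, ← mul_sum, ← mul_sum, Fin.sum_univ_eq_sum_range (fun i => gr ρ y i),
    Fin.sum_univ_eq_sum_range (fun i => if F i then gr ρ y i else 0)] at h3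
  change _ ≤ _ + _ * GF ρ F m y at h3
  have h4 := sum_gr_le hρ y m hL
  have C0 : 0 ≤ (2 * θ) ^ (p - 1) + 4 * (2 * p) ^ p :=
    add_nonneg (Real.rpow_nonneg (by linarith) _) (by positivity)
  have h5 := mul_le_mul_of_nonneg_left h4 C0
  have h6 : 2 ^ p * (4 * ((2 * GF ρ F m y) ^ (p - 1) * GF ρ F m y)) ≤ (16 * GF ρ F m y) ^ p := by
    have e2 : (2 * GF ρ F m y) ^ p = (2 * GF ρ F m y) ^ (p - 1) * (2 * GF ρ F m y) := by
      rw [← Real.rpow_add_one' (by linarith) (by linarith)]; simp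
    have e3 : (16 * GF ρ F m y) ^ p = 2 ^ p * (4 ^ p * (2 * GF ρ F m y) ^ p) := by
      rw [← Real.mul_rpow (by norm_num) (by linarith), ← Real.mul_rpow (by norm_num) (by linarith)]
      congr 1; ring
    have e4 : (4 : ℝ) ≤ 4 ^ p := by
      simpa using Real.rpow_le_rpow_of_exponent_le (x := 4) (by norm_num) hp
    have e5 : 0 ≤ (2 * GF ρ F m y) ^ (p - 1) * GF ρ F m y :=
      mul_nonneg (Real.rpow_nonneg (by linarith) _) hG
    rw [e3, e2]
    refine mul_le_mul_of_nonneg_left ?_ (by positivity)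
    nlinarith
  have h7 := Real.add_rpow_le_rpow_add hA0 (by linarith : 0 ≤ 16 * GF ρ F m y) hp
  have h8 : (0 : ℝ) ≤ 2 ^ p := by positivity
  nlinarith [mul_le_mul_of_nonneg_left h3 h8, mul_le_mul_of_nonneg_left h5 h8]

end Vale.Agent.P249
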